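import Vale.Agent.Lib.P322y.LowNoise

/-! Assembly of the inequality `Fcert` from the middle zone. -/

namespace Vale.Agent.Lib.P322y

open Vale.Agent.Lib.P311 Vale.Agent.Lib.P322

variable {n : ℕ}

/-- `Fcert` from the middle zone. -/
theorem Fcert_of_mid
    (hMid : ∀ e m d : ℝ, 1 / 10000 ≤ e → e ≤ 9 / 400 → 0 ≤ m → m + d ≤ 1 → 6 * m ^ 2 + d ^ 2 < 4 →
      4 / 5 ≤ d * Real.log (1 / e) → d ≤ 97 / 100 →
      ∃ th v : ℝ, ValidPair e th v ∧ LL e m ≤ th * d + v / 2 * (LL e (m + d) + LL e (m - d))) :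
    Fcert := by
  intro e m d h0 h1 hm hd hmd hO
  by_cases hlow : e ≤ 1 / 10000
  · exact FcertAt_low h0 hlow m d hm hd hmd hO
  push Not at hlow
  rcases eq_or_lt_of_le hd with hd0 | hd0
  · rw [← hd0]
    exact cert_d_zero h0 (by linarith)
  by_cases hdl : d * Real.log (1 / e) ≤ 4 / 5
  · exact zoneV1 h0 h1 hm hd0 hmd hO hdl
  push Not at hdl
  by_cases hc : 97 / 100 ≤ d
  · exact zoneCorner (fun e s he0 he1 hs0 hs1 => V2_valid he0 he1 hs0 hs1) h0 h1 hm hc hmd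
  push Not at hc
  exact hMid e m d hlow.le h1 hm hmd hO hdl.le hc.le

/-- The Courtade-Kumar inequality from the middle zone. -/
theorem ck_of_mid
    (hMid : ∀ e m d : ℝ, 1 / 10000 ≤ e → e ≤ 9 / 400 → 0 ≤ m → m + d ≤ 1 → 6 * m ^ 2 + d ^ 2 < 4 →
      4 / 5 ≤ d * Real.log (1 / e) → d ≤ 97 / 100 →
      ∃ th v : ℝ, ValidPair e th v ∧ LL e m ≤ th * d + v / 2 * (LL e (m + d) + LL e (m - d)))
    (f : (Fin n → Bool) → Bool) {ε : ℝ} (h0 : 0 ≤ ε) (h1 : ε ≤ 1 / 2) :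
    mutualInfo f ε ≤ 1 - h2 ε :=
  ck_of_Fcert (Fcert_of_mid hMid) f h0 h1

end Vale.Agent.Lib.P322y
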