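import Vale.Agent.Lib.P322y.ZoneT

/-! The closure property from the inequality `Fcert`, and the Courtade-Kumar inequality. -/

set_option linter.unusedVariables false
set_option linter.unusedSectionVars false

namespace Vale.Agent.Lib.P322y

open Finset Vale.Agent.Lib.P311 Vale.Agent.Lib.P322 Vale.Agent.Lib.P322x

variable {n : ℕ} {e : ℝ}

lemma H_neg (u : ℝ) : H (-u) = H u := by
  unfold H
  have e1 : (1 + -u) / 2 = (1 - u) / 2 := by ring
  have e2 : (1 - -u) / 2 = (1 + u) / 2 := by ring
  rw [e1, e2]; ring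

lemma gt_neg (u : ℝ) : gt (-u) = gt u := by
  unfold gt; ring

lemma LL_neg (e u : ℝ) : LL e (-u) = LL e u := by
  unfold LL; rw [H_neg, gt_neg]

lemma NN_comm (e a b : ℝ) : NN e a b = NN e b a := by
  unfold NN
  have e1 : (1 - e) * a + e * b = e * b + (1 - e) * a := by ring
  have e2 : e * a + (1 - e) * b = (1 - e) * b + e * a := by ring
  rw [e1, e2]; ring

lemma NN_neg (e a b : ℝ) : NN e (-a) (-b) = NN e a b := by
  unfold NN
  have e1 : (1 - e) * -a + e * -b = -((1 - e) * a + e * b) := by ring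
  have e2 : e * -a + (1 - e) * -b = -(e * a + (1 - e) * b) := by ring
  rw [e1, e2, H_neg, H_neg]

lemma mean_neg (u : (Fin n → Bool) → ℝ) : mean (fun x => -u x) = -mean u := by
  have : ∀ x, -u x = (-1) * u x := fun x => by ring
  rw [mean_congr this, mean_mul_left]; ring

/-- The inequality `(F)` at a fixed noise level. -/
def FcertAt (e : ℝ) : Prop :=
  ∀ m d : ℝ, 0 ≤ m → 0 ≤ d → m + d ≤ 1 → 6 * m ^ 2 + d ^ 2 < 4 →
    ∃ th v : ℝ, ValidPair e th v ∧ LL e m ≤ th * d + v / 2 * (LL e (m + d) + LL e (m - d))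

/-- The closure step when the midpoint and the half difference are nonnegative. -/
lemma closure_pos (hF : FcertAt e) (h0 : 0 < e) (h1 : e ≤ 1 / 2) {a b : (Fin n → Bool) → ℝ}
    (ha : ∀ x, |a x| ≤ 1) (hb : ∀ x, |b x| ≤ 1)
    (hLa : LL e (mean a) ≤ mean (fun x => H (a x))) (hLb : LL e (mean b) ≤ mean (fun x => H (b x)))
    (hm : 0 ≤ (mean a + mean b) / 2) (hd : 0 ≤ (mean a - mean b) / 2) :
    LL e ((mean a + mean b) / 2) ≤ mean (fun x => NN e (a x) (b x)) := by
  by_cases hT : 4 ≤ 6 * ((mean a + mean b) / 2) ^ 2 + ((mean a - mean b) / 2) ^ 2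
  · exact closure_zoneT h0 h1 ha hb hLa hLb hT
  push Not at hT
  have hA : mean a ≤ 1 := by
    have h := mean_le_mean (u := a) (v := fun _ => (1 : ℝ)) (fun x => (abs_le.mp (ha x)).2)
    rwa [mean_const] at h
  have e3 : (mean a + mean b) / 2 + (mean a - mean b) / 2 = mean a := by ring
  have e4 : (mean a + mean b) / 2 - (mean a - mean b) / 2 = mean b := by ring
  obtain ⟨th, v, ⟨hth, hv0, hv1, hV⟩, hFF⟩ := hF _ _ hm hd (by rw [e3]; exact hA) hT
  rw [e3, e4] at hFF
  have hp : ∀ x, th * ((a x - b x) / 2) + v / 2 * (H (a x) + H (b x)) ≤ NN e (a x) (b x) :=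
    fun x => hV _ _ (ha x) (hb x)
  have hmean := mean_le_mean hp
  have e5 : mean (fun x => th * ((a x - b x) / 2) + v / 2 * (H (a x) + H (b x)))
      = th * ((mean a - mean b) / 2) + v / 2 * (mean (fun x => H (a x)) + mean (fun x => H (b x))) := by
    have e6 : ∀ x, (a x - b x) / 2 = (1 / 2 : ℝ) * a x + (-(1 / 2) : ℝ) * b x := fun x => by ring
    simp only [e6]
    rw [mean_add, mean_mul_left, mean_mul_left, mean_add, mean_mul_left, mean_mul_left, mean_add]
    ring
  rw [e5] at hmean
  have h6 : v / 2 * (LL e (mean a) + LL e (mean b))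
      ≤ v / 2 * (mean (fun x => H (a x)) + mean (fun x => H (b x))) :=
    mul_le_mul_of_nonneg_left (by linarith) (by linarith)
  linarith

/-- The closure property from `(F)` at a fixed noise level. -/
theorem closure_of_FcertAt {e : ℝ} (hF : FcertAt e) (h0 : 0 < e) (h1 : e ≤ 1 / 2) : ClosureAt e := by
  intro n a b ha hb hLa hLb
  have hna : ∀ x, |-a x| ≤ 1 := fun x => by rw [abs_neg]; exact ha x
  have hnb : ∀ x, |-b x| ≤ 1 := fun x => by rw [abs_neg]; exact hb x
  by_cases hm : 0 ≤ (mean a + mean b) / 2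
  · by_cases hd : 0 ≤ (mean a - mean b) / 2
    · exact closure_pos hF h0 h1 ha hb hLa hLb hm hd
    · push Not at hd
      have := closure_pos hF h0 h1 hb ha hLb hLa (by linarith) (by linarith)
      rw [add_comm (mean b)] at this
      simp_rw [NN_comm e (b _) (a _)] at this
      exact this
  · push Not at hm
    have hLa' : LL e (mean fun x => -a x) ≤ mean (fun x => H (-a x)) := by
      rw [mean_neg, LL_neg]; simpa only [H_neg] using hLa
    have hLb' : LL e (mean fun x => -b x) ≤ mean (fun x => H (-b x)) := by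
      rw [mean_neg, LL_neg]; simpa only [H_neg] using hLb
    by_cases hd : 0 ≤ (mean a - mean b) / 2
    · have := closure_pos hF h0 h1 hnb hna hLb' hLa'
        (by rw [mean_neg, mean_neg]; linarith) (by rw [mean_neg, mean_neg]; linarith)
      rw [mean_neg, mean_neg] at this
      have e1 : (-mean b + -mean a) / 2 = -((mean a + mean b) / 2) := by ring
      rw [e1, LL_neg] at this
      simp_rw [NN_neg, NN_comm e (b _) (a _)] at this
      exact this
    · push Not at hd
      have := closure_pos hF h0 h1 hna hnb hLa' hLb'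
        (by rw [mean_neg, mean_neg]; linarith) (by rw [mean_neg, mean_neg]; linarith)
      rw [mean_neg, mean_neg] at this
      have e1 : (-mean a + -mean b) / 2 = -((mean a + mean b) / 2) := by ring
      rw [e1, LL_neg] at this
      simp_rw [NN_neg] at this
      exact this

/-- The closure property from `Fcert`. -/
theorem closure_of_Fcert (hF : Fcert) {e : ℝ} (h0 : 0 < e) (h1 : e ≤ 9 / 400) : ClosureAt e :=
  closure_of_FcertAt (fun m d => hF e m d h0 h1) h0 (by linarith)

/-- The Courtade-Kumar inequality, at a fixed crossover probability, from `(F)` at that noise. -/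
theorem ck_of_FcertAt (f : (Fin n → Bool) → Bool) {ε : ℝ} (hF : 0 < ε → FcertAt ε) (h0 : 0 ≤ ε)
    (h1 : ε ≤ 9 / 400) : mutualInfo f ε ≤ 1 - h2 ε :=
  ck_of_closure_at f (fun h => closure_of_FcertAt (hF h) h (by linarith)) h0 h1

/-- The Courtade-Kumar inequality, for every Boolean function and every crossover probability, from
the inequality `Fcert`. -/
theorem ck_of_Fcert (hF : Fcert) (f : (Fin n → Bool) → Bool) {ε : ℝ} (h0 : 0 ≤ ε) (h1 : ε ≤ 1 / 2) :
    mutualInfo f ε ≤ 1 - h2 ε :=
  ck_of_closure (fun e h0' h1' => closure_of_Fcert hF h0' h1') f h0 h1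

end Vale.Agent.Lib.P322y
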