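import Mathlib

/-! One-variable Bellman route to the Courtade-Kumar inequality at low noise: common definitions.
Everything is in nats.  `e` is the crossover probability, `H u` the entropy of a bit with mean `u`. -/

namespace Vale.Agent.Lib.P322y

/-- Entropy (nats) of a `±1` bit with mean `u`. -/
noncomputable def H (u : ℝ) : ℝ := Real.negMulLog ((1 + u) / 2) + Real.negMulLog ((1 - u) / 2)

/-- One step of noise on one coordinate: `a, b` are the conditional means on the two faces. -/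
noncomputable def NN (e a b : ℝ) : ℝ :=
  (H ((1 - e) * a + e * b) + H (e * a + (1 - e) * b)) / 2

/-- The polynomial `1 - (4/3) m² + (1/3) m⁴ = (1 - m²)(3 - m²)/3`. -/
noncomputable def gt (m : ℝ) : ℝ := 1 - 4 / 3 * m ^ 2 + 1 / 3 * m ^ 4

/-- `1 - ρ²` with `ρ = 1 - 2e`. -/
noncomputable def sg (e : ℝ) : ℝ := 4 * e * (1 - e)

/-- `h(e) = H(1 - 2e)`. -/
noncomputable def hE (e : ℝ) : ℝ := H (1 - 2 * e)

/-- `κ = h(e) - (1 - ρ²) log 2`. -/
noncomputable def ka (e : ℝ) : ℝ := hE e - sg e * Real.log 2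

/-- The Bellman function `L(m) = (1-ρ²) H(m) + κ · gt(m)`. -/
noncomputable def LL (e m : ℝ) : ℝ := sg e * H m + ka e * gt m

/-- Dual certificate `(V)`: a pointwise lower bound of the one-step entropy. -/
def ValidPair (e th v : ℝ) : Prop :=
  0 ≤ th ∧ 0 ≤ v ∧ v ≤ 1 ∧ ∀ a b : ℝ, |a| ≤ 1 → |b| ≤ 1 →
    th * ((a - b) / 2) + v / 2 * (H a + H b) ≤ NN e a b

/-- The double-root family, `s = (1 - r) / 2`: the exponent `τ = 2 t`. -/
noncomputable def tauV2 (e s : ℝ) : ℝ :=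
  Real.log ((e + (1 - 2 * e) * s) * (1 - (e + (1 - 2 * e) * s)) / (s * (1 - s))) /
    Real.log (1 / (2 * s))

/-- The double-root family: the slope `θ`. -/
noncomputable def thetaV2 (e s : ℝ) : ℝ :=
  (H (1 - 2 * (e + (1 - 2 * e) * s)) - H (1 - 2 * s) + tauV2 e s / 2 * H (1 - 4 * s)) / (1 - 2 * s)

/-- The inequality `(F)` on the zone `Ω`. -/
def Fcert : Prop :=
  ∀ e m d : ℝ, 0 < e → e ≤ 9 / 400 → 0 ≤ m → 0 ≤ d → m + d ≤ 1 → 6 * m ^ 2 + d ^ 2 < 4 →
    ∃ th v : ℝ, ValidPair e th v ∧ LL e m ≤ th * d + v / 2 * (LL e (m + d) + LL e (m - d))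

end Vale.Agent.Lib.P322y
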