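import Vale.Agent.Lib.P322x.Final
import Vale.Agent.Lib.P322y.Defs

/-! Induction on the coordinates at fixed noise: the closure property of the one-variable function
`LL` gives the lower bound for the entropy of a noise image, and with it the Courtade-Kumar
inequality at low noise. -/

set_option linter.unusedVariables false
set_option linter.unusedSectionVars false

namespace Vale.Agent.Lib.P322y

open Finset Vale.Agent.Lib.P311 Vale.Agent.Lib.P322 Vale.Agent.Lib.P322x

/-- The closure property of `LL e`: for two functions `a, b` on a cube with values in `[-1, 1]`, if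
the mean entropies of `a` and of `b` are above `LL e` at their means, then the mean one-step entropy
of the pair is above `LL e` at the midpoint of the means. -/
def ClosureAt (e : ℝ) : Prop :=
  ∀ (n : ℕ) (a b : (Fin n → Bool) → ℝ), (∀ x, |a x| ≤ 1) → (∀ x, |b x| ≤ 1) →
    LL e (mean a) ≤ mean (fun x => H (a x)) → LL e (mean b) ≤ mean (fun x => H (b x)) →
    LL e ((mean a + mean b) / 2) ≤ mean (fun x => NN e (a x) (b x))

variable {n : ℕ}

lemma negMulLog_half {x : ℝ} (hx : 0 ≤ x) :
    Real.negMulLog (x / 2) = -(x / 2) * (Real.log x - Real.log 2) := by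
  rcases eq_or_lt_of_le hx with h | h
  · subst h; simp
  · unfold Real.negMulLog
    rw [Real.log_div h.ne' (by norm_num)]

/-- The entropy is `log 2 - Psi` on the closed interval. -/
lemma H_eq {u : ℝ} (h : |u| ≤ 1) : H u = Real.log 2 - Psi u := by
  have h1 := abs_le.mp h
  unfold H Psi
  rw [negMulLog_half (by linarith), negMulLog_half (by linarith)]
  ring

lemma H_eq_dfc {u : ℝ} (h : |u| ≤ 1) : H u = dfc u := H_eq h

lemma H_one : H 1 = 0 := by simp [H]

lemma H_neg_one : H (-1) = 0 := by simp [H]

lemma gt_one : gt 1 = 0 := by norm_num [gt]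

lemma gt_neg_one : gt (-1) = 0 := by norm_num [gt]

lemma LL_one (e : ℝ) : LL e 1 = 0 := by
  unfold LL; rw [H_one, gt_one]; ring

lemma LL_neg_one (e : ℝ) : LL e (-1) = 0 := by
  unfold LL; rw [H_neg_one, gt_neg_one]; ring

/-- The kernel on `n + 1` coordinates, along the first one. -/
lemma kern_cons (ρ : ℝ) (c d : Bool) (x y : Fin n → Bool) :
    kern ρ (Fin.cons c x : Fin (n + 1) → Bool) (Fin.cons d y)
      = ((1 + ρ * (P311.sg c * P311.sg d)) / 2) * kern ρ x y := by
  unfold kern
  rw [Fin.prod_univ_succ]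
  simp

/-- The noise on `n + 1` coordinates, along the first one. -/
lemma noise_cons (ρ : ℝ) (F : (Fin (n + 1) → Bool) → ℝ) (d : Bool) (y : Fin n → Bool) :
    noise ρ F (Fin.cons d y)
      = ((1 + ρ * P311.sg d) / 2) * noise ρ (child F true) y
        + ((1 - ρ * P311.sg d) / 2) * noise ρ (child F false) y := by
  rw [noise_eq_sum_kern, noise_eq_sum_kern, noise_eq_sum_kern, sum_split, add_comm]
  congr 1
  · rw [Finset.mul_sum]
    apply Finset.sum_congr rfl
    intro x _
    simp only [child]
    rw [kern_cons]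
    simp
    ring
  · rw [Finset.mul_sum]
    apply Finset.sum_congr rfl
    intro x _
    simp only [child]
    rw [kern_cons]
    simp
    ring

/-- The entropy of the noise image, as the one-step entropy of the pair of restrictions. -/
lemma mean_H_noise_split (e : ℝ) (F : (Fin (n + 1) → Bool) → ℝ) :
    mean (fun y => H (noise (1 - 2 * e) F y))
      = mean (fun y => NN e (noise (1 - 2 * e) (child F true) y)
          (noise (1 - 2 * e) (child F false) y)) := by
  rw [mean_split]
  have e1 : child (fun y => H (noise (1 - 2 * e) F y)) true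
      = fun y => H ((1 - e) * noise (1 - 2 * e) (child F true) y
          + e * noise (1 - 2 * e) (child F false) y) := by
    funext y
    simp only [child]
    rw [noise_cons]
    simp only [sg_true]
    congr 1
    ring
  have e2 : child (fun y => H (noise (1 - 2 * e) F y)) false
      = fun y => H (e * noise (1 - 2 * e) (child F true) y
          + (1 - e) * noise (1 - 2 * e) (child F false) y) := by
    funext y
    simp only [child]
    rw [noise_cons]
    simp only [sg_false]
    congr 1
    ring
  rw [e1, e2, ← mean_add]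
  rw [show ∀ p : ℝ, p / 2 = (1 / 2 : ℝ) * p from fun p => by ring, ← mean_mul_left]
  apply mean_congr
  intro y
  unfold NN
  ring

lemma mean_child_split (F : (Fin (n + 1) → Bool) → ℝ) :
    mean F = (mean (child F true) + mean (child F false)) / 2 := by
  rw [mean_split]; ring

/-- The main induction: from the closure property, the lower bound for every Boolean function. -/
theorem LL_le_of_closure {e : ℝ} (hc : ClosureAt e) (h0 : 0 ≤ e) (h1 : e ≤ 1) (n : ℕ)
    (F : (Fin n → Bool) → ℝ) (hF : ∀ x, F x = 1 ∨ F x = -1) :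
    LL e (mean F) ≤ mean (fun y => H (noise (1 - 2 * e) F y)) := by
  induction n with
  | zero =>
    have hm : ∀ u : (Fin 0 → Bool) → ℝ, mean u = u default := by
      intro u
      unfold mean
      simp
      exact congrArg u (Subsingleton.elim _ _)
    rw [hm, hm]
    have hn0 : noise (1 - 2 * e) F default = F default := by
      have := mean_noise (1 - 2 * e) F
      rw [hm] at this
      rw [this]
      have h2 := sum_eq_hat_empty F
      simp at h2
      rw [← h2]
      exact congrArg F (Subsingleton.elim _ _)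
    rw [hn0]
    rcases hF default with h | h <;> rw [h]
    · rw [LL_one, H_one]
    · rw [LL_neg_one, H_neg_one]
  | succ n ih =>
    have hρ : |1 - 2 * e| ≤ 1 := by
      rw [abs_le]; constructor <;> linarith
    have hFt : ∀ x, child F true x = 1 ∨ child F true x = -1 := fun x => hF _
    have hFf : ∀ x, child F false x = 1 ∨ child F false x = -1 := fun x => hF _
    have habs : ∀ (G : (Fin n → Bool) → ℝ), (∀ x, G x = 1 ∨ G x = -1) → ∀ y,
        |noise (1 - 2 * e) G y| ≤ 1 := by
      intro G hG y
      apply abs_noise_le hρ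
      intro x
      rcases hG x with h | h <;> rw [h] <;> norm_num
    have h3 := ih (child F true) hFt
    have h4 := ih (child F false) hFf
    have hma : mean (noise (1 - 2 * e) (child F true)) = mean (child F true) := by
      rw [mean_noise]
      have h2 := sum_eq_hat_empty (child F true)
      simp only [Fintype.card_fin] at h2
      unfold mean
      rw [h2]
      have : (2 : ℝ) ^ n ≠ 0 := by positivity
      field_simp
    have hmb : mean (noise (1 - 2 * e) (child F false)) = mean (child F false) := by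
      rw [mean_noise]
      have h2 := sum_eq_hat_empty (child F false)
      simp only [Fintype.card_fin] at h2
      unfold mean
      rw [h2]
      have : (2 : ℝ) ^ n ≠ 0 := by positivity
      field_simp
    have h5 := hc n _ _ (habs _ hFt) (habs _ hFf) (by rw [hma]; exact h3) (by rw [hmb]; exact h4)
    rw [hma, hmb] at h5
    rw [mean_H_noise_split, mean_child_split]
    exact h5

/-- `dfc` is small at low noise. -/
lemma hE_le {e : ℝ} (h0 : 0 < e) (h1 : e ≤ 9 / 400) : hE e ≤ 0.1426 := by
  have hr : 191 / 200 ≤ 1 - 2 * e := by linarith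
  have hr1 : 1 - 2 * e < 1 := by linarith
  have habs : |1 - 2 * e| ≤ 1 := by
    rw [abs_le]; constructor <;> linarith
  unfold hE
  rw [H_eq habs]
  have hs := hasSum_Psi habs
  have := sum_le_hasSum (Finset.range 3) (fun k _ => by
    have h2 : 0 ≤ (1 - 2 * e) ^ (2 * k + 2) := by
      have : (1 - 2 * e) ^ (2 * k + 2) = ((1 - 2 * e) ^ (k + 1)) ^ 2 := by ring
      rw [this]; positivity
    exact mul_nonneg (ee_nonneg k) h2) hs
  simp only [Finset.sum_range_succ, Finset.sum_range_zero, ee] at this
  norm_num at this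
  have hl := Real.log_two_lt_d9
  have hrr : (191 / 200 : ℝ) ^ 2 ≤ (1 - 2 * e) ^ 2 := pow_le_pow_left₀ (by norm_num) hr 2
  have hr4 : (191 / 200 : ℝ) ^ 4 ≤ (1 - 2 * e) ^ 4 := pow_le_pow_left₀ (by norm_num) hr 4
  have hr6 : (191 / 200 : ℝ) ^ 6 ≤ (1 - 2 * e) ^ 6 := pow_le_pow_left₀ (by norm_num) hr 6
  norm_num at hrr hr4 hr6 hl ⊢
  linarith

lemma half_sq_le_Psi' {t : ℝ} (h : |t| ≤ 1) : t ^ 2 / 2 ≤ Psi t := by
  have hs := hasSum_Psi h
  have := le_hasSum hs 0 (fun k _ => by
    have h2 : 0 ≤ t ^ (2 * k + 2) := by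
      have : t ^ (2 * k + 2) = (t ^ (k + 1)) ^ 2 := by ring
      rw [this]; positivity
    exact mul_nonneg (ee_nonneg k) h2)
  unfold ee at this
  norm_num at this
  linarith

lemma sg_nonneg {e : ℝ} (h0 : 0 ≤ e) (h1 : e ≤ 1) : 0 ≤ sg e := by
  unfold sg
  have : 0 ≤ 1 - e := by linarith
  positivity

/-- `LL e` lies above the function required by the Courtade-Kumar inequality. -/
theorem LL_ge_CK {e m : ℝ} (h0 : 0 < e) (h1 : e ≤ 9 / 400) (hm : |m| ≤ 1) :
    H m - Real.log 2 + hE e ≤ LL e m := by
  have hP := half_sq_le_Psi' hm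
  have hH := H_eq hm
  have hhE := hE_le h0 h1
  have hl0 : (0 : ℝ) < Real.log 2 := Real.log_pos (by norm_num)
  have hsg := sg_nonneg h0.le (by linarith)
  have hka : ka e ≤ 0.1426 := by
    unfold ka
    have := mul_nonneg hsg hl0.le
    linarith
  have hm2 : 0 ≤ m ^ 2 := sq_nonneg m
  have hm21 : m ^ 2 ≤ 1 := by
    have := abs_le.mp hm
    nlinarith
  have hgt : 0 ≤ 1 - gt m := by
    unfold gt
    have : m ^ 4 = m ^ 2 * m ^ 2 := by ring
    nlinarith
  have hgt2 : 1 - gt m ≤ 4 / 3 * m ^ 2 := by
    unfold gt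
    have : 0 ≤ m ^ 4 := by positivity
    linarith
  have hr : (191 / 200 : ℝ) ≤ 1 - 2 * e := by linarith
  have hrho2 : (191 / 200 : ℝ) ^ 2 ≤ (1 - 2 * e) ^ 2 := pow_le_pow_left₀ (by norm_num) hr 2
  have hsgrho : sg e = 1 - (1 - 2 * e) ^ 2 := by unfold sg; ring
  -- `LL - (H - log 2 + hE) = ρ² Psi m - ka (1 - gt m)`
  have key : LL e m - (H m - Real.log 2 + hE e)
      = (1 - 2 * e) ^ 2 * Psi m - ka e * (1 - gt m) := by
    unfold LL ka
    rw [hH, hsgrho]
    ring
  have h6 : ka e * (1 - gt m) ≤ 0.1426 * (4 / 3 * m ^ 2) := by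
    calc ka e * (1 - gt m) ≤ 0.1426 * (1 - gt m) := mul_le_mul_of_nonneg_right hka hgt
      _ ≤ 0.1426 * (4 / 3 * m ^ 2) := mul_le_mul_of_nonneg_left hgt2 (by norm_num)
  have h7 : (191 / 200 : ℝ) ^ 2 * (m ^ 2 / 2) ≤ (1 - 2 * e) ^ 2 * Psi m :=
    mul_le_mul hrho2 hP (by positivity) (by positivity)
  norm_num at h6 h7
  nlinarith

/-- The Courtade-Kumar inequality at one low noise level from the closure property there. -/
theorem ck_of_closure_at (f : (Fin n → Bool) → Bool) {ε : ℝ} (hc : 0 < ε → ClosureAt ε)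
    (h0 : 0 ≤ ε) (hcase : ε ≤ 9 / 400) : mutualInfo f ε ≤ 1 - h2 ε := by
  have h1 : ε ≤ 1 / 2 := by linarith
  rw [mutualInfo_eq f h0 (by linarith), one_sub_h2' h0 h1]
  have hl : 0 < Real.log 2 := Real.log_pos (by norm_num)
  apply div_le_div_of_nonneg_right _ hl.le
  have hF : ∀ x, sgf f x = 1 ∨ sgf f x = -1 := sgf_cases f
  have hμ : |hat (sgf f) ∅| ≤ 1 := abs_hat_empty_le hF
  have hsum : ∀ (F : (Fin n → Bool) → ℝ), mean F = hat F ∅ := by
    intro F
    have h2 := sum_eq_hat_empty F
    simp only [Fintype.card_fin] at h2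
    unfold mean
    rw [h2]
    have : (2 : ℝ) ^ n ≠ 0 := by positivity
    field_simp
  rcases lt_or_eq_of_le h0 with hpos | hzero
  · have hmain := LL_le_of_closure (hc hpos) h0 (by linarith) n (sgf f) hF
    rw [hsum] at hmain
    have hCK := LL_ge_CK hpos hcase hμ
    have hρ : |1 - 2 * ε| ≤ 1 := by
      rw [abs_le]; constructor <;> linarith
    have hT : ∀ y, |noise (1 - 2 * ε) (sgf f) y| ≤ 1 := by
      intro y
      apply abs_noise_le hρ
      intro x
      rcases hF x with h | h <;> rw [h] <;> norm_num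
    have hmean : mean (fun y => H (noise (1 - 2 * ε) (sgf f) y))
        = Real.log 2 - (∑ y, Psi (noise (1 - 2 * ε) (sgf f) y)) / 2 ^ n := by
      rw [← mean_dfc_eq]
      exact mean_congr fun y => H_eq_dfc (hT y)
    rw [hmean] at hmain
    have e1 : hE ε = Real.log 2 - Psi (1 - 2 * ε) := H_eq hρ
    have e2 := H_eq hμ
    rw [e1, e2] at hCK
    linarith
  · subst hzero
    have e0 : (1 : ℝ) - 2 * 0 = 1 := by norm_num
    rw [e0]
    have e : ∀ y, Psi (noise 1 (sgf f) y) = Real.log 2 := by
      intro y
      rw [noise_at_one]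
      rcases hF y with h | h <;> rw [h]
      · exact Psi_one
      · exact Psi_neg_one
    simp_rw [e]
    have hP := Psi_nonneg hμ
    simp only [Finset.sum_const, Finset.card_univ, Fintype.card_fun, Fintype.card_bool,
      Fintype.card_fin, nsmul_eq_mul]
    have h2n : (2 : ℝ) ^ n ≠ 0 := by positivity
    push_cast
    rw [mul_div_cancel_left₀ _ h2n, Psi_one]
    linarith

/-- The Courtade-Kumar inequality from the closure property at low noise. -/
theorem ck_of_closure (hc : ∀ e : ℝ, 0 < e → e ≤ 9 / 400 → ClosureAt e)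
    (f : (Fin n → Bool) → Bool) {ε : ℝ} (h0 : 0 ≤ ε) (h1 : ε ≤ 1 / 2) :
    mutualInfo f ε ≤ 1 - h2 ε := by
  by_cases hcase : 9 / 400 ≤ ε
  · exact ck_main3 f h0 h1 (Or.inl hcase)
  push Not at hcase
  exact ck_of_closure_at f (fun h => hc ε h hcase.le) h0 hcase.le

end Vale.Agent.Lib.P322y
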