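import Vale.Agent.Lib.P322y.Defs

/-! The corner zone `d ≥ 97/100` of the inequality `(F)`: the double-root pair with
`s = (3/2) e ξ`, `ξ = 1 - d`.  The whole proof reduces to a quadratic polynomial inequality. -/

set_option linter.unusedVariables false

namespace Vale.Agent.Lib.P322y

namespace Corner

open Real

/-- The binary entropy form of `H`. -/
lemma H_bin (p : ℝ) : H (1 - 2 * p) = negMulLog (1 - p) + negMulLog p := by
  unfold H
  have e1 : (1 + (1 - 2 * p)) / 2 = 1 - p := by ring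
  have e2 : (1 - (1 - 2 * p)) / 2 = p := by ring
  rw [e1, e2]

lemma H_neg' (u : ℝ) : H (-u) = H u := by
  unfold H
  have e1 : (1 + -u) / 2 = (1 - u) / 2 := by ring
  have e2 : (1 - -u) / 2 = (1 + u) / 2 := by ring
  rw [e1, e2]; ring

lemma nml_mid {x y : ℝ} (hx : 0 ≤ x) (hy : 0 ≤ y) :
    (negMulLog x + negMulLog y) / 2 ≤ negMulLog ((x + y) / 2) := by
  have hc : (1 / 2 : ℝ) • negMulLog x + (1 / 2 : ℝ) • negMulLog y
      ≤ negMulLog ((1 / 2 : ℝ) • x + (1 / 2 : ℝ) • y) :=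
    Real.concaveOn_negMulLog.2 (Set.mem_Ici.2 hx) (Set.mem_Ici.2 hy)
      (by norm_num) (by norm_num) (by norm_num)
  simp only [smul_eq_mul] at hc
  have e : (1 / 2 : ℝ) * x + 1 / 2 * y = (x + y) / 2 := by ring
  rw [e] at hc
  linarith

lemma H_le_log_two {u : ℝ} (h : |u| ≤ 1) : H u ≤ log 2 := by
  have h1 := abs_le.mp h
  have h2 := nml_mid (x := (1 + u) / 2) (y := (1 - u) / 2) (by linarith) (by linarith)
  have e : ((1 + u) / 2 + (1 - u) / 2) / 2 = 1 / 2 := by ring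
  rw [e] at h2
  have e2 : negMulLog (1 / 2) = log 2 / 2 := by
    unfold negMulLog
    rw [one_div, Real.log_inv]
    ring
  unfold H
  linarith

lemma gibbs_term {x y : ℝ} (hx : 0 < x) (hy : 0 < y) : x - y ≤ x * (log x - log y) := by
  have h := Real.one_sub_inv_le_log_of_pos (div_pos hx hy)
  rw [Real.log_div hx.ne' hy.ne', inv_div] at h
  have h2 := mul_le_mul_of_nonneg_left h hx.le
  have e : x * (1 - y / x) = x - y := by field_simp
  linarith

/-- Lower and upper bounds for the binary entropy. -/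
lemma hn_lower {x : ℝ} (h0 : 0 < x) (h1 : x < 1) : x * (-log x + 1 - x) ≤ H (1 - 2 * x) := by
  rw [H_bin]
  unfold negMulLog
  have h2 : log (1 - x) ≤ -x := by
    have := Real.log_le_sub_one_of_pos (show 0 < 1 - x by linarith)
    linarith
  have h3 : 0 ≤ 1 - x := by linarith
  nlinarith [mul_le_mul_of_nonneg_left h2 h3]

lemma hn_upper {x : ℝ} (h0 : 0 < x) (h1 : x < 1) : H (1 - 2 * x) ≤ x * (-log x + 1) := by
  rw [H_bin]
  unfold negMulLog
  have h2 := gibbs_term (x := 1 - x) (y := 1) (by linarith) (by norm_num)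
  rw [Real.log_one] at h2
  nlinarith

/-- Concavity of the binary entropy along rays from zero. -/
lemma hn_scale {a x : ℝ} (ha0 : 0 ≤ a) (ha1 : a ≤ 1) (hx0 : 0 ≤ x) (hx1 : x ≤ 1) :
    a * H (1 - 2 * x) ≤ H (1 - 2 * (a * x)) := by
  rw [H_bin, H_bin]
  have h1 : a • negMulLog x + (1 - a) • negMulLog 0 ≤ negMulLog (a • x + (1 - a) • (0 : ℝ)) :=
    Real.concaveOn_negMulLog.2 (Set.mem_Ici.2 hx0) (Set.mem_Ici.2 (le_refl (0 : ℝ)))
      ha0 (by linarith) (by ring)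
  have h2 : a • negMulLog (1 - x) + (1 - a) • negMulLog 1
      ≤ negMulLog (a • (1 - x) + (1 - a) • (1 : ℝ)) :=
    Real.concaveOn_negMulLog.2 (Set.mem_Ici.2 (by linarith)) (Set.mem_Ici.2 (by norm_num))
      ha0 (by linarith) (by ring)
  simp only [smul_eq_mul, mul_zero, add_zero, Real.negMulLog_zero, Real.negMulLog_one] at h1 h2
  have e : a * (1 - x) + (1 - a) * 1 = 1 - a * x := by ring
  rw [e] at h2
  have e2 : a * (negMulLog (1 - x) + negMulLog x) = a * negMulLog (1 - x) + a * negMulLog x := by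
    ring
  rw [e2]
  linarith

lemma hn_subadd {p q : ℝ} (hp : 0 ≤ p) (hq : 0 ≤ q) (hpq : 0 < p + q) (h1 : p + q ≤ 1) :
    H (1 - 2 * (p + q)) ≤ H (1 - 2 * p) + H (1 - 2 * q) := by
  have ha := hn_scale (a := p / (p + q)) (x := p + q) (by positivity)
    ((div_le_one hpq).2 (by linarith)) hpq.le h1
  have hb := hn_scale (a := q / (p + q)) (x := p + q) (by positivity)
    ((div_le_one hpq).2 (by linarith)) hpq.le h1
  have e1 : p / (p + q) * (p + q) = p := by field_simp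
  have e2 : q / (p + q) * (p + q) = q := by field_simp
  rw [e1] at ha
  rw [e2] at hb
  have e3 : p / (p + q) * H (1 - 2 * (p + q)) + q / (p + q) * H (1 - 2 * (p + q))
      = H (1 - 2 * (p + q)) := by field_simp
  linarith

/-- The polynomial part at `1 - 2 p`. -/
lemma gt_bin (p : ℝ) : gt (1 - 2 * p) = 8 / 3 * (p * (1 - p)) + 16 / 3 * (p * (1 - p)) ^ 2 := by
  unfold gt; ring

lemma gt_neg' (u : ℝ) : gt (-u) = gt u := by
  unfold gt; ring

/-- The exponent of the double-root family, without the denominator. -/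
lemma tau_mul {e s p : ℝ} (hp : p = e + (1 - 2 * e) * s) (hs0 : 0 < s) (hs1 : s < 1 / 2)
    (hp0 : 0 < p) (hp1 : 0 < 1 - p) :
    tauV2 e s * (-log 2 - log s) = log p + log (1 - p) - log s - log (1 - s) := by
  have hs2 : 0 < 1 - s := by linarith
  have hA : log (1 / (2 * s)) = -log 2 - log s := by
    rw [one_div, log_inv, log_mul (by norm_num) hs0.ne']; ring
  have hApos : 0 < -log 2 - log s := by
    rw [← hA]
    apply log_pos
    rw [lt_div_iff₀ (by positivity)]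
    linarith
  unfold tauV2
  rw [← hp, hA, div_mul_cancel₀ _ hApos.ne', log_div (by positivity) (by positivity),
    log_mul hp0.ne' hp1.ne', log_mul hs0.ne' hs2.ne']
  ring

/-- Closed form of the slope of the double-root family. -/
lemma theta_eq {e s p : ℝ} (hp : p = e + (1 - 2 * e) * s) (hs0 : 0 < s) (hs1 : s < 1 / 2)
    (hp0 : 0 < p) (hp1 : 0 < 1 - p) :
    thetaV2 e s = (-(1 - e) * log (1 - p) - e * log p) + log (1 - s)
      + tauV2 e s / 2 * (-log (1 - 2 * s)) := by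
  have hτ := tau_mul hp hs0 hs1 hp0 hp1
  have hs3 : (1 - 2 * s) ≠ 0 := by
    have : 0 < 1 - 2 * s := by linarith
    exact this.ne'
  unfold thetaV2
  rw [← hp, div_eq_iff hs3]
  have e4 : H (1 - 4 * s) = negMulLog (1 - 2 * s) + negMulLog (2 * s) := by
    rw [show 1 - 4 * s = 1 - 2 * (2 * s) by ring, H_bin]
  rw [H_bin, H_bin, e4]
  unfold negMulLog
  rw [log_mul two_ne_zero hs0.ne']
  linear_combination s * hτ + (log (1 - p) - log p) * hp

/-- The slope is nearly the entropy. -/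
lemma theta_ge {e s p : ℝ} (hp : p = e + (1 - 2 * e) * s) (he0 : 0 < e) (he1 : e < 1)
    (hs0 : 0 < s) (hs1 : s < 1 / 2) (hp0 : 0 < p) (hp1 : 0 < 1 - p) :
    hE e - (1 - tauV2 e s) / 2 * (-log (1 - 2 * s)) ≤ thetaV2 e s := by
  rw [theta_eq hp hs0 hs1 hp0 hp1]
  have h1 := gibbs_term (x := 1 - e) (y := 1 - p) (by linarith) hp1
  have h2 := gibbs_term (x := e) (y := p) he0 hp0
  have hE' : hE e = -(1 - e) * log (1 - e) - e * log e := by
    unfold hE
    rw [H_bin]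
    unfold negMulLog
    ring
  have hlog : log (1 - 2 * s) ≤ 2 * log (1 - s) := by
    have h3 : log (1 - 2 * s) ≤ log ((1 - s) ^ 2) :=
      log_le_log (by linarith) (by nlinarith [sq_nonneg s])
    rw [log_pow] at h3
    simpa using h3
  rw [hE']
  nlinarith

/-- The weight, without the denominator. -/
lemma v_mul {e s p : ℝ} (hp : p = e + (1 - 2 * e) * s) (hs0 : 0 < s) (hs1 : s < 1 / 2)
    (hp0 : 0 < p) (hp1 : 0 < 1 - p) :
    (1 - tauV2 e s) * (-log 2 - log s) = -log 2 - log p - log (1 - p) + log (1 - s) := by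
  have hτ := tau_mul hp hs0 hs1 hp0 hp1
  linear_combination -hτ

/-- The polynomial inequality at the end of the corner proof. -/
lemma corner_poly {L k x e l2 l3 : ℝ} (hL : 3 ≤ L) (hk : 7 / 2 ≤ k) (hx0 : 0 ≤ x)
    (hx1 : x ≤ 3 / 100) (he0 : 0 ≤ e) (he1 : e ≤ 9 / 400) (hl : 0.6931 ≤ l2) (hl' : l2 ≤ 0.6932)
    (hl3 : 0.404 ≤ l3) :
    (L + l2 + 1) * (L + k - l3) ≤
      (L - 3 / 2 * x) * (2 * (1 - e) * (k + 1 - x) + 4 / 3 * (L + 1 - 3 * l2) * (1 - x) - 3 / 2) := by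
  have hB1 : 1.955 * (k + 0.97) ≤ 2 * (1 - e) * (k + 1 - x) :=
    mul_le_mul (by linarith) (by linarith) (by linarith) (by linarith)
  have hB2 : (L + 1 - 3 * 0.6932) * 0.97 ≤ (L + 1 - 3 * l2) * (1 - x) :=
    mul_le_mul (by linarith) (by linarith) (by norm_num) (by linarith)
  have hB : 1.955 * (k + 0.97) + 4 / 3 * ((L + 1 - 3 * 0.6932) * 0.97) - 3 / 2
      ≤ 2 * (1 - e) * (k + 1 - x) + 4 / 3 * (L + 1 - 3 * l2) * (1 - x) - 3 / 2 := by
    nlinarith
  have hB0 : 0 ≤ 1.955 * (k + 0.97) + 4 / 3 * ((L + 1 - 3 * 0.6932) * 0.97) - 3 / 2 := by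
    nlinarith
  have hM : (L - 0.045) * (1.955 * (k + 0.97) + 4 / 3 * ((L + 1 - 3 * 0.6932) * 0.97) - 3 / 2)
      ≤ (L - 3 / 2 * x) * (2 * (1 - e) * (k + 1 - x) + 4 / 3 * (L + 1 - 3 * l2) * (1 - x) - 3 / 2) :=
    mul_le_mul (by linarith) hB hB0 (by linarith)
  have hR : (L + l2 + 1) * (L + k - l3) ≤ (L + 1.6932) * (L + k - 0.404) := by
    have h1 : (L + l2 + 1) * (L + k - l3) ≤ (L + l2 + 1) * (L + k - 0.404) :=
      mul_le_mul_of_nonneg_left (by linarith) (by linarith)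
    have h2 : (L + l2 + 1) * (L + k - 0.404) ≤ (L + 1.6932) * (L + k - 0.404) :=
      mul_le_mul_of_nonneg_right (by linarith) (by linarith)
    linarith
  have hP : (L + 1.6932) * (L + k - 0.404)
      ≤ (L - 0.045) * (1.955 * (k + 0.97) + 4 / 3 * ((L + 1 - 3 * 0.6932) * 0.97) - 3 / 2) := by
    nlinarith [mul_nonneg (sub_nonneg.2 hL) (sub_nonneg.2 hk), mul_nonneg (sub_nonneg.2 hL) (sub_nonneg.2 hL)]
  linarith

/-- `log (3 / 2)` from below. -/
lemma log_three_half_ge : (0.404 : ℝ) ≤ log (3 / 2) := by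
  have h1 : log ((2 : ℝ) ^ 19) ≤ log ((3 : ℝ) ^ 12) := log_le_log (by norm_num) (by norm_num)
  rw [log_pow, log_pow] at h1
  rw [log_div (by norm_num) (by norm_num)]
  have h2 := Real.log_two_gt_d9
  push_cast at h1
  nlinarith

/-- `log (1 / ξ)` from below. -/
lemma log_inv_ge {x : ℝ} (hx0 : 0 < x) (hx1 : x ≤ 3 / 100) : 7 / 2 ≤ -log x := by
  have h1 : log x ≤ log (3 / 100) := log_le_log hx0 hx1
  have h2 : (7 : ℝ) ≤ log ((100 / 3) ^ 2) := by
    rw [Real.le_log_iff_exp_le (by norm_num)]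
    have h3 : Real.exp 7 = Real.exp 1 ^ 7 := by
      rw [Real.exp_one_pow]; norm_num
    rw [h3]
    have h4 := Real.exp_one_lt_d9
    have h5 : Real.exp 1 ^ 7 ≤ (2.7182818286 : ℝ) ^ 7 :=
      pow_le_pow_left₀ (Real.exp_pos 1).le h4.le 7
    refine h5.trans ?_
    norm_num
  rw [log_pow] at h2
  have h3 : log (3 / 100 : ℝ) = -log (100 / 3) := by
    rw [← log_inv]; norm_num
  rw [h3] at h1
  push_cast at h2
  linarith

/-- `log (1 / (2 e))` from below. -/
lemma log_two_inv_ge {e : ℝ} (he0 : 0 < e) (he1 : e ≤ 9 / 400) : 3 ≤ -log 2 - log e := by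
  have h1 : log e ≤ log (9 / 400) := log_le_log he0 he1
  have h2 : (3 : ℝ) ≤ log (200 / 9) := by
    rw [Real.le_log_iff_exp_le (by norm_num)]
    have h3 : Real.exp 3 = Real.exp 1 ^ 3 := by
      rw [Real.exp_one_pow]; norm_num
    rw [h3]
    have h4 := Real.exp_one_lt_d9
    have h5 : Real.exp 1 ^ 3 ≤ (2.7182818286 : ℝ) ^ 3 :=
      pow_le_pow_left₀ (Real.exp_pos 1).le h4.le 3
    refine h5.trans ?_
    norm_num
  have h3 : log (200 / 9 : ℝ) = -log 2 - log (9 / 400) := by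
    have : (9 / 400 : ℝ) = (200 / 9 * 2)⁻¹ := by norm_num
    rw [this, log_inv, log_mul (by norm_num) (by norm_num)]
    ring
  linarith

/-- `LL` is at most `h`. -/
lemma LL_le_hE {e m : ℝ} (hsg : 0 ≤ sg e) (hka : 0 ≤ ka e) (hm : |m| ≤ 1) : LL e m ≤ hE e := by
  unfold LL
  have hH := H_le_log_two hm
  have hm2 : m ^ 2 ≤ 1 := by
    have := abs_le.mp hm
    nlinarith
  have hg : gt m ≤ 1 := by
    unfold gt
    have e4 : m ^ 4 = m ^ 2 * m ^ 2 := by ring
    nlinarith [sq_nonneg m]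
  have e5 : hE e = sg e * log 2 + ka e := by unfold ka; ring
  rw [e5]
  nlinarith [mul_le_mul_of_nonneg_left hH hsg, mul_le_mul_of_nonneg_left hg hka]

/-- The sum of `LL` at the two ends of the segment. -/
lemma LL_sum_ge {e x m : ℝ} (hsg : 0 ≤ sg e) (hka : 0 ≤ ka e) (hx0 : 0 < x) (hx1 : x ≤ 1)
    (hm0 : 0 ≤ m) (hmx : m ≤ x) :
    sg e * H (1 - 2 * x) + ka e * (8 / 3 * (x * (1 - x)))
      ≤ LL e (m + (1 - x)) + LL e (m - (1 - x)) := by
  have e1 : m + (1 - x) = 1 - 2 * ((x - m) / 2) := by ring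
  have e2 : m - (1 - x) = -(1 - 2 * ((x + m) / 2)) := by ring
  unfold LL
  rw [e1, e2, H_neg', gt_neg', gt_bin, gt_bin]
  have hs := hn_subadd (p := (x - m) / 2) (q := (x + m) / 2) (by linarith) (by linarith)
    (by linarith) (by linarith)
  have e3 : (x - m) / 2 + (x + m) / 2 = x := by ring
  rw [e3] at hs
  have h1 := mul_le_mul_of_nonneg_left hs hsg
  have h2 : x * (1 - x) ≤ (x - m) / 2 * (1 - (x - m) / 2) + (x + m) / 2 * (1 - (x + m) / 2) := by
    nlinarith [mul_nonneg (sub_nonneg.2 hmx) hm0, mul_nonneg hx0.le hm0]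
  have h3 : 8 / 3 * (x * (1 - x))
      ≤ 8 / 3 * ((x - m) / 2 * (1 - (x - m) / 2)) + 16 / 3 * ((x - m) / 2 * (1 - (x - m) / 2)) ^ 2
        + (8 / 3 * ((x + m) / 2 * (1 - (x + m) / 2))
          + 16 / 3 * ((x + m) / 2 * (1 - (x + m) / 2)) ^ 2) := by
    nlinarith [sq_nonneg ((x - m) / 2 * (1 - (x - m) / 2)),
      sq_nonneg ((x + m) / 2 * (1 - (x + m) / 2))]
  have h4 := mul_le_mul_of_nonneg_left h3 hka
  nlinarith

/-- The last step of the corner inequality, abstractly. -/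
lemma corner_hfin {e x y L k l2 l3 A v Y h : ℝ} (hx0 : 0 < x) (hex : 0 < e * x)
    (hA' : A = L + k - l3) (hApos : 0 < A) (hH_up : h ≤ e * (L + l2 + 1))
    (hpoly : (L + l2 + 1) * (L + k - l3) ≤ (L - 3 / 2 * x) * y)
    (hvA : L - 3 / 2 * x ≤ v * A) (hv0 : 0 ≤ v) (hYge : e * x * y ≤ Y) (hexy : 0 ≤ e * x * y) :
    h * x ≤ v * Y := by
  refine le_of_mul_le_mul_right ?_ hApos
  have h1 : h * x * A ≤ e * (L + l2 + 1) * x * A := by
    apply mul_le_mul_of_nonneg_right _ hApos.le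
    exact mul_le_mul_of_nonneg_right hH_up hx0.le
  have h2 : e * (L + l2 + 1) * x * A ≤ e * x * ((L - 3 / 2 * x) * y) := by
    have : e * (L + l2 + 1) * x * A = e * x * ((L + l2 + 1) * (L + k - l3)) := by
      rw [hA']; ring
    rw [this]
    exact mul_le_mul_of_nonneg_left hpoly hex.le
  have h3 : e * x * ((L - 3 / 2 * x) * y) = (L - 3 / 2 * x) * (e * x * y) := by ring
  have h4 : (L - 3 / 2 * x) * (e * x * y) ≤ (v * A) * (e * x * y) :=
    mul_le_mul_of_nonneg_right hvA hexy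
  have h5 : (v * A) * (e * x * y) ≤ (v * A) * Y :=
    mul_le_mul_of_nonneg_left hYge (mul_nonneg hv0 hApos.le)
  have h6 : (v * A) * Y = v * Y * A := by ring
  linarith

lemma corner_final {h x th v Lam W2 LLm sumL Y : ℝ} (hLm : LLm ≤ h)
    (hth : h - v / 2 * Lam ≤ th) (hx1 : x ≤ 1) (hv0 : 0 ≤ v) (hsum : W2 ≤ sumL)
    (hfin : h * x ≤ v * Y) (hY : Y = (W2 - (1 - x) * Lam) / 2) :
    LLm ≤ th * (1 - x) + v / 2 * sumL := by
  have hA1 : (h - v / 2 * Lam) * (1 - x) ≤ th * (1 - x) :=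
    mul_le_mul_of_nonneg_right hth (by linarith)
  have hA2 : v / 2 * W2 ≤ v / 2 * sumL := mul_le_mul_of_nonneg_left hsum (by linarith)
  have hA3 : v * Y = v / 2 * W2 - v / 2 * Lam * (1 - x) := by
    rw [hY]; ring
  have hA4 : (h - v / 2 * Lam) * (1 - x) = h - h * x - v / 2 * Lam * (1 - x) := by ring
  linarith

/-- Numerics for the weight. -/
lemma corner_vA {e x s p L : ℝ} (hs : s = 3 / 2 * e * x) (hp : p = e + (1 - 2 * e) * s)
    (he0 : 0 < e) (he1 : e ≤ 9 / 400) (hx0 : 0 < x) (hx1 : x ≤ 3 / 100) (hs0 : 0 < s)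
    (hs1 : s < 1 / 2) (hp0 : 0 < p) (hp1 : 0 < 1 - p) (hsp : s ≤ p) (hL : L = -log 2 - log e) :
    L - 3 / 2 * x ≤ (1 - tauV2 e s) * (-log 2 - log s) := by
  rw [v_mul hp hs0 hs1 hp0 hp1]
  have hes : 0 < e * s := by positivity
  have hp_le : p ≤ e * (1 + 3 / 2 * x) := by
    have : e * (1 + 3 / 2 * x) = e + s := by rw [hs]; ring
    rw [this, hp]
    nlinarith
  have hlogp : log p ≤ log e + 3 / 2 * x := by
    have h1 : log p ≤ log (e * (1 + 3 / 2 * x)) := log_le_log hp0 hp_le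
    rw [log_mul he0.ne' (by positivity)] at h1
    have h2 := Real.log_le_sub_one_of_pos (show 0 < 1 + 3 / 2 * x by positivity)
    linarith
  have hlog1 : log (1 - p) ≤ log (1 - s) := log_le_log hp1 (by linarith)
  rw [hL]
  linarith

/-- The entropy bounds in the variable `L`. -/
lemma corner_ent {e L : ℝ} (he0 : 0 < e) (he1 : e ≤ 9 / 400) (hL : L = -log 2 - log e)
    (hL3 : 3 ≤ L) :
    hE e ≤ e * (L + log 2 + 1) ∧ e * (L + 1 - 3 * log 2) ≤ ka e ∧ 0 ≤ ka e ∧ 0 ≤ sg e := by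
  have hl2 := Real.log_two_gt_d9
  have hl2' := Real.log_two_lt_d9
  have hH_up : hE e ≤ e * (L + log 2 + 1) := by
    have := hn_upper he0 (by linarith)
    unfold hE
    rw [hL]
    linarith
  have hH_lo : e * (L + log 2 + 1 - e) ≤ hE e := by
    have := hn_lower he0 (by linarith)
    unfold hE
    rw [hL]
    have e1 : -log 2 - log e + log 2 + 1 - e = -log e + 1 - e := by ring
    rw [e1]
    exact this
  have hka : e * (L + 1 - 3 * log 2) ≤ ka e := by
    unfold ka sg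
    have hee : 0 ≤ e * e * (4 * log 2 - 1) := mul_nonneg (by positivity) (by linarith)
    nlinarith
  refine ⟨hH_up, hka, le_trans (mul_nonneg he0.le (by linarith)) hka, ?_⟩
  unfold sg
  have : 0 ≤ 1 - e := by linarith
  positivity

/-- The quantity `Y` from below. -/
lemma corner_Y {e x s k L Lam y Y H1 : ℝ} (hs : s = 3 / 2 * e * x) (hx0 : 0 < x) (hx1 : x ≤ 3 / 100)
    (hHx' : x * (k + 1 - x) ≤ H1) (hsg : 0 ≤ sg e)
    (hka : e * (L + 1 - 3 * log 2) ≤ ka e) (hLam2 : (1 - x) * Lam ≤ 2 * s)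
    (hy : y = 2 * (1 - e) * (k + 1 - x) + 4 / 3 * (L + 1 - 3 * log 2) * (1 - x) - 3 / 2)
    (hY : Y = (sg e * H1 + ka e * (8 / 3 * (x * (1 - x))) - (1 - x) * Lam) / 2) :
    e * x * y ≤ Y := by
  have h1 : sg e * (x * (k + 1 - x)) ≤ sg e * H1 := mul_le_mul_of_nonneg_left hHx' hsg
  have hx2 : 0 ≤ 8 / 3 * (x * (1 - x)) :=
    mul_nonneg (by norm_num) (mul_nonneg hx0.le (by linarith))
  have h2 : e * (L + 1 - 3 * log 2) * (8 / 3 * (x * (1 - x)))
      ≤ ka e * (8 / 3 * (x * (1 - x))) :=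
    mul_le_mul_of_nonneg_right hka hx2
  have h3 : sg e * (x * (k + 1 - x)) = 4 * e * (1 - e) * (x * (k + 1 - x)) := by unfold sg; ring
  rw [h3] at h1
  have h4 : 2 * s = 3 * (e * x) := by rw [hs]; ring
  have id : e * x * y = (4 * e * (1 - e) * (x * (k + 1 - x))
      + e * (L + 1 - 3 * log 2) * (8 / 3 * (x * (1 - x))) - 3 * (e * x)) / 2 := by
    rw [hy]; ring
  rw [id, hY]
  linarith

/-- The logarithm `Lam`. -/
lemma corner_Lam {x s : ℝ} (hs3 : 0 < 1 - 2 * s) (hs0 : 0 < s) (hs2x : 2 * s ≤ x) :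
    (1 - x) * (-log (1 - 2 * s)) ≤ 2 * s := by
  have hLam0 : 0 ≤ -log (1 - 2 * s) := by
    have := Real.log_nonpos hs3.le (by linarith)
    linarith
  have hLam1 : (1 - 2 * s) * (-log (1 - 2 * s)) ≤ 2 * s := by
    have := gibbs_term (x := 1 - 2 * s) (y := 1) hs3 (by norm_num)
    rw [Real.log_one] at this
    nlinarith
  have : (1 - x) * (-log (1 - 2 * s)) ≤ (1 - 2 * s) * (-log (1 - 2 * s)) :=
    mul_le_mul_of_nonneg_right (by linarith) hLam0
  linarith

/-- `y` is nonnegative. -/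
lemma corner_y0 {e x k L l2 : ℝ} (he0 : 0 < e) (he1 : e ≤ 9 / 400) (hx0 : 0 < x)
    (hx1 : x ≤ 3 / 100) (hk3 : 7 / 2 ≤ k) (hL3 : 3 ≤ L) (hl2' : l2 ≤ 0.7) :
    0 ≤ 2 * (1 - e) * (k + 1 - x) + 4 / 3 * (L + 1 - 3 * l2) * (1 - x) - 3 / 2 := by
  have h1 : (1.955 : ℝ) * 4.47 ≤ 2 * (1 - e) * (k + 1 - x) :=
    mul_le_mul (by linarith) (by linarith) (by norm_num) (by linarith)
  have h2 : 0 ≤ 4 / 3 * (L + 1 - 3 * l2) * (1 - x) := by
    apply mul_nonneg
    · linarith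
    · linarith
  norm_num at h1
  linarith

/-- The corner inequality at positive `ξ = x`. -/
lemma corner_main {e x m : ℝ} (he0 : 0 < e) (he1 : e ≤ 9 / 400) (hx0 : 0 < x) (hx1 : x ≤ 3 / 100)
    (hm0 : 0 ≤ m) (hmx : m ≤ x) (hv0 : 0 ≤ 1 - tauV2 e (3 / 2 * e * x)) :
    LL e m ≤ thetaV2 e (3 / 2 * e * x) * (1 - x)
      + (1 - tauV2 e (3 / 2 * e * x)) / 2 * (LL e (m + (1 - x)) + LL e (m - (1 - x))) := by
  obtain ⟨s, hs⟩ : ∃ s, s = 3 / 2 * e * x := ⟨_, rfl⟩
  rw [← hs] at hv0 ⊢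
  obtain ⟨p, hp⟩ : ∃ p, p = e + (1 - 2 * e) * s := ⟨_, rfl⟩
  have hs0 : 0 < s := by rw [hs]; positivity
  have hex : 0 < e * x := by positivity
  have hs2x : 2 * s ≤ x := by rw [hs]; nlinarith
  have hs1 : s < 1 / 2 := by linarith
  have hp0 : 0 < p := by
    have : 0 < (1 - 2 * e) * s := mul_pos (by linarith) hs0
    rw [hp]; linarith
  have hsp : s ≤ p := by rw [hp]; nlinarith
  have hp1 : 0 < 1 - p := by
    have h1 : (1 - 2 * e) * s ≤ 1 * s := mul_le_mul_of_nonneg_right (by linarith) hs0.le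
    rw [hp]; linarith
  -- the logarithms
  obtain ⟨L, hL⟩ : ∃ L, L = -log 2 - log e := ⟨_, rfl⟩
  obtain ⟨k, hk⟩ : ∃ k, k = -log x := ⟨_, rfl⟩
  have hL3 : 3 ≤ L := by rw [hL]; exact log_two_inv_ge he0 he1
  have hk3 : 7 / 2 ≤ k := by rw [hk]; exact log_inv_ge hx0 hx1
  have hl2 := Real.log_two_gt_d9
  have hl2' := Real.log_two_lt_d9
  have hl3 := log_three_half_ge
  have hlogs : log s = log (3 / 2) + log e + log x := by
    rw [hs, log_mul (by positivity) hx0.ne', log_mul (by norm_num) he0.ne']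
  obtain ⟨A, hA⟩ : ∃ A, A = -log 2 - log s := ⟨_, rfl⟩
  have hA' : A = L + k - log (3 / 2) := by rw [hA, hlogs, hL, hk]; ring
  have hApos : 0 < A := by
    have h1 : log (2 * s) < 0 := Real.log_neg (by positivity) (by linarith)
    rw [log_mul (by norm_num) hs0.ne'] at h1
    rw [hA]
    linarith
  have hvA : L - 3 / 2 * x ≤ (1 - tauV2 e s) * A := by
    rw [hA]
    exact corner_vA hs hp he0 he1 hx0 hx1 hs0 hs1 hp0 hp1 hsp hL
  obtain ⟨hH_up, hka, hka0, hsg⟩ := corner_ent he0 he1 hL hL3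
  have hHx' : x * (k + 1 - x) ≤ H (1 - 2 * x) := by
    rw [hk]; exact hn_lower hx0 (by linarith)
  have hsum := LL_sum_ge hsg hka0 hx0 (by linarith) hm0 hmx
  have hm1 : |m| ≤ 1 := by
    rw [abs_le]; constructor <;> linarith
  have hLm := LL_le_hE hsg hka0 hm1
  have hs3 : 0 < 1 - 2 * s := by linarith
  have hLam2 := corner_Lam (x := x) hs3 hs0 hs2x
  have hth := theta_ge hp he0 (by linarith) hs0 hs1 hp0 hp1
  obtain ⟨Lam, hLam⟩ : ∃ Lam, Lam = -log (1 - 2 * s) := ⟨_, rfl⟩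
  rw [← hLam] at hth hLam2
  obtain ⟨v, hv⟩ : ∃ v, v = 1 - tauV2 e s := ⟨_, rfl⟩
  rw [← hv] at hv0 hth hvA ⊢
  obtain ⟨y, hy⟩ : ∃ y, y = 2 * (1 - e) * (k + 1 - x) + 4 / 3 * (L + 1 - 3 * log 2) * (1 - x) - 3 / 2 :=
    ⟨_, rfl⟩
  have hpoly : (L + log 2 + 1) * (L + k - log (3 / 2)) ≤ (L - 3 / 2 * x) * y := by
    rw [hy]
    exact corner_poly hL3 hk3 hx0.le hx1 he0.le he1 (by linarith) (by linarith) hl3
  have hy0 : 0 ≤ y := by
    rw [hy]
    exact corner_y0 he0 he1 hx0 hx1 hk3 hL3 (by linarith)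
  obtain ⟨Y, hY⟩ : ∃ Y, Y = (sg e * H (1 - 2 * x) + ka e * (8 / 3 * (x * (1 - x))) - (1 - x) * Lam) / 2 :=
    ⟨_, rfl⟩
  have hYge : e * x * y ≤ Y := corner_Y hs hx0 hx1 hHx' hsg hka hLam2 hy hY
  have hexy : 0 ≤ e * x * y := by positivity
  have hfin : hE e * x ≤ v * Y :=
    corner_hfin hx0 hex hA' hApos hH_up hpoly hvA hv0 hYge hexy
  exact corner_final hLm hth (by linarith) hv0 hsum hfin hY

/-- Jensen over the four vertices of the square. -/
lemma nml_four {w1 w2 w3 w4 x1 x2 x3 x4 : ℝ} (h1 : 0 ≤ w1) (h2 : 0 ≤ w2) (h3 : 0 ≤ w3) (h4 : 0 ≤ w4)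
    (hw : w1 + w2 + w3 + w4 = 1) (hx1 : 0 ≤ x1) (hx2 : 0 ≤ x2) (hx3 : 0 ≤ x3) (hx4 : 0 ≤ x4) :
    w1 * negMulLog x1 + w2 * negMulLog x2 + w3 * negMulLog x3 + w4 * negMulLog x4
      ≤ negMulLog (w1 * x1 + w2 * x2 + w3 * x3 + w4 * x4) := by
  have h := Real.concaveOn_negMulLog.le_map_sum (t := Finset.univ) (w := ![w1, w2, w3, w4])
    (p := ![x1, x2, x3, x4])
    (by
      intro i _
      fin_cases i <;> simp <;> assumption)
    (by simp [Fin.sum_univ_four]; linarith)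
    (by
      intro i _
      fin_cases i <;> simp <;> assumption)
  simpa [Fin.sum_univ_four] using h

/-- The value of `H` at a combination of `± 1, ± ρ`. -/
lemma H_vertices {e a w1 w2 w3 w4 : ℝ} (he0 : 0 ≤ e) (he1 : e ≤ 1) (h1 : 0 ≤ w1) (h2 : 0 ≤ w2)
    (h3 : 0 ≤ w3) (h4 : 0 ≤ w4) (hw : w1 + w2 + w3 + w4 = 1)
    (ha : a = w1 + w2 * (1 - 2 * e) - w3 * (1 - 2 * e) - w4) :
    (w2 + w3) * hE e ≤ H a := by
  have hA := nml_four (x1 := 1) (x2 := 1 - e) (x3 := e) (x4 := 0) h1 h2 h3 h4 hw (by norm_num)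
    (by linarith) he0 le_rfl
  have hB := nml_four (x1 := 0) (x2 := e) (x3 := 1 - e) (x4 := 1) h1 h2 h3 h4 hw le_rfl he0
    (by linarith) (by norm_num)
  have e1 : (1 + a) / 2 = w1 * 1 + w2 * (1 - e) + w3 * e + w4 * 0 := by
    rw [ha]; linear_combination (-1 / 2 : ℝ) * hw
  have e2 : (1 - a) / 2 = w1 * 0 + w2 * e + w3 * (1 - e) + w4 * 1 := by
    rw [ha]; linear_combination (-1 / 2 : ℝ) * hw
  unfold H hE
  rw [H_bin, e1, e2]
  simp only [Real.negMulLog_one, Real.negMulLog_zero, mul_zero, add_zero, zero_add] at hA hB ⊢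
  nlinarith

/-- The pair at the very corner `d = 1`. -/
lemma valid_corner {e : ℝ} (he0 : 0 < e) (he1 : e ≤ 9 / 400) : ValidPair e (hE e) 0 := by
  have hh : 0 ≤ hE e := by
    have := hn_lower he0 (by linarith)
    have hl : log e ≤ 0 := Real.log_nonpos he0.le (by linarith)
    have h2 : 0 ≤ e * (-log e + 1 - e) := mul_nonneg he0.le (by linarith)
    unfold hE
    linarith
  refine ⟨hh, le_rfl, by norm_num, ?_⟩
  intro a b ha hb
  obtain ⟨ha1, ha2⟩ := abs_le.mp ha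
  obtain ⟨hb1, hb2⟩ := abs_le.mp hb
  have hw1 : 0 ≤ (1 + a) * (1 + b) / 4 :=
    div_nonneg (mul_nonneg (by linarith) (by linarith)) (by norm_num)
  have hw2 : 0 ≤ (1 + a) * (1 - b) / 4 :=
    div_nonneg (mul_nonneg (by linarith) (by linarith)) (by norm_num)
  have hw3 : 0 ≤ (1 - a) * (1 + b) / 4 :=
    div_nonneg (mul_nonneg (by linarith) (by linarith)) (by norm_num)
  have hw4 : 0 ≤ (1 - a) * (1 - b) / 4 :=
    div_nonneg (mul_nonneg (by linarith) (by linarith)) (by norm_num)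
  have h1 := H_vertices (a := (1 - e) * a + e * b) he0.le (by linarith) hw1 hw2 hw3 hw4
    (by ring) (by ring)
  have h2 := H_vertices (a := e * a + (1 - e) * b) he0.le (by linarith) hw1 hw3 hw2 hw4
    (by ring) (by ring)
  unfold NN
  have h3 : (a - b) / 2 ≤ (1 + a) * (1 - b) / 4 + (1 - a) * (1 + b) / 4 := by
    nlinarith [mul_nonneg (show 0 ≤ 1 - a by linarith) (show 0 ≤ 1 + b by linarith)]
  have h4 := mul_le_mul_of_nonneg_left h3 hh
  have e1 : (1 - a) * (1 + b) / 4 + (1 + a) * (1 - b) / 4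
      = (1 + a) * (1 - b) / 4 + (1 - a) * (1 + b) / 4 := by ring
  rw [e1] at h2
  nlinarith

end Corner

/-- The corner zone of the inequality `(F)`: for `d ≥ 97 / 100`.  The hypothesis `hV2` is the validity
of the double-root pairs. -/
theorem zoneCorner
    (hV2 : ∀ e s : ℝ, 0 < e → e < 1 / 2 → 0 < s → s < 1 / 2 →
      ValidPair e (thetaV2 e s) (1 - tauV2 e s))
    {e m d : ℝ} (he0 : 0 < e) (he1 : e ≤ 9 / 400) (hm : 0 ≤ m) (hd : 97 / 100 ≤ d)
    (hmd : m + d ≤ 1) :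
    ∃ th v : ℝ, ValidPair e th v ∧ LL e m ≤ th * d + v / 2 * (LL e (m + d) + LL e (m - d)) := by
  by_cases hd1 : d < 1
  · have hs0 : 0 < 3 / 2 * e * (1 - d) := by
      have : 0 < 1 - d := by linarith
      positivity
    have hs1 : 3 / 2 * e * (1 - d) < 1 / 2 := by nlinarith
    have hV := hV2 e _ he0 (by linarith) hs0 hs1
    refine ⟨_, _, hV, ?_⟩
    have := Corner.corner_main (x := 1 - d) (m := m) he0 he1 (by linarith) (by linarith) hm
      (by linarith) hV.2.1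
    have e1 : 1 - (1 - d) = d := by ring
    rw [e1] at this
    exact this
  · have hd2 : d = 1 := by linarith
    have hm0 : m = 0 := by linarith
    subst hd2 hm0
    refine ⟨_, _, Corner.valid_corner he0 he1, ?_⟩
    have h : LL e 0 = hE e := by
      have h2 : H 0 = Real.log 2 := by
        unfold H Real.negMulLog
        rw [show ((1 : ℝ) + 0) / 2 = 2⁻¹ by norm_num, show ((1 : ℝ) - 0) / 2 = 2⁻¹ by norm_num,
          Real.log_inv]
        ring
      have h3 : gt 0 = 1 := by norm_num [gt]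
      unfold LL ka
      rw [h2, h3]
      ring
    rw [h]
    simp

end Vale.Agent.Lib.P322y
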