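import Vale.Agent.Lib.P322y.LowNoise
import Vale.Agent.Lib.P322y.ZoneV1b
import Vale.Agent.Lib.P322y.NumZone

/-! The inequality `(F)` on the whole zone, and the Courtade-Kumar inequality. -/

namespace Vale.Agent.Lib.P322y

open Vale.Agent.Lib.P311 Vale.Agent.Lib.P322

variable {n : ℕ}

/-- The inequality `(F)`. -/
theorem Fcert_holds : Fcert := by
  intro e m d h0 h1 hm hd hmd hO
  by_cases he : e ≤ 1 / 10000
  · exact FcertAt_low h0 he m d hm hd hmd hO
  push Not at he
  rcases eq_or_lt_of_le hd with hd0 | hd0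
  · rw [← hd0]
    exact cert_d_zero h0 (by linarith)
  by_cases hd97 : 97 / 100 ≤ d
  · exact zoneCorner (fun e s he0 he1 hs0 hs1 => V2_valid he0 he1 hs0 hs1) h0 h1 hm hd97 hmd
  push Not at hd97
  rcases numZone he.le h1 hd hd97.le with h | h
  · exact zoneV1b h0 h1 hm hd0 hmd hO h
  · exact h m hm hmd hO

/-- The Courtade-Kumar inequality. -/
theorem ck_full (f : (Fin n → Bool) → Bool) {ε : ℝ} (h0 : 0 ≤ ε) (h1 : ε ≤ 1 / 2) :
    mutualInfo f ε ≤ 1 - h2 ε :=
  ck_of_Fcert Fcert_holds f h0 h1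

end Vale.Agent.Lib.P322y
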