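import Vale.Agent.Lib.P322y.MElim

/-! Scale-free family `s = e * w`: closed forms and rational atoms. -/

namespace Vale.Agent.Lib.P322y

open Real

lemma H_chord {x y T : ℝ} (hx : |x| ≤ 1) (hy : |y| ≤ 1) (hT0 : 0 ≤ T) (hT1 : T ≤ 1) :
    (1 - T) * H x + T * H y ≤ H ((1 - T) * x + T * y) := by
  have hc := Real.concaveOn_negMulLog
  rw [abs_le] at hx hy
  unfold H
  have h1 := hc.2 (show (1 + x) / 2 ∈ Set.Ici (0 : ℝ) by simp only [Set.mem_Ici]; linarith [hx.1])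
    (show (1 + y) / 2 ∈ Set.Ici (0 : ℝ) by simp only [Set.mem_Ici]; linarith [hy.1])
    (show (0 : ℝ) ≤ 1 - T by linarith) hT0 (by ring)
  have h2 := hc.2 (show (1 - x) / 2 ∈ Set.Ici (0 : ℝ) by simp only [Set.mem_Ici]; linarith [hx.2])
    (show (1 - y) / 2 ∈ Set.Ici (0 : ℝ) by simp only [Set.mem_Ici]; linarith [hy.2])
    (show (0 : ℝ) ≤ 1 - T by linarith) hT0 (by ring)
  simp only [smul_eq_mul] at h1 h2
  have e1 : (1 + ((1 - T) * x + T * y)) / 2 = (1 - T) * ((1 + x) / 2) + T * ((1 + y) / 2) := by ring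
  have e2 : (1 - ((1 - T) * x + T * y)) / 2 = (1 - T) * ((1 - x) / 2) + T * ((1 - y) / 2) := by ring
  rw [e1, e2]; nlinarith

lemma H_one_sub_two (x : ℝ) : H (1 - 2 * x) = negMulLog (1 - x) + negMulLog x := by
  unfold H
  have e1 : (1 + (1 - 2 * x)) / 2 = 1 - x := by ring
  have e2 : (1 - (1 - 2 * x)) / 2 = x := by ring
  rw [e1, e2]

lemma neg_log_one_sub_ge {x : ℝ} (h0 : 0 ≤ x) (h1 : x < 1) : x + x ^ 2 / 2 ≤ -log (1 - x) := by
  have hs := Real.hasSum_pow_div_log_of_abs_lt_one (x := x) (by rw [abs_of_nonneg h0]; exact h1)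
  have := sum_le_hasSum (Finset.range 2) (fun k _ => by positivity) hs
  simp only [Finset.sum_range_succ, Finset.sum_range_zero] at this
  norm_num at this
  linarith

/-- `log y ≤ (y - 1/y)/2` for `y ≥ 1`. -/
lemma log_le_half_sub {y : ℝ} (hy : 1 ≤ y) : log y ≤ (y - y⁻¹) / 2 := by
  have hmono : MonotoneOn (fun t : ℝ => (t - t⁻¹) / 2 - log t) (Set.Ici 1) := by
    have hder : ∀ t : ℝ, 1 ≤ t → HasDerivAt (fun t : ℝ => (t - t⁻¹) / 2 - log t)
        ((1 - (-(t ^ 2)⁻¹)) / 2 - t⁻¹) t := by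
      intro t ht
      have ht0 : t ≠ 0 := by positivity
      have h1 : HasDerivAt (fun t : ℝ => t⁻¹) (-(t ^ 2)⁻¹) t := hasDerivAt_inv ht0
      exact (((hasDerivAt_id t).sub h1).div_const 2).sub (hasDerivAt_log ht0)
    apply monotoneOn_of_deriv_nonneg (convex_Ici 1)
    · intro t ht
      exact (hder t ht).continuousAt.continuousWithinAt
    · intro t ht
      rw [interior_Ici] at ht
      exact (hder t ht.le).differentiableAt.differentiableWithinAt
    · intro t ht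
      rw [interior_Ici] at ht
      have ht' : (1 : ℝ) < t := ht
      rw [(hder t ht'.le).deriv]
      have ht0 : t ≠ 0 := by positivity
      have : (1 - (-(t ^ 2)⁻¹)) / 2 - t⁻¹ = ((1 - t⁻¹)) ^ 2 / 2 := by
        field_simp
        ring
      rw [this]; positivity
  have := hmono (Set.mem_Ici.mpr le_rfl) (Set.mem_Ici.mpr hy) hy
  simp only [log_one, inv_one] at this
  linarith

lemma neg_log_one_sub_le {x : ℝ} (h0 : 0 ≤ x) (h1 : x < 1) :
    -log (1 - x) ≤ x + x ^ 2 / (2 * (1 - x)) := by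
  have hx : 0 < 1 - x := by linarith
  have hy : 1 ≤ (1 - x)⁻¹ := by
    rw [one_le_inv₀ hx]; linarith
  have := log_le_half_sub hy
  rw [log_inv, inv_inv] at this
  have e : ((1 - x)⁻¹ - (1 - x)) / 2 = x + x ^ 2 / (2 * (1 - x)) := by
    field_simp
    ring
  linarith

/-! Closed form of the pair -/

section pair

variable {e s : ℝ}

lemma p_pos (he : 0 < e) (he1 : e < 1 / 2) (hs : 0 < s) : 0 < e + (1 - 2 * e) * s := by
  have : 0 < (1 - 2 * e) * s := mul_pos (by linarith) hs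
  linarith

lemma one_sub_p_pos (he : 0 < e) (he1 : e < 1 / 2) (hs : 0 < s) (hs1 : s < 1 / 2) :
    0 < 1 - (e + (1 - 2 * e) * s) := by
  have : 0 < (1 - 2 * e) * (1 / 2 - s) := mul_pos (by linarith) (by linarith)
  nlinarith

theorem theta_closed (he : 0 < e) (he1 : e < 1 / 2) (hs : 0 < s) (hs1 : s < 1 / 2) :
    thetaV2 e s = -e * log (e + (1 - 2 * e) * s) - (1 - e) * log (1 - (e + (1 - 2 * e) * s))
      + log (1 - s) + tauV2 e s / 2 * (-log (1 - 2 * s)) := by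
  set p := e + (1 - 2 * e) * s with hp
  have hp0 : 0 < p := p_pos he he1 hs
  have hp1 : 0 < 1 - p := one_sub_p_pos he he1 hs hs1
  have hs2 : 0 < 1 - s := by linarith
  have hs3 : 0 < 1 - 2 * s := by linarith
  have hA : 0 < log (1 / (2 * s)) := by
    apply log_pos
    rw [lt_div_iff₀ (by positivity)]; linarith
  have hAe : log (1 / (2 * s)) = -log (2 * s) := by
    rw [one_div, log_inv]
  have hX : log (p * (1 - p) / (s * (1 - s))) = log p + log (1 - p) - log s - log (1 - s) := by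
    rw [log_div (by positivity) (by positivity), log_mul hp0.ne' hp1.ne', log_mul hs.ne' hs2.ne']
    ring
  have hτ : tauV2 e s * log (1 / (2 * s)) = log p + log (1 - p) - log s - log (1 - s) := by
    unfold tauV2
    rw [← hp, div_mul_cancel₀ _ hA.ne', hX]
  have hH1 : H (1 - 2 * p) = negMulLog (1 - p) + negMulLog p := H_one_sub_two p
  have hH2 : H (1 - 2 * s) = negMulLog (1 - s) + negMulLog s := H_one_sub_two s
  have hH3 : H (1 - 4 * s) = negMulLog (1 - 2 * s) + negMulLog (2 * s) := by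
    have := H_one_sub_two (2 * s)
    rwa [show (1 : ℝ) - 2 * (2 * s) = 1 - 4 * s by ring] at this
  unfold thetaV2
  rw [← hp, hH1, hH2, hH3]
  rw [div_eq_iff hs3.ne']
  simp only [negMulLog]
  have h2s : log (2 * s) = - log (1 / (2 * s)) := by rw [hAe]; ring
  rw [h2s]
  have hτ' := hτ
  clear_value p
  generalize log (1 / (2 * s)) = A at *
  generalize tauV2 e s = τ at *
  generalize log p = lp at *
  generalize log (1 - p) = lq at *
  generalize log s = ls at *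
  generalize log (1 - s) = lt at *
  generalize log (1 - 2 * s) = lw at *
  subst hp
  linear_combination (s) * hτ'

end pair


/-! Atoms for `s = e * w` -/

section atoms

variable {e w Ea : ℝ}

lemma Zr_lower (he : 0 < e) (hw : 0 < w) (hEa : Ea ≤ e) (hs : 2 * (e * w) < 1) :
    e * (w * (1 + Ea * w)) ≤ -log (1 - 2 * (e * w)) / 2 := by
  have h := neg_log_one_sub_ge (x := 2 * (e * w)) (by positivity) hs
  have h2 : e * w * (Ea * w) ≤ e * w * (e * w) :=
    mul_le_mul_of_nonneg_left (mul_le_mul_of_nonneg_right hEa hw.le) (by positivity)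
  nlinarith

lemma p_eq (e w : ℝ) : e + (1 - 2 * e) * (e * w) = e * (1 + (1 - 2 * e) * w) := by ring

lemma log_p_eq (he : 0 < e) (he1 : e < 1 / 2) (hw : 0 < w) :
    log (e + (1 - 2 * e) * (e * w)) = log e + log (1 + (1 - 2 * e) * w) := by
  have : 0 < (1 - 2 * e) * w := mul_pos (by linarith) hw
  rw [p_eq, log_mul he.ne' (by positivity)]

lemma hE_eq (he : 0 < e) : hE e = e * log (1 / e) + (1 - e) * (-log (1 - e)) := by
  unfold hE
  rw [H_one_sub_two]
  simp only [negMulLog, one_div, log_inv]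
  ring

lemma c_lower (he : 0 < e) (he1 : e < 1) :
    e * (1 - e / 2 - e ^ 2 / 2) ≤ (1 - e) * (-log (1 - e)) := by
  have h := neg_log_one_sub_ge he.le he1
  have := mul_le_mul_of_nonneg_left h (show 0 ≤ 1 - e by linarith)
  nlinarith

lemma c_upper (he : 0 < e) (he1 : e < 1) :
    (1 - e) * (-log (1 - e)) ≤ e * (1 - e / 2) := by
  have h := neg_log_one_sub_le he.le he1
  have hx : 0 < 1 - e := by linarith
  have := mul_le_mul_of_nonneg_left h hx.le
  have e2 : (1 - e) * (e + e ^ 2 / (2 * (1 - e))) = e * (1 - e / 2) := by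
    field_simp
    ring
  linarith

lemma a_eq (he : 0 < e) (hw : 0 < w) : log (1 / (2 * (e * w))) = log (1 / e) - log (2 * w) := by
  rw [show 2 * (e * w) = e * (2 * w) by ring, one_div, one_div, log_inv, log_inv,
    log_mul he.ne' (by positivity)]
  ring

lemma Yr_lower {ρb sb LU : ℝ} (he : 0 < e) (he1 : e < 1 / 2) (hw : 0 < w) (hEa0 : 0 ≤ Ea)
    (hEa : Ea ≤ e) (hρb0 : 0 ≤ ρb) (hρb : ρb ≤ 1 - 2 * e) (hsb : e * w ≤ sb) (hsb1 : sb < 1)
    (hLU : log (1 + ρb * w) ≤ LU) :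
    e * (ρb * w - LU + Ea * (ρb * w) ^ 2 / 2 - w * (1 + sb / (2 * (1 - sb)))) ≤
      -e * log (e + (1 - 2 * e) * (e * w)) - (1 - e) * log (1 - (e + (1 - 2 * e) * (e * w)))
        + log (1 - e * w) - hE e := by
  have hρ0 : 0 < 1 - 2 * e := by linarith
  set ρ := 1 - 2 * e with hρ
  have hρw : 0 < ρ * w := mul_pos hρ0 hw
  have hs0 : 0 < e * w := by positivity
  have hs1 : e * w < 1 := by linarith
  have hom : 0 < 1 - e := by linarith
  -- `u`
  set u := e * (ρ * w) / (1 - e) with hu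
  have hu0 : 0 ≤ u := by positivity
  have hp1 : 1 - (e + ρ * (e * w)) = (1 - e) * (1 - u) := by
    rw [hu]; field_simp; ring
  have hp1pos : 0 < 1 - (e + ρ * (e * w)) := by
    have : 0 < ρ * (1 - e * w) := mul_pos hρ0 (by linarith)
    nlinarith
  have hu1 : u < 1 := by
    have : 0 < (1 - e) * (1 - u) := by rw [← hp1]; exact hp1pos
    have := (pos_iff_pos_of_mul_pos this).mp hom
    linarith
  have hlog1 : log (1 - (e + ρ * (e * w))) = log (1 - e) + log (1 - u) := by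
    rw [hp1, log_mul hom.ne' (by linarith)]
  have hT1 := neg_log_one_sub_ge hu0 hu1
  have hT1' : e * (ρ * w) + (e * (ρ * w)) ^ 2 / 2 ≤ (1 - e) * (-log (1 - u)) := by
    have h1 := mul_le_mul_of_nonneg_left hT1 hom.le
    have h2 : (1 - e) * u = e * (ρ * w) := by rw [hu]; field_simp
    have h3 : e * (ρ * w) ≤ u := by
      rw [hu, le_div_iff₀ hom]
      have : 0 ≤ e * (ρ * w) * e := by positivity
      nlinarith
    have h4 : (1 - e) * (u + u ^ 2 / 2) = e * (ρ * w) + (e * (ρ * w)) * u / 2 := by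
      have : (1 - e) * (u + u ^ 2 / 2) = (1 - e) * u + ((1 - e) * u) * u / 2 := by ring
      rw [this, h2]
    have h5 : (e * (ρ * w)) * (e * (ρ * w)) ≤ (e * (ρ * w)) * u :=
      mul_le_mul_of_nonneg_left h3 (by positivity)
    nlinarith
  have hT2 := neg_log_one_sub_le hs0.le hs1
  have hT2' : (e * w) ^ 2 / (2 * (1 - e * w)) ≤ e * w * (sb / (2 * (1 - sb))) := by
    have h1 : 0 < 1 - e * w := by linarith
    have h2 : 0 < 1 - sb := by linarith
    have hsb0 : 0 ≤ sb := by linarith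
    have hr : sb / (2 * (1 - sb)) * (2 * (1 - sb)) = sb := by field_simp
    have hr0 : 0 ≤ sb / (2 * (1 - sb)) := by positivity
    rw [div_le_iff₀ (by positivity)]
    set r := sb / (2 * (1 - sb)) with hrdef
    have h4 : 0 ≤ (e * w) * ((sb - e * w) * (1 + 2 * r)) :=
      mul_nonneg hs0.le (mul_nonneg (by linarith) (by linarith))
    nlinarith
  have hT3 : log (1 + ρ * w) ≤ LU + (ρ - ρb) * w := by
    have h1 : 0 < 1 + ρb * w := by positivity
    have h2 : 0 < 1 + ρ * w := by positivity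
    have h3 : log (1 + ρ * w) - log (1 + ρb * w) ≤ (ρ - ρb) * w := by
      rw [← log_div h2.ne' h1.ne']
      have := log_le_sub_one_of_pos (div_pos h2 h1)
      have h4 : (1 + ρ * w) / (1 + ρb * w) - 1 ≤ (ρ - ρb) * w := by
        rw [sub_le_iff_le_add, div_le_iff₀ h1]
        have : 0 ≤ (ρ - ρb) * w * (ρb * w) :=
          mul_nonneg (mul_nonneg (by linarith) hw.le) (by positivity)
        nlinarith
      linarith
    linarith
  have hT4 : e * (Ea * (ρb * w) ^ 2 / 2) ≤ (e * (ρ * w)) ^ 2 / 2 := by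
    have h1 : ρb * w ≤ ρ * w := mul_le_mul_of_nonneg_right hρb hw.le
    have h2 : (ρb * w) ^ 2 ≤ (ρ * w) ^ 2 := by
      apply pow_le_pow_left₀ (by positivity) h1
    have h3 : Ea * (ρb * w) ^ 2 ≤ e * (ρ * w) ^ 2 :=
      mul_le_mul hEa h2 (by positivity) he.le
    have := mul_le_mul_of_nonneg_left h3 he.le
    nlinarith
  rw [hE_eq he, log_p_eq he he1 hw, ← hρ, hlog1]
  rw [show log (1 / e) = -log e by rw [one_div, log_inv]]
  have h6 := mul_le_mul_of_nonneg_left hT3 he.le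
  have h7 : e * w * (sb / (2 * (1 - sb))) = e * (w * (sb / (2 * (1 - sb)))) := by ring
  have h8 : e * (ρ * w - LU - (ρ - ρb) * w) = e * (ρb * w - LU) := by ring
  nlinarith

lemma Av_lower {ρa sb LV : ℝ} (he : 0 < e) (he1 : e < 1 / 2) (hw : 0 < w) (hEa0 : 0 ≤ Ea)
    (hEa : Ea ≤ e) (hρa : 1 - 2 * e ≤ ρa) (hsb : e * w ≤ sb) (hsb1 : 2 * sb ≤ 1) (hs : 2 * (e * w) < 1)
    (hLV : log (2 * (1 + ρa * w)) ≤ LV) :
    log (1 / e) - LV + Ea * (1 - 2 * sb) ≤
      log (1 / (2 * (e * w))) - log ((e + (1 - 2 * e) * (e * w)) * (1 - (e + (1 - 2 * e) * (e * w)))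
        / ((e * w) * (1 - e * w))) := by
  have hs0 : 0 < e * w := by positivity
  have hs1 : e * w < 1 / 2 := by linarith
  have hp0 := p_pos he he1 hs0
  have hp1 := one_sub_p_pos he he1 hs0 hs1
  have hs2 : 0 < 1 - e * w := by linarith
  have hρ0 : 0 < 1 - 2 * e := by linarith
  have hX : log ((e + (1 - 2 * e) * (e * w)) * (1 - (e + (1 - 2 * e) * (e * w)))
        / ((e * w) * (1 - e * w))) = log (e + (1 - 2 * e) * (e * w))
        + log (1 - (e + (1 - 2 * e) * (e * w))) - (log (e * w) + log (1 - e * w)) := by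
    rw [log_div (mul_pos hp0 hp1).ne' (mul_pos hs0 hs2).ne', log_mul hp0.ne' hp1.ne',
      log_mul hs0.ne' hs2.ne']
  rw [hX, log_p_eq he he1 hw]
  have h1 : log (1 / (2 * (e * w))) = -log 2 - log (e * w) := by
    rw [one_div, log_inv, log_mul (by norm_num) hs0.ne']; ring
  have h2 : log (1 / e) = -log e := by rw [one_div, log_inv]
  rw [h1, h2]
  set p := e + (1 - 2 * e) * (e * w) with hp
  have h3 : log (2 * (1 + (1 - 2 * e) * w)) ≤ LV := by
    refine le_trans (log_le_log (by positivity) ?_) hLV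
    have : (1 - 2 * e) * w ≤ ρa * w := mul_le_mul_of_nonneg_right hρa hw.le
    linarith
  rw [log_mul (by norm_num) (by positivity)] at h3
  have h4 : p - e * w = e * (1 - 2 * (e * w)) := by rw [hp]; ring
  have h5 : log (1 - p) - log (1 - e * w) ≤ (1 - p) / (1 - e * w) - 1 := by
    rw [← log_div hp1.ne' hs2.ne']
    exact log_le_sub_one_of_pos (div_pos hp1 hs2)
  have h6 : (1 - p) / (1 - e * w) - 1 = -((p - e * w) / (1 - e * w)) := by
    field_simp
    ring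
  have h7 : p - e * w ≤ (p - e * w) / (1 - e * w) := by
    rw [le_div_iff₀ hs2]
    have : 0 ≤ (p - e * w) * (e * w) := by
      rw [h4]
      exact mul_nonneg (mul_nonneg he.le (by linarith)) hs0.le
    nlinarith
  have h8 : Ea * (1 - 2 * sb) ≤ e * (1 - 2 * (e * w)) := by
    apply mul_le_mul hEa (by linarith) (by linarith) he.le
  linarith

end atoms

/-! Abstract reduction -/

lemma red_bound {a lX θ v h Yr Zr e Yh W d B C Bh Ch hh : ℝ}
    (hv : v * a = a - lX) (hθ : a * θ = a * (h + Yr) + lX * Zr) (ha : 0 ≤ a) (hlX : 0 ≤ lX)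
    (hd : 0 ≤ d) (hYr : e * Yh ≤ Yr) (hZr : e * W ≤ Zr) (hh' : h = e * hh) (hB : B = e * Bh)
    (hC : C = e * Ch) :
    e * (a * (d * (hh + Yh + W) - hh + Ch) + (a - lX) * (Bh - d * W)) ≤
      a * (θ * d - h + v * B + C) := by
  have h1 : a * (θ * d - h + v * B + C) = (a * θ) * d - a * h + (v * a) * B + a * C := by ring
  rw [h1, hv, hθ, hh', hB, hC]
  have h2 : 0 ≤ a * d * (Yr - e * Yh) := mul_nonneg (mul_nonneg ha hd) (by linarith)
  have h3 : 0 ≤ lX * d * (Zr - e * W) := mul_nonneg (mul_nonneg hlX hd) (by linarith)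
  nlinarith

lemma box_nonneg {k₀ k₁ k₂ cL cU oL oU c o : ℝ} (hc1 : cL ≤ c) (hc2 : c ≤ cU) (ho1 : oL ≤ o)
    (ho2 : o ≤ oU) (h11 : 0 ≤ k₀ + k₁ * cL + k₂ * oL) (h12 : 0 ≤ k₀ + k₁ * cL + k₂ * oU)
    (h21 : 0 ≤ k₀ + k₁ * cU + k₂ * oL) (h22 : 0 ≤ k₀ + k₁ * cU + k₂ * oU) :
    0 ≤ k₀ + k₁ * c + k₂ * o := by
  rcases le_total 0 k₁ with h1 | h1 <;> rcases le_total 0 k₂ with h2 | h2
  · have := mul_nonneg h1 (sub_nonneg.2 hc1)
    have := mul_nonneg h2 (sub_nonneg.2 ho1)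
    nlinarith
  · have := mul_nonneg h1 (sub_nonneg.2 hc1)
    have := mul_nonneg (neg_nonneg.2 h2) (sub_nonneg.2 ho2)
    nlinarith
  · have := mul_nonneg (neg_nonneg.2 h1) (sub_nonneg.2 hc2)
    have := mul_nonneg h2 (sub_nonneg.2 ho1)
    nlinarith
  · have := mul_nonneg (neg_nonneg.2 h1) (sub_nonneg.2 hc2)
    have := mul_nonneg (neg_nonneg.2 h2) (sub_nonneg.2 ho2)
    nlinarith

/-- Data check at one corner `(c, o)` of the box, at `ℓ = ℓb`. -/
def Corner (ℓb a₀ A₀ x X G μ ν Y W c o : ℝ) : Prop :=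
  (X - (1 - x)) * (ℓb + c) + μ * o + x * Y ≤ 0 ∧
  0 ≤ G * (ℓb + c) + ν * o - x * W ∧
  0 ≤ (ℓb + a₀) * ((X - (1 - x)) * (ℓb + c) + μ * o + x * Y)
      + (ℓb + A₀) * (G * (ℓb + c) + ν * o - x * W) ∧
  0 ≤ ((X - (1 - x)) * (ℓb + c) + μ * o + x * Y) + (ℓb + a₀) * (X - (1 - x))
      + (G * (ℓb + c) + ν * o - x * W) + (ℓb + A₀) * G

lemma corner_at {ℓb a₀ A₀ x X G μ ν Y W c o ℓ : ℝ} (h : Corner ℓb a₀ A₀ x X G μ ν Y W c o)
    (hX : X - (1 - x) ≤ 0) (hG : 0 ≤ G) (hα : 0 ≤ X - (1 - x) + G) (hℓ : ℓb ≤ ℓ) :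
    0 ≤ -((X - (1 - x)) * (ℓ + c) + μ * o + x * Y) ∧
    0 ≤ G * (ℓ + c) + ν * o - x * W ∧
    0 ≤ (ℓ + a₀) * ((X - (1 - x)) * (ℓ + c) + μ * o + x * Y)
      + (ℓ + A₀) * (G * (ℓ + c) + ν * o - x * W) := by
  obtain ⟨h1, h2, h3, h4⟩ := h
  obtain ⟨t, rfl⟩ : ∃ t, ℓ = ℓb + t := ⟨ℓ - ℓb, by ring⟩
  have ht : 0 ≤ t := by linarith
  refine ⟨?_, ?_, ?_⟩
  · have := mul_nonneg (neg_nonneg.2 hX) ht
    nlinarith
  · have := mul_nonneg hG ht
    nlinarith
  · have h5 := mul_nonneg h4 ht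
    have h6 := mul_nonneg hα (mul_nonneg ht ht)
    nlinarith

/-- The three conclusions at one end, for all `ℓ ≥ ℓb` and `(c, o)` in the box. -/
lemma end_core {ℓb a₀ A₀ x X G μ ν Y W cL cU oL oU ℓ c o : ℝ}
    (h11 : Corner ℓb a₀ A₀ x X G μ ν Y W cL oL) (h12 : Corner ℓb a₀ A₀ x X G μ ν Y W cL oU)
    (h21 : Corner ℓb a₀ A₀ x X G μ ν Y W cU oL) (h22 : Corner ℓb a₀ A₀ x X G μ ν Y W cU oU)
    (hX : X - (1 - x) ≤ 0) (hG : 0 ≤ G) (hα : 0 ≤ X - (1 - x) + G) (hℓ : ℓb ≤ ℓ)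
    (hc1 : cL ≤ c) (hc2 : c ≤ cU) (ho1 : oL ≤ o) (ho2 : o ≤ oU) :
    (X - (1 - x)) * (ℓ + c) + μ * o + x * Y ≤ 0 ∧
    0 ≤ G * (ℓ + c) + ν * o - x * W ∧
    0 ≤ (ℓ + a₀) * ((X - (1 - x)) * (ℓ + c) + μ * o + x * Y)
      + (ℓ + A₀) * (G * (ℓ + c) + ν * o - x * W) := by
  have c11 := corner_at h11 hX hG hα hℓ
  have c12 := corner_at h12 hX hG hα hℓ
  have c21 := corner_at h21 hX hG hα hℓ
  have c22 := corner_at h22 hX hG hα hℓ
  refine ⟨?_, ?_, ?_⟩
  · have := box_nonneg (k₀ := -((X - (1 - x)) * ℓ + x * Y)) (k₁ := -(X - (1 - x))) (k₂ := -μ)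
      hc1 hc2 ho1 ho2 (by linarith [c11.1]) (by linarith [c12.1]) (by linarith [c21.1])
      (by linarith [c22.1])
    linarith
  · have := box_nonneg (k₀ := G * ℓ - x * W) (k₁ := G) (k₂ := ν)
      hc1 hc2 ho1 ho2 (by linarith [c11.2.1]) (by linarith [c12.2.1]) (by linarith [c21.2.1])
      (by linarith [c22.2.1])
    linarith
  · have := box_nonneg
      (k₀ := (ℓ + a₀) * ((X - (1 - x)) * ℓ + x * Y) + (ℓ + A₀) * (G * ℓ - x * W))
      (k₁ := (ℓ + a₀) * (X - (1 - x)) + (ℓ + A₀) * G)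
      (k₂ := (ℓ + a₀) * μ + (ℓ + A₀) * ν)
      hc1 hc2 ho1 ho2 (by linarith [c11.2.2]) (by linarith [c12.2.2]) (by linarith [c21.2.2])
      (by linarith [c22.2.2])
    linarith

/-- From the three conclusions at the ends to a lower bound with the true `a`, `Av`, `L`. -/
lemma end_apply {a Av ℓ a₀ A₀ L L' x X G Ht Y W hh om : ℝ} (ha : a ≤ ℓ + a₀) (hAv : ℓ + A₀ ≤ Av)
    (ha0 : 0 ≤ a) (hAv0 : 0 ≤ Av) (hL : L ≤ L') (hX0 : 0 ≤ X) (hG : 0 ≤ G) (hom : 0 ≤ om)
    (hP : (X - (1 - x)) * hh + 2 * (1 - 2 * L') * X * om + x * Y ≤ 0)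
    (hQ : 0 ≤ G * hh + (Ht - 4 * L' * G) * om - x * W)
    (hF : 0 ≤ (ℓ + a₀) * ((X - (1 - x)) * hh + 2 * (1 - 2 * L') * X * om + x * Y)
      + (ℓ + A₀) * (G * hh + (Ht - 4 * L' * G) * om - x * W)) :
    0 ≤ a * ((X - (1 - x)) * hh + 2 * (1 - 2 * L) * X * om + x * Y)
      + Av * (G * hh + (Ht - 4 * L * G) * om - x * W) := by
  set P' := (X - (1 - x)) * hh + 2 * (1 - 2 * L') * X * om + x * Y with hP'
  set Q' := G * hh + (Ht - 4 * L' * G) * om - x * W with hQ'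
  have h1 : P' ≤ (X - (1 - x)) * hh + 2 * (1 - 2 * L) * X * om + x * Y := by
    have : 0 ≤ (L' - L) * X * om := mul_nonneg (mul_nonneg (by linarith) hX0) hom
    rw [hP']; nlinarith
  have h2 : Q' ≤ G * hh + (Ht - 4 * L * G) * om - x * W := by
    have : 0 ≤ (L' - L) * G * om := mul_nonneg (mul_nonneg (by linarith) hG) hom
    rw [hQ']; nlinarith
  have h3 := mul_le_mul_of_nonneg_left h1 ha0
  have h4 := mul_le_mul_of_nonneg_left h2 hAv0
  have h5 : (ℓ + a₀) * P' ≤ a * P' := mul_le_mul_of_nonpos_right ha hP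
  have h6 : (ℓ + A₀) * Q' ≤ Av * Q' := mul_le_mul_of_nonneg_right hAv hQ
  linarith

/-- The chord step. -/
lemma chord_step {a Av L hh om Y W d X G Ht T da db Xa Xb Ga Gb Ha Hb : ℝ}
    (ha : 0 ≤ a) (hAv : 0 ≤ Av) (hom : 0 ≤ om) (hκ : 0 ≤ hh - 4 * om * L) (hT0 : 0 ≤ T) (hT1 : T ≤ 1)
    (hd : d = (1 - T) * da + T * db)
    (hX : (1 - T) * Xa + T * Xb ≤ X) (hGG : (1 - T) * Ga + T * Gb ≤ G)
    (hHt : (1 - T) * Ha + T * Hb ≤ Ht) :
    (1 - T) * (a * ((Xa - (1 - da)) * hh + 2 * (1 - 2 * L) * Xa * om + da * Y)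
        + Av * (Ga * hh + (Ha - 4 * L * Ga) * om - da * W))
      + T * (a * ((Xb - (1 - db)) * hh + 2 * (1 - 2 * L) * Xb * om + db * Y)
        + Av * (Gb * hh + (Hb - 4 * L * Gb) * om - db * W)) ≤
    a * (d * (hh + Y) - hh + (2 * om + (hh - 4 * om * L)) * X)
      + Av * (om * Ht + (hh - 4 * om * L) * G - d * W) := by
  have h1 := mul_le_mul_of_nonneg_left hX (show 0 ≤ 2 * om + (hh - 4 * om * L) by linarith)
  have h2 := mul_le_mul_of_nonneg_left hGG hκ
  have h3 := mul_le_mul_of_nonneg_left hHt hom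
  have h4 := mul_le_mul_of_nonneg_left h1 ha
  have h5 := mul_le_mul_of_nonneg_left (add_le_add h3 h2) hAv
  subst hd
  nlinarith


end Vale.Agent.Lib.P322y
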