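import Vale.Agent.Lib.P322y.LadCore
import Vale.Agent.Lib.P322.Check

/-! Scale-free family `s = e * w`: rational cells for the ladder. -/

namespace Vale.Agent.Lib.P322y

open Real
open Vale.Agent.Lib.P322 (logUB logLB logUB_sound logLB_sound log2U log2U_sound)

/-- Lower bound for the entropy `H x`, rational. -/
def HLq (x : ℚ) : ℚ :=
  -((1 + x) / 2 * logUB 20 ((1 + x) / 2)) - (1 - x) / 2 * logUB 20 ((1 - x) / 2)

lemma HLq_sound {x : ℚ} (h1 : -1 < x) (h2 : x < 1) : ((HLq x : ℚ) : ℝ) ≤ H (x : ℝ) := by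
  have hA : (0 : ℚ) < (1 + x) / 2 := by linarith
  have hB : (0 : ℚ) < (1 - x) / 2 := by linarith
  have s1 := logUB_sound 20 ((1 + x) / 2) hA
  have s2 := logUB_sound 20 ((1 - x) / 2) hB
  have hA' : (0 : ℝ) ≤ (1 + (x : ℝ)) / 2 := by
    have : (0 : ℝ) < (((1 + x) / 2 : ℚ) : ℝ) := by exact_mod_cast hA
    push_cast at this; linarith
  have hB' : (0 : ℝ) ≤ (1 - (x : ℝ)) / 2 := by
    have : (0 : ℝ) < (((1 - x) / 2 : ℚ) : ℝ) := by exact_mod_cast hB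
    push_cast at this; linarith
  unfold HLq H
  simp only [negMulLog]
  push_cast at s1 s2 ⊢
  have m1 := mul_le_mul_of_nonneg_left s1 hA'
  have m2 := mul_le_mul_of_nonneg_left s2 hB'
  linarith

/-- Check at a corner, in rationals. -/
def CornerQ (ℓb a₀ A₀ x X G μ ν Y W c o : ℚ) : Prop :=
  (X - (1 - x)) * (ℓb + c) + μ * o + x * Y ≤ 0 ∧
  0 ≤ G * (ℓb + c) + ν * o - x * W ∧
  0 ≤ (ℓb + a₀) * ((X - (1 - x)) * (ℓb + c) + μ * o + x * Y)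
      + (ℓb + A₀) * (G * (ℓb + c) + ν * o - x * W) ∧
  0 ≤ ((X - (1 - x)) * (ℓb + c) + μ * o + x * Y) + (ℓb + a₀) * (X - (1 - x))
      + (G * (ℓb + c) + ν * o - x * W) + (ℓb + A₀) * G

instance (ℓb a₀ A₀ x X G μ ν Y W c o : ℚ) : Decidable (CornerQ ℓb a₀ A₀ x X G μ ν Y W c o) := by
  unfold CornerQ; infer_instance

lemma CornerQ.cast {ℓb a₀ A₀ x X G μ ν Y W c o : ℚ} (h : CornerQ ℓb a₀ A₀ x X G μ ν Y W c o) :
    Corner ℓb a₀ A₀ x X G μ ν Y W c o := by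
  unfold CornerQ at h
  unfold Corner
  exact_mod_cast h

/-- Check at one end, in rationals. -/
def EndQ (ℓb a₀ A₀ L' cL cU oL oU Yh W x X G Ht : ℚ) : Prop :=
  0 ≤ X ∧ 0 ≤ G ∧ X - (1 - x) ≤ 0 ∧ 0 ≤ X - (1 - x) + G ∧
  CornerQ ℓb a₀ A₀ x X G (2 * (1 - 2 * L') * X) (Ht - 4 * L' * G) (Yh + W) W cL oL ∧
  CornerQ ℓb a₀ A₀ x X G (2 * (1 - 2 * L') * X) (Ht - 4 * L' * G) (Yh + W) W cL oU ∧
  CornerQ ℓb a₀ A₀ x X G (2 * (1 - 2 * L') * X) (Ht - 4 * L' * G) (Yh + W) W cU oL ∧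
  CornerQ ℓb a₀ A₀ x X G (2 * (1 - 2 * L') * X) (Ht - 4 * L' * G) (Yh + W) W cU oU

instance (ℓb a₀ A₀ L' cL cU oL oU Yh W x X G Ht : ℚ) :
    Decidable (EndQ ℓb a₀ A₀ L' cL cU oL oU Yh W x X G Ht) := by
  unfold EndQ; infer_instance

lemma EndQ.cast {ℓb a₀ A₀ L' cL cU oL oU Yh W x X G Ht : ℚ}
    (h : EndQ ℓb a₀ A₀ L' cL cU oL oU Yh W x X G Ht) :
    EndData ℓb a₀ A₀ L' cL cU oL oU ((Yh : ℝ) + W) W x X G Ht := by
  obtain ⟨h1, h2, h3, h4, h5, h6, h7, h8⟩ := h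
  have c5 := h5.cast
  have c6 := h6.cast
  have c7 := h7.cast
  have c8 := h8.cast
  push_cast at c5 c6 c7 c8
  exact ⟨by exact_mod_cast h1, by exact_mod_cast h2, by exact_mod_cast h3, by exact_mod_cast h4,
    c5, c6, c7, c8⟩

/-- Polynomial `gt` in rationals. -/
def gtq (x : ℚ) : ℚ := 1 - 4 / 3 * x ^ 2 + 1 / 3 * x ^ 4

/-- The polynomial `gt d - (1-d)² + 2 (1-d)² d²`. -/
def Gtq (x : ℚ) : ℚ := 2 * x - x ^ 2 / 3 - 4 * x ^ 3 + 7 / 3 * x ^ 4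

lemma chord_core {T D r M : ℝ} (hT0 : 0 ≤ T) (hT1 : T ≤ 1) (hM0 : 0 ≤ M) (hr : -M ≤ r) :
    -(M * D ^ 2 / 4) ≤ T * (1 - T) * D ^ 2 * r := by
  have hK0 : 0 ≤ T * (1 - T) * D ^ 2 :=
    mul_nonneg (mul_nonneg hT0 (by linarith)) (sq_nonneg D)
  have hK1 : T * (1 - T) * D ^ 2 ≤ D ^ 2 / 4 := by
    nlinarith [mul_nonneg (sq_nonneg (2 * T - 1)) (sq_nonneg D)]
  have h1 := mul_le_mul_of_nonneg_left hr hK0
  have h2 := mul_le_mul_of_nonneg_left hK1 hM0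
  nlinarith

lemma Smax_bound {da db d : ℝ} (hda : 0 ≤ da) (hd1 : da ≤ d) (hd2 : d ≤ db) :
    da ^ 2 + db ^ 2 + d ^ 2 + da * db + da * d + db * d ≤ da ^ 2 + 3 * db ^ 2 + 2 * da * db := by
  have hd0 : 0 ≤ d := le_trans hda hd1
  have hdb0 : 0 ≤ db := le_trans hd0 hd2
  have h1 : d ^ 2 ≤ db ^ 2 := pow_le_pow_left₀ hd0 hd2 2
  have h2 : da * d ≤ da * db := mul_le_mul_of_nonneg_left hd2 hda
  have h3 : db * d ≤ db * db := mul_le_mul_of_nonneg_left hd2 hdb0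
  nlinarith

lemma gt_chord {da db d T M : ℝ} (hda : 0 ≤ da) (hd1 : da ≤ d) (hd2 : d ≤ db)
    (hT0 : 0 ≤ T) (hT1 : T ≤ 1) (hd : d = (1 - T) * da + T * db) (hM0 : 0 ≤ M)
    (hM : (da ^ 2 + 3 * db ^ 2 + 2 * da * db - 4) / 3 ≤ M) :
    (1 - T) * (gt da - M * (db - da) ^ 2 / 4) + T * (gt db - M * (db - da) ^ 2 / 4) ≤ gt d := by
  have hS := Smax_bound hda hd1 hd2
  have hcore := chord_core (D := db - da)
    (r := 4 / 3 - (da ^ 2 + db ^ 2 + d ^ 2 + da * db + da * d + db * d) / 3) hT0 hT1 hM0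
    (by linarith)
  have key : gt d - ((1 - T) * gt da + T * gt db) = T * (1 - T) * (db - da) ^ 2 *
      (4 / 3 - (da ^ 2 + db ^ 2 + d ^ 2 + da * db + da * d + db * d) / 3) := by
    unfold gt; rw [hd]; ring
  linarith

lemma Gt_chord {da db d T M : ℝ} (hda : 0 ≤ da) (hd1 : da ≤ d) (hd2 : d ≤ db)
    (hT0 : 0 ≤ T) (hT1 : T ≤ 1) (hd : d = (1 - T) * da + T * db) (hM0 : 0 ≤ M)
    (hM : -(1 / 3 + 4 * (2 * da + db) - 7 / 3 * (da ^ 2 + 3 * db ^ 2 + 2 * da * db)) ≤ M) :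
    (1 - T) * ((2 * da - da ^ 2 / 3 - 4 * da ^ 3 + 7 / 3 * da ^ 4) - M * (db - da) ^ 2 / 4)
      + T * ((2 * db - db ^ 2 / 3 - 4 * db ^ 3 + 7 / 3 * db ^ 4) - M * (db - da) ^ 2 / 4) ≤
      2 * d - d ^ 2 / 3 - 4 * d ^ 3 + 7 / 3 * d ^ 4 := by
  have hS := Smax_bound hda hd1 hd2
  have hcore := chord_core (D := db - da)
    (r := 1 / 3 + 4 * (da + db + d)
      - 7 / 3 * (da ^ 2 + db ^ 2 + d ^ 2 + da * db + da * d + db * d)) hT0 hT1 hM0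
    (by linarith)
  have key : (2 * d - d ^ 2 / 3 - 4 * d ^ 3 + 7 / 3 * d ^ 4)
      - ((1 - T) * (2 * da - da ^ 2 / 3 - 4 * da ^ 3 + 7 / 3 * da ^ 4)
        + T * (2 * db - db ^ 2 / 3 - 4 * db ^ 3 + 7 / 3 * db ^ 4)) = T * (1 - T) * (db - da) ^ 2 *
      (1 / 3 + 4 * (da + db + d)
        - 7 / 3 * (da ^ 2 + db ^ 2 + d ^ 2 + da * db + da * d + db * d)) := by
    rw [hd]; ring
  linarith

lemma xi_chord {da db d T : ℝ} (hT0 : 0 ≤ T) (hT1 : T ≤ 1) (hd : d = (1 - T) * da + T * db) :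
    (1 - T) * ((1 - da) ^ 2 - (db - da) ^ 2 / 4) + T * ((1 - db) ^ 2 - (db - da) ^ 2 / 4)
      ≤ (1 - d) ^ 2 := by
  have hcore := chord_core (D := db - da) (r := -1) (M := 1) hT0 hT1 (by norm_num) (by norm_num)
  have key : (1 - d) ^ 2 - ((1 - T) * (1 - da) ^ 2 + T * (1 - db) ^ 2)
      = T * (1 - T) * (db - da) ^ 2 * (-1) := by
    rw [hd]; ring
  linarith

/-! Identification of the two quantities of `MElim` -/

lemma E0_eq (e th v d : ℝ) :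
    Sf (sg e) (ka e) th v 0 d =
      th * d - hE e + v * (sg e / 4 * (4 * H d) + ka e * gt d) + (sg e / 2 + ka e) * 0 := by
  rw [Sf_zero]
  unfold LLc ka
  ring

lemma E1_eq (e th v d : ℝ) :
    Sf (sg e) (ka e) th v 0 d - Rp (sg e) (ka e) v d =
      th * d - hE e + v * (sg e / 4 * (2 * H (2 * d - 1))
        + ka e * (2 * d - d ^ 2 / 3 - 4 * d ^ 3 + 7 / 3 * d ^ 4))
        + (sg e / 2 + ka e) * (1 - d) ^ 2 := by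
  rw [Sf_zero]
  unfold LLc ka Rp gt
  ring

/-- A rational cell of the ladder. -/
structure Cell where
  Ea : ℚ
  Eb : ℚ
  da : ℚ
  db : ℚ
  w : ℚ
  ℓb : ℚ
  a₀ : ℚ
  A₀ : ℚ
  Yh : ℚ
  H0a : ℚ
  H0b : ℚ
  H1a : ℚ
  H1b : ℚ

namespace Cell

/-- `W = w (1 + Ea w)`. -/
def W (C : Cell) : ℚ := C.w * (1 + C.Ea * C.w)

/-- The box for `c`. -/
def cL (C : Cell) : ℚ := 1 - C.Eb / 2 - C.Eb ^ 2 / 2

/-- The box for `c`. -/
def cU (C : Cell) : ℚ := 1 - C.Ea / 2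

/-- The box for `1 - e`. -/
def oL (C : Cell) : ℚ := 1 - C.Eb

/-- The box for `1 - e`. -/
def oU (C : Cell) : ℚ := 1 - C.Ea

/-- Square of the width, over 4. -/
def Δ (C : Cell) : ℚ := (C.db - C.da) ^ 2 / 4

/-- The correction for `gt`. -/
def M0 (C : Cell) : ℚ := max 0 ((C.da ^ 2 + 3 * C.db ^ 2 + 2 * C.da * C.db - 4) / 3)

/-- The correction for `Gt`. -/
def M1 (C : Cell) : ℚ :=
  max 0 (-(1 / 3 + 4 * (2 * C.da + C.db) - 7 / 3 * (C.da ^ 2 + 3 * C.db ^ 2 + 2 * C.da * C.db)))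

/-- End check for `E0`. -/
def E0Chk (C : Cell) (x H0 : ℚ) : Prop :=
  EndQ C.ℓb C.a₀ C.A₀ log2U C.cL C.cU C.oL C.oU C.Yh C.W x 0 (gtq x - C.M0 * C.Δ) (4 * H0)

/-- End check for `E1`. -/
def E1Chk (C : Cell) (x H1 : ℚ) : Prop :=
  EndQ C.ℓb C.a₀ C.A₀ log2U C.cL C.cU C.oL C.oU C.Yh C.W x ((1 - x) ^ 2 - C.Δ)
    (Gtq x - C.M1 * C.Δ) (2 * H1)

/-- All the checks of a cell. -/
def ok (C : Cell) : Prop :=
  0 ≤ C.Ea ∧ C.Ea ≤ C.Eb ∧ 0 < C.Eb ∧ C.Eb ≤ 9 / 400 ∧ 0 < C.w ∧ 2 * (C.Eb * C.w) < 1 ∧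
  0 ≤ C.da ∧ C.da < C.db ∧ 0 < C.da ∧ C.db < 1 ∧
  C.ℓb ≤ logLB 20 (1 / C.Eb) ∧
  -logLB 20 (2 * C.w) ≤ C.a₀ ∧
  C.A₀ ≤ -logUB 20 (2 * (1 + (1 - 2 * C.Ea) * C.w)) + C.Ea * (1 - 2 * (C.Eb * C.w)) ∧
  C.Yh ≤ (1 - 2 * C.Eb) * C.w - logUB 20 (1 + (1 - 2 * C.Eb) * C.w)
    + C.Ea * ((1 - 2 * C.Eb) * C.w) ^ 2 / 2
    - C.w * (1 + (C.Eb * C.w) / (2 * (1 - C.Eb * C.w))) ∧
  C.H0a ≤ HLq C.da ∧ C.H0b ≤ HLq C.db ∧ C.H1a ≤ HLq (2 * C.da - 1) ∧ C.H1b ≤ HLq (2 * C.db - 1) ∧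
  C.E0Chk C.da C.H0a ∧ C.E0Chk C.db C.H0b ∧ C.E1Chk C.da C.H1a ∧ C.E1Chk C.db C.H1b

instance (C : Cell) (x H0 : ℚ) : Decidable (C.E0Chk x H0) := by
  unfold E0Chk; infer_instance

instance (C : Cell) (x H1 : ℚ) : Decidable (C.E1Chk x H1) := by
  unfold E1Chk; infer_instance

instance (C : Cell) : Decidable C.ok := by
  unfold ok; infer_instance

end Cell

end Vale.Agent.Lib.P322y
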