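import Vale.Agent.Lib.P322y.LadAtoms

/-! Scale-free family `s = e * w`: the reduction to data at the two ends of a `d`-interval. -/

namespace Vale.Agent.Lib.P322y

open Real

/-- All the data needed at one end `x` of a `d`-interval. -/
structure EndData (ℓb a₀ A₀ L' cL cU oL oU Y W x X G Ht : ℝ) : Prop where
  hX0 : 0 ≤ X
  hG : 0 ≤ G
  hX : X - (1 - x) ≤ 0
  hα : 0 ≤ X - (1 - x) + G
  c11 : Corner ℓb a₀ A₀ x X G (2 * (1 - 2 * L') * X) (Ht - 4 * L' * G) Y W cL oL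
  c12 : Corner ℓb a₀ A₀ x X G (2 * (1 - 2 * L') * X) (Ht - 4 * L' * G) Y W cL oU
  c21 : Corner ℓb a₀ A₀ x X G (2 * (1 - 2 * L') * X) (Ht - 4 * L' * G) Y W cU oL
  c22 : Corner ℓb a₀ A₀ x X G (2 * (1 - 2 * L') * X) (Ht - 4 * L' * G) Y W cU oU

lemma EndData.apply {ℓb a₀ A₀ L' cL cU oL oU Y W x X G Ht a Av ℓ L c om : ℝ}
    (h : EndData ℓb a₀ A₀ L' cL cU oL oU Y W x X G Ht)
    (ha : a ≤ ℓ + a₀) (hAv : ℓ + A₀ ≤ Av) (ha0 : 0 ≤ a) (hAv0 : 0 ≤ Av) (hL : L ≤ L')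
    (hom : 0 ≤ om) (hℓ : ℓb ≤ ℓ) (hc1 : cL ≤ c) (hc2 : c ≤ cU) (ho1 : oL ≤ om) (ho2 : om ≤ oU) :
    0 ≤ a * ((X - (1 - x)) * (ℓ + c) + 2 * (1 - 2 * L) * X * om + x * Y)
      + Av * (G * (ℓ + c) + (Ht - 4 * L * G) * om - x * W) := by
  have h1 := end_core h.c11 h.c12 h.c21 h.c22 h.hX h.hG h.hα hℓ hc1 hc2 ho1 ho2
  exact end_apply ha hAv ha0 hAv0 hL h.hX0 h.hG hom h1.1 h1.2.1 h1.2.2

/-- The heart of the reduction: one inequality of the form `θ d - h + v B + C ≥ 0`. -/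
theorem E_nonneg_real {e w d T da db ℓb a₀ A₀ cL cU oL oU Yh W L' Xa Xb Ga Gb Ha Hb X G Ht : ℝ}
    (he : 0 < e) (he1 : e < 1 / 2) (hw : 0 < w) (hs : 2 * (e * w) < 1)
    (hv0 : 0 ≤ 1 - tauV2 e (e * w)) (hv1 : 1 - tauV2 e (e * w) ≤ 1) (hd0 : 0 ≤ d)
    (hℓ : ℓb ≤ log (1 / e))
    (hc1 : cL * e ≤ (1 - e) * (-log (1 - e))) (hc2 : (1 - e) * (-log (1 - e)) ≤ cU * e)
    (ho1 : oL ≤ 1 - e) (ho2 : 1 - e ≤ oU)
    (ha : log (1 / (2 * (e * w))) ≤ log (1 / e) + a₀)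
    (hA : log (1 / e) + A₀ ≤ log (1 / (2 * (e * w))) -
      log ((e + (1 - 2 * e) * (e * w)) * (1 - (e + (1 - 2 * e) * (e * w)))
        / ((e * w) * (1 - e * w))))
    (hY : e * Yh ≤ -e * log (e + (1 - 2 * e) * (e * w))
      - (1 - e) * log (1 - (e + (1 - 2 * e) * (e * w))) + log (1 - e * w) - hE e)
    (hZ : e * W ≤ -log (1 - 2 * (e * w)) / 2)
    (hL : log 2 ≤ L')
    (hT0 : 0 ≤ T) (hT1 : T ≤ 1) (hd : d = (1 - T) * da + T * db)
    (hX : (1 - T) * Xa + T * Xb ≤ X) (hGG : (1 - T) * Ga + T * Gb ≤ G)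
    (hHt : (1 - T) * Ha + T * Hb ≤ Ht)
    (hEa : EndData ℓb a₀ A₀ L' cL cU oL oU (Yh + W) W da Xa Ga Ha)
    (hEb : EndData ℓb a₀ A₀ L' cL cU oL oU (Yh + W) W db Xb Gb Hb) :
    0 ≤ thetaV2 e (e * w) * d - hE e + (1 - tauV2 e (e * w)) * (sg e / 4 * Ht + ka e * G)
      + (sg e / 2 + ka e) * X := by
  have hs0 : 0 < e * w := by positivity
  have hs1 : e * w < 1 / 2 := by linarith
  set s := e * w with hsdef
  set p := e + (1 - 2 * e) * s with hp
  set a := log (1 / (2 * s)) with hadef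
  set lX := log (p * (1 - p) / (s * (1 - s))) with hlX
  have ha0 : 0 < a := by
    apply log_pos
    rw [lt_div_iff₀ (by positivity)]; linarith
  have hτ : tauV2 e s * a = lX := by
    unfold tauV2
    rw [← hp, ← hadef, div_mul_cancel₀ _ ha0.ne']
  set τ := tauV2 e s with hτdef
  have hlX0 : 0 ≤ lX := by
    rw [← hτ]; exact mul_nonneg (by linarith) ha0.le
  have hv : (1 - τ) * a = a - lX := by rw [← hτ]; ring
  have hAv0 : 0 ≤ a - lX := by rw [← hv]; exact mul_nonneg hv0 ha0.le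
  -- the closed form of `θ`
  have hθc := theta_closed he he1 hs0 hs1
  rw [← hp, ← hτdef] at hθc
  set Yr := -e * log p - (1 - e) * log (1 - p) + log (1 - s) - hE e with hYr
  set Zr := -log (1 - 2 * s) / 2 with hZr
  have hθ : a * thetaV2 e s = a * (hE e + Yr) + lX * Zr := by
    rw [hθc, hYr, hZr, ← hτ]; ring
  -- scaling by `e`
  set om := 1 - e with hom
  have hom0 : 0 < om := by rw [hom]; linarith
  set c := om * (-log om) / e with hcdef
  have hce : e * c = om * (-log om) := by rw [hcdef]; field_simp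
  have hhh : hE e = e * (log (1 / e) + c) := by
    rw [mul_add, hce, hE_eq he]
  set ℓ := log (1 / e) with hℓdef
  set hh := ℓ + c with hhhdef
  have hsgE : sg e = e * (4 * om) := by rw [hom]; unfold sg; ring
  have hkaE : ka e = e * (hh - 4 * om * log 2) := by
    unfold ka; rw [hhh, hsgE]; ring
  have hκ : 0 ≤ hh - 4 * om * log 2 := by
    have := ka_nonneg he.le he1.le
    rw [hkaE] at this
    exact nonneg_of_mul_nonneg_right this he
  have hc1' : cL ≤ c := by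
    rw [hcdef, le_div_iff₀ he]; exact hc1
  have hc2' : c ≤ cU := by
    rw [hcdef, div_le_iff₀ he]; exact hc2
  -- reduction
  have hred := red_bound (a := a) (lX := lX) (θ := thetaV2 e s) (v := 1 - τ) (h := hE e) (Yr := Yr)
    (Zr := Zr) (e := e) (Yh := Yh) (W := W) (d := d) (B := sg e / 4 * Ht + ka e * G)
    (C := (sg e / 2 + ka e) * X) (Bh := om * Ht + (hh - 4 * om * log 2) * G)
    (Ch := (2 * om + (hh - 4 * om * log 2)) * X) (hh := hh) hv hθ ha0.le hlX0 hd0 hY hZ hhh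
    (by rw [hsgE, hkaE]; ring) (by rw [hsgE, hkaE]; ring)
  have hchord := chord_step (a := a) (Av := a - lX) (L := log 2) (hh := hh) (om := om)
    (Y := Yh + W) (W := W) (d := d) (X := X) (G := G) (Ht := Ht) (T := T) (da := da) (db := db)
    (Xa := Xa) (Xb := Xb) (Ga := Ga) (Gb := Gb) (Ha := Ha) (Hb := Hb)
    ha0.le hAv0 hom0.le hκ hT0 hT1 hd hX hGG hHt
  have hA' : ℓ + A₀ ≤ a - lX := hA
  have hendA := hEa.apply (a := a) (Av := a - lX) (ℓ := ℓ) (L := log 2) (c := c) (om := om)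
    ha hA' ha0.le hAv0 hL hom0.le hℓ hc1' hc2' ho1 ho2
  have hendB := hEb.apply (a := a) (Av := a - lX) (ℓ := ℓ) (L := log 2) (c := c) (om := om)
    ha hA' ha0.le hAv0 hL hom0.le hℓ hc1' hc2' ho1 ho2
  have hfin : 0 ≤ a * (d * (hh + (Yh + W)) - hh + (2 * om + (hh - 4 * om * log 2)) * X)
      + (a - lX) * (om * Ht + (hh - 4 * om * log 2) * G - d * W) := by
    have h1 := mul_nonneg (sub_nonneg.2 hT1) hendA
    have h2 := mul_nonneg hT0 hendB
    linarith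
  have hfin2 : 0 ≤ e * (a * (d * (hh + Yh + W) - hh + (2 * om + (hh - 4 * om * log 2)) * X)
      + (a - lX) * (om * Ht + (hh - 4 * om * log 2) * G - d * W)) := by
    apply mul_nonneg he.le
    have : d * (hh + Yh + W) = d * (hh + (Yh + W)) := by ring
    rw [this]; exact hfin
  have := le_trans hfin2 hred
  exact nonneg_of_mul_nonneg_right this ha0

end Vale.Agent.Lib.P322y
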