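import Vale.Agent.Lib.P322y.LadSound

/-! The ten rational cells of the ladder `21/100 ≤ d ≤ 97/100`, all `e ≤ 9/400`. -/

namespace Vale.Agent.Lib.P322y

namespace Cell

def c0 : Cell := ⟨(0), (9/400), (93/100), (97/100), (1/25), (94855999/25000000), (50514573/20000000), (-7323679/10000000), (-3930647/100000000), (15171447/100000000), (31153/400000), (12681947/50000000), (1684277/12500000)⟩

lemma c0_ok : c0.ok := by decide +kernel

def c1 : Cell := ⟨(0), (9/400), (17/20), (93/100), (1/10), (94855999/25000000), (10058987/6250000), (-78845737/100000000), (-2395591/25000000), (13319223/50000000), (15171447/100000000), (10567727/25000000), (12681947/50000000)⟩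

lemma c1_ok : c1.ok := by decide +kernel

def c2 : Cell := ⟨(0), (9/400), (7/10), (17/20), (3/10), (94855999/25000000), (51082563/100000000), (-19110229/20000000), (-13322237/50000000), (10567727/25000000), (13319223/50000000), (6108643/10000000), (10567727/25000000)⟩

lemma c2_ok : c2.ok := by decide +kernel

def c3 : Cell := ⟨(0), (9/400), (37/100), (7/10), (1), (94855999/25000000), (-34657359/50000000), (-138629437/100000000), (-14537983/20000000), (62304299/100000000), (10567727/25000000), (4118473/6250000), (6108643/10000000)⟩

lemma c3_ok : c3.ok := by decide +kernel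

def c4 : Cell := ⟨(21/1000), (9/400), (21/100), (37/100), (5), (94855999/25000000), (-230258509/100000000), (-7603139/3125000), (-205603311/100000000), (33546609/50000000), (62304299/100000000), (51395667/100000000), (4118473/6250000)⟩

lemma c4_ok : c4.ok := by decide +kernel

def c5 : Cell := ⟨(19/1000), (21/1000), (21/100), (37/100), (5), (386323283/100000000), (-230258509/100000000), (-1904467/781250), (-25518243/12500000), (33546609/50000000), (62304299/100000000), (51395667/100000000), (4118473/6250000)⟩

lemma c5_ok : c5.ok := by decide +kernel

def c6 : Cell := ⟨(17/1000), (19/1000), (21/100), (37/100), (5), (396331629/100000000), (-230258509/100000000), (-244239419/100000000), (-201535467/100000000), (33546609/50000000), (62304299/100000000), (51395667/100000000), (4118473/6250000)⟩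

lemma c6_ok : c6.ok := by decide +kernel

def c7 : Cell := ⟨(3/200), (17/1000), (21/100), (37/100), (5), (407454193/100000000), (-230258509/100000000), (-48942777/20000000), (-199029069/100000000), (33546609/50000000), (62304299/100000000), (51395667/100000000), (4118473/6250000)⟩

lemma c7_ok : c7.ok := by decide +kernel

def c8 : Cell := ⟨(1/80), (3/200), (21/100), (37/100), (5), (419970507/100000000), (-230258509/100000000), (-9812913/4000000), (-98606437/50000000), (33546609/50000000), (62304299/100000000), (51395667/100000000), (4118473/6250000)⟩

lemma c8_ok : c8.ok := by decide +kernel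

def c9 : Cell := ⟨(0), (1/80), (21/100), (37/100), (5), (438202663/100000000), (-230258509/100000000), (-124245333/50000000), (-206237273/100000000), (33546609/50000000), (62304299/100000000), (51395667/100000000), (4118473/6250000)⟩

lemma c9_ok : c9.ok := by decide +kernel

end Cell

open Cell in
/-- The middle zone `21/100 ≤ d ≤ 97/100`, for all `e ≤ 9/400`, with no further restriction:
the pair is `V2` at `s = w e` with `w` constant on each cell. -/
theorem zoneMid (hV2 : V2Valid) {e d m : ℝ} (he0 : 0 < e) (he1 : e ≤ 9 / 400)
    (hd1 : 21 / 100 ≤ d) (hd2 : d ≤ 97 / 100) (hm0 : 0 ≤ m) (hmd : m + d ≤ 1) :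
    ∃ th v : ℝ, ValidPair e th v ∧ LL e m ≤ th * d + v / 2 * (LL e (m + d) + LL e (m - d)) := by
  rcases le_total (93 / 100) d with h0 | h0
  · exact c0.sound c0_ok hV2 he0 (by norm_num [c0]; linarith) (by norm_num [c0]; linarith)
      (by norm_num [c0]; linarith) (by norm_num [c0]; linarith) hm0 hmd
  rcases le_total (85 / 100) d with h1 | h1
  · exact c1.sound c1_ok hV2 he0 (by norm_num [c1]; linarith) (by norm_num [c1]; linarith)
      (by norm_num [c1]; linarith) (by norm_num [c1]; linarith) hm0 hmd
  rcases le_total (70 / 100) d with h2 | h2
  · exact c2.sound c2_ok hV2 he0 (by norm_num [c2]; linarith) (by norm_num [c2]; linarith)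
      (by norm_num [c2]; linarith) (by norm_num [c2]; linarith) hm0 hmd
  rcases le_total (37 / 100) d with h3 | h3
  · exact c3.sound c3_ok hV2 he0 (by norm_num [c3]; linarith) (by norm_num [c3]; linarith)
      (by norm_num [c3]; linarith) (by norm_num [c3]; linarith) hm0 hmd
  rcases le_total (21 / 1000) e with h4 | h4
  · exact c4.sound c4_ok hV2 he0 (by norm_num [c4]; linarith) (by norm_num [c4]; linarith)
      (by norm_num [c4]; linarith) (by norm_num [c4]; linarith) hm0 hmd
  rcases le_total (19 / 1000) e with h5 | h5
  · exact c5.sound c5_ok hV2 he0 (by norm_num [c5]; linarith) (by norm_num [c5]; linarith)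
      (by norm_num [c5]; linarith) (by norm_num [c5]; linarith) hm0 hmd
  rcases le_total (17 / 1000) e with h6 | h6
  · exact c6.sound c6_ok hV2 he0 (by norm_num [c6]; linarith) (by norm_num [c6]; linarith)
      (by norm_num [c6]; linarith) (by norm_num [c6]; linarith) hm0 hmd
  rcases le_total (15 / 1000) e with h7 | h7
  · exact c7.sound c7_ok hV2 he0 (by norm_num [c7]; linarith) (by norm_num [c7]; linarith)
      (by norm_num [c7]; linarith) (by norm_num [c7]; linarith) hm0 hmd
  rcases le_total (125 / 10000) e with h8 | h8
  · exact c8.sound c8_ok hV2 he0 (by norm_num [c8]; linarith) (by norm_num [c8]; linarith)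
      (by norm_num [c8]; linarith) (by norm_num [c8]; linarith) hm0 hmd
  · exact c9.sound c9_ok hV2 he0 (by norm_num [c9]; linarith) (by norm_num [c9]; linarith)
      (by norm_num [c9]; linarith) (by norm_num [c9]; linarith) hm0 hmd

end Vale.Agent.Lib.P322y
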