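import Vale.Agent.Lib.P322y.LadData

/-! The four rational cells of the low ladder: `1/10000 ≤ e ≤ 9/1000`, `1 ≤ d log(1/e)`, `d ≤ 21/100`. -/

namespace Vale.Agent.Lib.P322y

open Real
open Vale.Agent.Lib.P322 (logUB logLB logUB_sound logLB_sound)

namespace Cell

def l0 : Cell := ⟨(1/10000), (3/10000), (27/250), (11/50), (4), (101396601/12500000), (-103972077/50000000), (-230232533/100000000), (-32259233/20000000), (34365189/50000000), (8359351/12500000), (34231331/100000000), (13172699/25000000)⟩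

lemma l0_ok : l0.ok := by decide +kernel

def l1 : Cell := ⟨(3/10000), (1/1000), (123/1000), (11/50), (4), (690775527/100000000), (-103972077/50000000), (-115090369/50000000), (-40536959/25000000), (68556349/100000000), (8359351/12500000), (37285997/100000000), (13172699/25000000)⟩

lemma l1_ok : l1.ok := by decide +kernel

def l2 : Cell := ⟨(1/1000), (3/1000), (18/125), (11/50), (4), (290457149/50000000), (-103972077/50000000), (-115000391/50000000), (-164501357/100000000), (533393/781250), (8359351/12500000), (321999/781250), (13172699/25000000)⟩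

lemma l2_ok : l2.ok := by decide +kernel

def l3 : Cell := ⟨(3/1000), (9/1000), (43/250), (11/50), (4), (471053069/100000000), (-103972077/50000000), (-114749477/50000000), (-6873913/4000000), (8478517/12500000), (8359351/12500000), (45904333/100000000), (13172699/25000000)⟩

lemma l3_ok : l3.ok := by decide +kernel

end Cell

/-- From `1 ≤ d log (1/e)` and `Ea ≤ e` to a lower bound for `d`. -/
lemma d_lower {e d : ℝ} {Ea da : ℚ} (he0 : 0 < e) (hEa0 : 0 < Ea) (heA : (Ea : ℝ) ≤ e) (hd0 : 0 ≤ d)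
    (hdl : 1 ≤ d * log (1 / e)) (hc : da * logUB 20 (1 / Ea) ≤ 1) (hda : 0 ≤ da) : (da : ℝ) ≤ d := by
  by_contra hlt
  push Not at hlt
  have hEa' : (0 : ℝ) < Ea := by exact_mod_cast hEa0
  have s := logUB_sound 20 (1 / Ea) (by positivity)
  push_cast at s
  have h1 : log (1 / e) ≤ log (1 / (Ea : ℝ)) :=
    log_le_log (by positivity) (one_div_le_one_div_of_le hEa' heA)
  have hU : log (1 / e) ≤ ((logUB 20 (1 / Ea) : ℚ) : ℝ) := le_trans h1 s
  have hc' : (da : ℝ) * ((logUB 20 (1 / Ea) : ℚ) : ℝ) ≤ 1 := by exact_mod_cast hc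
  have hl0 : 0 ≤ log (1 / e) := by
    by_contra hneg
    push Not at hneg
    nlinarith
  have h2 : d * log (1 / e) ≤ d * ((logUB 20 (1 / Ea) : ℚ) : ℝ) :=
    mul_le_mul_of_nonneg_left hU hd0
  have hU0 : 0 ≤ ((logUB 20 (1 / Ea) : ℚ) : ℝ) := le_trans hl0 hU
  have h3 : d * ((logUB 20 (1 / Ea) : ℚ) : ℝ) ≤ (da : ℝ) * ((logUB 20 (1 / Ea) : ℚ) : ℝ) :=
    mul_le_mul_of_nonneg_right hlt.le hU0
  by_cases hzero : d * ((logUB 20 (1 / Ea) : ℚ) : ℝ) < (da : ℝ) * ((logUB 20 (1 / Ea) : ℚ) : ℝ)
  · linarith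
  · have heq : d * ((logUB 20 (1 / Ea) : ℚ) : ℝ) = (da : ℝ) * ((logUB 20 (1 / Ea) : ℚ) : ℝ) :=
      le_antisymm h3 (not_lt.mp hzero)
    have hU1 : 0 < ((logUB 20 (1 / Ea) : ℚ) : ℝ) := by
      by_contra hne
      push Not at hne
      have : ((logUB 20 (1 / Ea) : ℚ) : ℝ) = 0 := le_antisymm hne hU0
      rw [this] at h2
      linarith
    have := mul_lt_mul_of_pos_right hlt hU1
    linarith

open Cell in
/-- The low ladder. -/
theorem zoneLowLad (hV2 : V2Valid) {e d m : ℝ} (he0 : 0 < e) (he1 : 1 / 10000 ≤ e)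
    (hd0 : 0 ≤ d) (hd2 : d ≤ 21 / 100) (hdl : 1 ≤ d * log (1 / e)) (hm0 : 0 ≤ m) (hmd : m + d ≤ 1) :
    ∃ th v : ℝ, ValidPair e th v ∧ LL e m ≤ th * d + v / 2 * (LL e (m + d) + LL e (m - d)) := by
  -- first: `e ≤ 9/1000`
  have he2 : e ≤ 9 / 1000 := by
    by_contra hlt
    push Not at hlt
    have s := logUB_sound 20 (1000 / 9) (by norm_num)
    have c : logUB 20 (1000 / 9) ≤ 472 / 100 := by decide +kernel
    have c' : ((logUB 20 (1000 / 9) : ℚ) : ℝ) ≤ 472 / 100 := by
      have := (Rat.cast_le (K := ℝ)).mpr c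
      push_cast at this ⊢
      exact this
    push_cast at s
    have h1 : log (1 / e) ≤ log (1000 / 9) := by
      apply log_le_log (by positivity)
      rw [div_le_iff₀ he0]
      nlinarith
    have h2 : log (1 / e) ≤ 472 / 100 := by linarith
    have h3 : d * log (1 / e) ≤ 21 / 100 * (472 / 100) := by
      rcases le_total 0 (log (1 / e)) with h | h
      · exact mul_le_mul hd2 h2 h (by norm_num)
      · have : d * log (1 / e) ≤ 0 := mul_nonpos_of_nonneg_of_nonpos hd0 h
        nlinarith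
    have h4 : (21 : ℝ) / 100 * (472 / 100) < 1 := by norm_num
    linarith
  rcases le_total e (3 / 10000) with h0 | h0
  · have hda : ((l0.da : ℚ) : ℝ) ≤ d := d_lower (Ea := l0.Ea) he0 (by norm_num [l0])
      (by norm_num [l0]; linarith) hd0 hdl (by decide +kernel) (by norm_num [l0])
    exact l0.sound l0_ok hV2 he0 (by norm_num [l0]; linarith) (by norm_num [l0]; linarith)
      hda (by norm_num [l0]; linarith) hm0 hmd
  rcases le_total e (1 / 1000) with h1 | h1
  · have hda : ((l1.da : ℚ) : ℝ) ≤ d := d_lower (Ea := l1.Ea) he0 (by norm_num [l1])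
      (by norm_num [l1]; linarith) hd0 hdl (by decide +kernel) (by norm_num [l1])
    exact l1.sound l1_ok hV2 he0 (by norm_num [l1]; linarith) (by norm_num [l1]; linarith)
      hda (by norm_num [l1]; linarith) hm0 hmd
  rcases le_total e (3 / 1000) with h2 | h2
  · have hda : ((l2.da : ℚ) : ℝ) ≤ d := d_lower (Ea := l2.Ea) he0 (by norm_num [l2])
      (by norm_num [l2]; linarith) hd0 hdl (by decide +kernel) (by norm_num [l2])
    exact l2.sound l2_ok hV2 he0 (by norm_num [l2]; linarith) (by norm_num [l2]; linarith)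
      hda (by norm_num [l2]; linarith) hm0 hmd
  · have hda : ((l3.da : ℚ) : ℝ) ≤ d := d_lower (Ea := l3.Ea) he0 (by norm_num [l3])
      (by norm_num [l3]; linarith) hd0 hdl (by decide +kernel) (by norm_num [l3])
    exact l3.sound l3_ok hV2 he0 (by norm_num [l3]; linarith) (by norm_num [l3]; linarith)
      hda (by norm_num [l3]; linarith) hm0 hmd

end Vale.Agent.Lib.P322y
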