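import Vale.Agent.Lib.P322y.LadCheck

/-! Soundness of the rational cells of the ladder. -/

namespace Vale.Agent.Lib.P322y

open Real
open Vale.Agent.Lib.P322 (logUB logLB logUB_sound logLB_sound log2U log2U_sound)

/-- The statement of the two-point family `V2`. -/
def V2Valid : Prop :=
  ∀ e s : ℝ, 0 < e → e < 1 / 2 → 0 < s → s < 1 / 2 → ValidPair e (thetaV2 e s) (1 - tauV2 e s)

namespace Cell

lemma cast_gtq (x : ℚ) : ((gtq x : ℚ) : ℝ) = gt (x : ℝ) := by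
  unfold gtq gt; push_cast; ring

lemma cast_Gtq (x : ℚ) : ((Gtq x : ℚ) : ℝ) =
    2 * (x : ℝ) - (x : ℝ) ^ 2 / 3 - 4 * (x : ℝ) ^ 3 + 7 / 3 * (x : ℝ) ^ 4 := by
  unfold Gtq; push_cast; ring

lemma cast_Δ (C : Cell) : ((C.Δ : ℚ) : ℝ) = ((C.db : ℝ) - C.da) ^ 2 / 4 := by
  unfold Δ; push_cast; ring

theorem sound (C : Cell) (h : C.ok) (hV2 : V2Valid) {e d m : ℝ} (he0 : 0 < e)
    (heA : (C.Ea : ℝ) ≤ e) (heB : e ≤ C.Eb) (hdA : (C.da : ℝ) ≤ d) (hdB : d ≤ C.db)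
    (hm0 : 0 ≤ m) (hmd : m + d ≤ 1) :
    ∃ th v : ℝ, ValidPair e th v ∧ LL e m ≤ th * d + v / 2 * (LL e (m + d) + LL e (m - d)) := by
  obtain ⟨h1, h2, h3, h4, h5, h6, h7, h8, h9, h10, h11, h12, h13, h14, h15, h16, h17, h18,
    hE0a, hE0b, hE1a, hE1b⟩ := h
  have hEa0 : (0 : ℝ) ≤ C.Ea := by exact_mod_cast h1
  have hEb0 : (0 : ℝ) < C.Eb := by exact_mod_cast h3
  have hEb1 : (C.Eb : ℝ) ≤ 9 / 400 := by
    have c : ((C.Eb : ℚ) : ℝ) ≤ ((9 / 400 : ℚ) : ℝ) := Rat.cast_le.mpr h4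
    push_cast at c; exact c
  have hw : (0 : ℝ) < C.w := by exact_mod_cast h5
  have hsb : 2 * ((C.Eb : ℝ) * C.w) < 1 := by exact_mod_cast h6
  have hda0 : (0 : ℝ) < C.da := by exact_mod_cast h9
  have hdab : (C.da : ℝ) < C.db := by exact_mod_cast h8
  have hdb1 : (C.db : ℝ) < 1 := by exact_mod_cast h10
  have he1 : e < 1 / 2 := by linarith
  have hsle : e * C.w ≤ C.Eb * C.w := mul_le_mul_of_nonneg_right heB hw.le
  have hs : 2 * (e * (C.w : ℝ)) < 1 := by linarith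
  have hs0 : 0 < e * (C.w : ℝ) := by positivity
  have hd0 : 0 ≤ d := by linarith
  have hpair := hV2 e (e * C.w) he0 he1 hs0 (by linarith)
  obtain ⟨-, hv0, hv1, -⟩ := id hpair
  -- atoms
  have hℓ : (C.ℓb : ℝ) ≤ log (1 / e) := by
    have s := logLB_sound 20 (1 / C.Eb) (by positivity)
    have c : ((C.ℓb : ℚ) : ℝ) ≤ ((logLB 20 (1 / C.Eb) : ℚ) : ℝ) := by exact_mod_cast h11
    push_cast at s
    have : log (1 / (C.Eb : ℝ)) ≤ log (1 / e) :=
      log_le_log (by positivity) (one_div_le_one_div_of_le he0 heB)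
    linarith
  have hc1 : ((C.cL : ℚ) : ℝ) * e ≤ (1 - e) * (-log (1 - e)) := by
    have s := c_lower he0 (by linarith)
    refine le_trans ?_ s
    have : ((C.cL : ℚ) : ℝ) ≤ 1 - e / 2 - e ^ 2 / 2 := by
      unfold cL; push_cast
      have : e ^ 2 ≤ (C.Eb : ℝ) ^ 2 := pow_le_pow_left₀ he0.le heB 2
      linarith
    nlinarith
  have hc2 : (1 - e) * (-log (1 - e)) ≤ ((C.cU : ℚ) : ℝ) * e := by
    have s := c_upper he0 (by linarith)
    refine le_trans s ?_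
    have : 1 - e / 2 ≤ ((C.cU : ℚ) : ℝ) := by
      unfold cU; push_cast; linarith
    nlinarith
  have ho1 : ((C.oL : ℚ) : ℝ) ≤ 1 - e := by unfold oL; push_cast; linarith
  have ho2 : 1 - e ≤ ((C.oU : ℚ) : ℝ) := by unfold oU; push_cast; linarith
  have ha : log (1 / (2 * (e * C.w))) ≤ log (1 / e) + C.a₀ := by
    rw [a_eq he0 hw]
    have s := logLB_sound 20 (2 * C.w) (by positivity)
    have c : (-((logLB 20 (2 * C.w) : ℚ) : ℝ)) ≤ (C.a₀ : ℝ) := by exact_mod_cast h12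
    push_cast at s
    linarith
  have hA : log (1 / e) + C.A₀ ≤ log (1 / (2 * (e * C.w))) -
      log ((e + (1 - 2 * e) * (e * C.w)) * (1 - (e + (1 - 2 * e) * (e * C.w)))
        / ((e * C.w) * (1 - e * C.w))) := by
    have s0 := logUB_sound 20 (2 * (1 + (1 - 2 * C.Ea) * C.w))
      (by
        have : 0 ≤ (1 - 2 * C.Ea) * C.w := mul_nonneg (by linarith) h5.le
        have : 0 < 1 + (1 - 2 * C.Ea) * C.w := by linarith
        positivity)
    have c : (C.A₀ : ℝ) ≤ -((logUB 20 (2 * (1 + (1 - 2 * C.Ea) * C.w)) : ℚ) : ℝ)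
        + C.Ea * (1 - 2 * (C.Eb * C.w)) := by exact_mod_cast h13
    have s := Av_lower (e := e) (w := C.w) (Ea := C.Ea) (ρa := 1 - 2 * C.Ea) (sb := C.Eb * C.w)
      (LV := ((logUB 20 (2 * (1 + (1 - 2 * C.Ea) * C.w)) : ℚ) : ℝ)) he0 he1 hw hEa0 heA
      (by linarith) hsle hsb.le hs (by push_cast at s0; exact s0)
    linarith
  have hY : e * C.Yh ≤ -e * log (e + (1 - 2 * e) * (e * C.w))
      - (1 - e) * log (1 - (e + (1 - 2 * e) * (e * C.w))) + log (1 - e * C.w) - hE e := by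
    have s0 := logUB_sound 20 (1 + (1 - 2 * C.Eb) * C.w)
      (by
        have h40 : C.Eb ≤ 9 / 400 := h4
        have : 0 ≤ (1 - 2 * C.Eb) * C.w := mul_nonneg (by linarith) h5.le
        linarith)
    have c : (C.Yh : ℝ) ≤ (1 - 2 * (C.Eb : ℝ)) * C.w
        - ((logUB 20 (1 + (1 - 2 * C.Eb) * C.w) : ℚ) : ℝ)
        + C.Ea * ((1 - 2 * (C.Eb : ℝ)) * C.w) ^ 2 / 2
        - C.w * (1 + ((C.Eb : ℝ) * C.w) / (2 * (1 - (C.Eb : ℝ) * C.w))) := by exact_mod_cast h14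
    have s := Yr_lower (e := e) (w := C.w) (Ea := C.Ea) (ρb := 1 - 2 * C.Eb) (sb := C.Eb * C.w)
      (LU := ((logUB 20 (1 + (1 - 2 * C.Eb) * C.w) : ℚ) : ℝ)) he0 he1 hw hEa0 heA
      (by linarith) (by linarith) hsle (by linarith) (by push_cast at s0; exact s0)
    refine le_trans ?_ s
    exact mul_le_mul_of_nonneg_left c he0.le
  have hZ : e * ((C.W : ℚ) : ℝ) ≤ -log (1 - 2 * (e * C.w)) / 2 := by
    have := Zr_lower he0 hw heA hs
    unfold W; push_cast; exact this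
  have hL : log 2 ≤ ((log2U : ℚ) : ℝ) := log2U_sound
  -- chord parameter
  have hD : (0 : ℝ) < (C.db : ℝ) - C.da := by linarith
  obtain ⟨T, hTdef⟩ : ∃ T : ℝ, T = (d - C.da) / ((C.db : ℝ) - C.da) := ⟨_, rfl⟩
  have hT0 : 0 ≤ T := by rw [hTdef]; exact div_nonneg (by linarith) hD.le
  have hT1 : T ≤ 1 := by rw [hTdef, div_le_one hD]; linarith
  have hd : d = (1 - T) * C.da + T * C.db := by
    rw [hTdef]; field_simp; ring
  have hM0 : ∀ x : ℚ, 0 ≤ x → (0 : ℝ) ≤ x := fun x hx => by exact_mod_cast hx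
  have hH0 : (1 - T) * (C.H0a : ℝ) + T * C.H0b ≤ H d := by
    have sa := HLq_sound (x := C.da) (by linarith) (by linarith)
    have sb := HLq_sound (x := C.db) (by linarith) (by linarith)
    have ca : (C.H0a : ℝ) ≤ ((HLq C.da : ℚ) : ℝ) := by exact_mod_cast h15
    have cb : (C.H0b : ℝ) ≤ ((HLq C.db : ℚ) : ℝ) := by exact_mod_cast h16
    have hc := H_chord (x := C.da) (y := C.db) (T := T)
      (by rw [abs_le]; constructor <;> linarith) (by rw [abs_le]; constructor <;> linarith) hT0 hT1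
    rw [← hd] at hc
    have m1 := mul_le_mul_of_nonneg_left (le_trans ca sa) (sub_nonneg.2 hT1)
    have m2 := mul_le_mul_of_nonneg_left (le_trans cb sb) hT0
    linarith
  have hH1 : (1 - T) * (C.H1a : ℝ) + T * C.H1b ≤ H (2 * d - 1) := by
    have sa := HLq_sound (x := 2 * C.da - 1) (by linarith) (by linarith)
    have sb := HLq_sound (x := 2 * C.db - 1) (by linarith) (by linarith)
    have ca : (C.H1a : ℝ) ≤ ((HLq (2 * C.da - 1) : ℚ) : ℝ) := by exact_mod_cast h17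
    have cb : (C.H1b : ℝ) ≤ ((HLq (2 * C.db - 1) : ℚ) : ℝ) := by exact_mod_cast h18
    have hc := H_chord (x := 2 * C.da - 1) (y := 2 * C.db - 1) (T := T)
      (by rw [abs_le]; constructor <;> linarith) (by rw [abs_le]; constructor <;> linarith) hT0 hT1
    have e1 : (1 - T) * (2 * (C.da : ℝ) - 1) + T * (2 * (C.db : ℝ) - 1) = 2 * d - 1 := by
      rw [hd]; ring
    rw [e1] at hc
    push_cast at sa sb
    have m1 := mul_le_mul_of_nonneg_left (le_trans ca sa) (sub_nonneg.2 hT1)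
    have m2 := mul_le_mul_of_nonneg_left (le_trans cb sb) hT0
    linarith
  refine ⟨_, _, hpair, ?_⟩
  apply cert_of_ends (sg_nonneg he0.le (by linarith)) (ka_nonneg he0.le (by linarith)) hv0 hv1 hd0
    hm0 hmd
  · -- `E0`
    rw [E0_eq]
    have hMa : (0 : ℝ) ≤ ((C.M0 : ℚ) : ℝ) := by exact_mod_cast le_max_left _ _
    have hMb : ((C.da : ℝ) ^ 2 + 3 * (C.db : ℝ) ^ 2 + 2 * C.da * C.db - 4) / 3 ≤ ((C.M0 : ℚ) : ℝ) := by
      have : (C.da ^ 2 + 3 * C.db ^ 2 + 2 * C.da * C.db - 4) / 3 ≤ C.M0 := le_max_right _ _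
      exact_mod_cast this
    refine E_nonneg_real (w := C.w) (T := T) (da := C.da) (db := C.db) he0 he1 hw hs hv0 hv1 hd0
      hℓ hc1 hc2 ho1 ho2 ha hA hY hZ hL hT0 hT1 hd
      (Xa := ((0 : ℚ) : ℝ)) (Xb := ((0 : ℚ) : ℝ))
      (Ga := ((gtq C.da - C.M0 * C.Δ : ℚ) : ℝ)) (Gb := ((gtq C.db - C.M0 * C.Δ : ℚ) : ℝ))
      (Ha := ((4 * C.H0a : ℚ) : ℝ)) (Hb := ((4 * C.H0b : ℚ) : ℝ))
      ?_ ?_ ?_ (EndQ.cast hE0a) (EndQ.cast hE0b)
    · simp
    · push_cast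
      rw [cast_gtq, cast_gtq, cast_Δ]
      have := gt_chord hda0.le hdA hdB hT0 hT1 hd hMa hMb
      convert this using 3 <;> ring
    · push_cast; linarith
  · -- `E1`
    rw [E1_eq]
    have hMa : (0 : ℝ) ≤ ((C.M1 : ℚ) : ℝ) := by exact_mod_cast le_max_left _ _
    have hMb : -(1 / 3 + 4 * (2 * (C.da : ℝ) + C.db)
        - 7 / 3 * ((C.da : ℝ) ^ 2 + 3 * (C.db : ℝ) ^ 2 + 2 * C.da * C.db)) ≤ ((C.M1 : ℚ) : ℝ) := by
      have : -(1 / 3 + 4 * (2 * C.da + C.db)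
        - 7 / 3 * (C.da ^ 2 + 3 * C.db ^ 2 + 2 * C.da * C.db)) ≤ C.M1 := le_max_right _ _
      have c := (Rat.cast_le (K := ℝ)).mpr this
      push_cast at c; exact c
    refine E_nonneg_real (w := C.w) (T := T) (da := C.da) (db := C.db) he0 he1 hw hs hv0 hv1 hd0
      hℓ hc1 hc2 ho1 ho2 ha hA hY hZ hL hT0 hT1 hd
      (Xa := (((1 - C.da) ^ 2 - C.Δ : ℚ) : ℝ)) (Xb := (((1 - C.db) ^ 2 - C.Δ : ℚ) : ℝ))
      (Ga := ((Gtq C.da - C.M1 * C.Δ : ℚ) : ℝ)) (Gb := ((Gtq C.db - C.M1 * C.Δ : ℚ) : ℝ))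
      (Ha := ((2 * C.H1a : ℚ) : ℝ)) (Hb := ((2 * C.H1b : ℚ) : ℝ))
      ?_ ?_ ?_ (EndQ.cast hE1a) (EndQ.cast hE1b)
    · push_cast
      rw [cast_Δ]
      exact xi_chord hT0 hT1 hd
    · push_cast
      rw [cast_Gtq, cast_Gtq, cast_Δ]
      have := Gt_chord hda0.le hdA hdB hT0 hT1 hd hMa hMb
      convert this using 3 <;> ring
    · push_cast; linarith

end Cell

end Vale.Agent.Lib.P322y
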