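import Vale.Agent.Lib.P322y.Closure

/-! Elimination of the variable `m` in the inequality `(F)`, with general constants `sg`, `ka`:
for any pair `(th, v)`, the inequality at `(m, d)` follows from the one at `(0, d)` up to an explicit
term `Rp`, for all `m ∈ [0, 1 - d]`.  Also the monotonicity of the certificate in the constants. -/

namespace Vale.Agent.Lib.P322y

open Real Vale.Agent.Lib.P322

/-- The four point entropy difference `H c - (H (c + x) + H (c - x)) / 2`. -/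
noncomputable def JJ (c x : ℝ) : ℝ := H c - (H (c + x) + H (c - x)) / 2

lemma H_zero : H 0 = log 2 := by
  have := H_eq (u := 0) (by simp)
  rw [this, Psi_zero]; ring

lemma gt_zero : gt 0 = 1 := by norm_num [gt]

lemma LL_zero (e : ℝ) : LL e 0 = hE e := by
  unfold LL ka; rw [H_zero, gt_zero]; ring

/-- `Psi (ρ w) ≤ ρ² Psi w`. -/
lemma Psi_scale {ρ w : ℝ} (h0 : 0 ≤ ρ) (h1 : ρ ≤ 1) (hw : |w| ≤ 1) :
    Psi (ρ * w) ≤ ρ ^ 2 * Psi w := Psi_mul_le h0 h1 hw

lemma H_nonneg {u : ℝ} (h : |u| ≤ 1) : 0 ≤ H u := by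
  have h1 := abs_le.mp h
  unfold H
  exact add_nonneg (Real.negMulLog_nonneg (by linarith) (by linarith))
    (Real.negMulLog_nonneg (by linarith) (by linarith))

lemma gt_nonneg {u : ℝ} (h : |u| ≤ 1) : 0 ≤ gt u := by
  have h1 : u ^ 2 ≤ 1 := by
    have := abs_le.mp h
    nlinarith
  have e : gt u = (1 - u ^ 2) * (3 - u ^ 2) / 3 := by unfold gt; ring
  rw [e]
  have a1 : 0 ≤ 1 - u ^ 2 := by linarith
  have a2 : 0 ≤ 3 - u ^ 2 := by linarith
  positivity

lemma JJ_eq_Jt (c x : ℝ) : JJ c x = Jt c x := rfl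

/-- Scaling of `JJ` in the second variable. -/
lemma JJ_scale {c x ρ : ℝ} (hc0 : 0 ≤ c) (hc1 : c < 1) (hx0 : 0 ≤ x) (hx1 : c + x ≤ 1)
    (h0 : 0 ≤ ρ) (h1 : ρ ≤ 1) : JJ c (ρ * x) ≤ ρ ^ 2 * JJ c x := by
  have _ := hc1
  refine Jt_scale ?_ h0 h1
  rw [abs_of_nonneg hc0, abs_of_nonneg hx0]; exact hx1

lemma JJ_zero_right (c : ℝ) : JJ c 0 = 0 := by unfold JJ; simp

/-- `JJ 0 m = Psi m ≥ m² / 2`. -/
lemma JJ_zero_left {m : ℝ} (hm : |m| ≤ 1) : m ^ 2 / 2 ≤ JJ 0 m := by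
  unfold JJ
  have h1 : (0 : ℝ) + m = m := by ring
  have h2 : (0 : ℝ) - m = -m := by ring
  rw [h1, h2, H_neg, H_zero, H_eq hm]
  have := half_sq_le_Psi' hm
  linarith

/-- `JJ` is nonnegative: concavity of `H`. -/
lemma JJ_nonneg {m d : ℝ} (hm0 : 0 ≤ m) (hd0 : 0 ≤ d) (hmd : m + d ≤ 1) : 0 ≤ JJ m d := by
  rcases eq_or_lt_of_le (show m ≤ 1 by linarith) with h | h
  · have hd : d = 0 := by linarith
    rw [hd, JJ_zero_right]
  · rw [JJ_eq_Jt, Jt_formula (by rw [abs_of_nonneg hm0, abs_of_nonneg hd0]; exact hmd)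
      (by rw [abs_of_nonneg hm0]; exact h)]
    have hb1 : 0 < 1 + m := by linarith
    have hb2 : 0 < 1 - m := by linarith
    have w1 : |d / (1 + m)| ≤ 1 := by
      rw [abs_of_nonneg (by positivity), div_le_one hb1]; linarith
    have w2 : |d / (1 - m)| ≤ 1 := by
      rw [abs_of_nonneg (by positivity), div_le_one hb2]; linarith
    have p1 := Psi_nonneg w1
    have p2 := Psi_nonneg w2
    positivity

/-- The Bellman function with general constants. -/
noncomputable def LLc (sg ka m : ℝ) : ℝ := sg * H m + ka * gt m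

/-- The certificate function with general constants: `(F)` at `(m, d)` is `0 ≤ Sf`. -/
noncomputable def Sf (sg ka th v m d : ℝ) : ℝ :=
  th * d + v / 2 * (LLc sg ka (m + d) + LLc sg ka (m - d)) - LLc sg ka m

lemma LL_eq_LLc (e m : ℝ) : LL e m = LLc (sg e) (ka e) m := rfl

/-- The certificate with the true constants. -/
lemma Sf_eq (e th v m d : ℝ) :
    Sf (sg e) (ka e) th v m d = th * d + v / 2 * (LL e (m + d) + LL e (m - d)) - LL e m := rfl

/-- `(F)` in terms of `Sf`. -/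
lemma le_of_Sf_nonneg {e th v m d : ℝ} (h : 0 ≤ Sf (sg e) (ka e) th v m d) :
    LL e m ≤ th * d + v / 2 * (LL e (m + d) + LL e (m - d)) := by
  rw [Sf_eq] at h; linarith

private lemma gt_avg (m d : ℝ) :
    (gt (m + d) + gt (m - d)) / 2 = gt m - d ^ 2 / 3 * (4 - 6 * m ^ 2 - d ^ 2) := by
  unfold gt; ring

/-- `Sf` is linear in the constants. -/
lemma Sf_linear (sg ka th v m d : ℝ) :
    Sf sg ka th v m d = th * d
      + sg * (v * ((H (m + d) + H (m - d)) / 2) - H m)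
      + ka * (v * ((gt (m + d) + gt (m - d)) / 2) - gt m) := by
  unfold Sf LLc; ring

/-- The certificate is antitone in the constants. -/
theorem S_anti {sg sg' ka ka' th v m d : ℝ} (hsg : 0 ≤ sg) (hsg' : sg ≤ sg') (hka : 0 ≤ ka)
    (hka' : ka ≤ ka') (hv0 : 0 ≤ v) (hv1 : v ≤ 1) (hm0 : 0 ≤ m) (hd0 : 0 ≤ d) (hmd : m + d ≤ 1)
    (hz : 6 * m ^ 2 + d ^ 2 ≤ 4) : Sf sg' ka' th v m d ≤ Sf sg ka th v m d := by
  have _ := hsg
  have _ := hka
  have a1 : |m + d| ≤ 1 := by rw [abs_le]; constructor <;> linarith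
  have a2 : |m - d| ≤ 1 := by rw [abs_le]; constructor <;> linarith
  have a3 : (H (m + d) + H (m - d)) / 2 ≤ H m := by
    have := JJ_nonneg hm0 hd0 hmd
    unfold JJ at this; linarith
  have a4 : 0 ≤ (H (m + d) + H (m - d)) / 2 := by
    have := H_nonneg a1
    have := H_nonneg a2
    linarith
  have a5 : 0 ≤ (gt (m + d) + gt (m - d)) / 2 := by
    have := gt_nonneg a1
    have := gt_nonneg a2
    linarith
  have a6 : (gt (m + d) + gt (m - d)) / 2 ≤ gt m := by
    rw [gt_avg]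
    have : 0 ≤ d ^ 2 / 3 * (4 - 6 * m ^ 2 - d ^ 2) := by
      apply mul_nonneg (by positivity); linarith
    linarith
  have b1 : v * ((H (m + d) + H (m - d)) / 2) - H m ≤ 0 := by nlinarith
  have b2 : v * ((gt (m + d) + gt (m - d)) / 2) - gt m ≤ 0 := by nlinarith
  rw [Sf_linear, Sf_linear]
  have c1 := mul_le_mul_of_nonneg_left b1 (sub_nonneg.mpr hsg')
  have c2 := mul_le_mul_of_nonneg_left b2 (sub_nonneg.mpr hka')
  nlinarith

/-- The excess term in the elimination of `m`. -/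
noncomputable def Rp (sg ka v d : ℝ) : ℝ :=
  sg * v * (H d - H (2 * d - 1) / 2) - sg * (1 - d) ^ 2 / 2
    - ka * (1 - d) ^ 2 * (1 - v + 2 * v * d ^ 2)

lemma JJ_one_sub (d : ℝ) : JJ d (1 - d) = H d - H (2 * d - 1) / 2 := by
  unfold JJ
  have e1 : d + (1 - d) = 1 := by ring
  have e2 : d - (1 - d) = 2 * d - 1 := by ring
  rw [e1, e2, H_one]; ring

/-- Exact identity between the certificate at `(m, d)` and the one at `(0, d)`. -/
lemma Sf_identity (sg ka th v m d : ℝ) :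
    Sf sg ka th v m d = Sf sg ka th v 0 d
        - (sg * (v * JJ d m - JJ 0 m)
          - ka * m ^ 2 * ((1 - v) * (4 - m ^ 2) / 3 + 2 * v * d ^ 2)) := by
  have hn (x : ℝ) : LLc sg ka (-x) = LLc sg ka x := by
    unfold LLc; rw [H_neg, gt_neg]
  have h1 : LLc sg ka (m - d) = LLc sg ka (d - m) := by rw [← hn, neg_sub]
  have h2 : LLc sg ka (m + d) = LLc sg ka (d + m) := by rw [add_comm]
  have h3 : LLc sg ka (0 + d) = LLc sg ka d := by rw [zero_add]
  have h4 : LLc sg ka (0 - d) = LLc sg ka d := by rw [zero_sub, hn]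
  unfold Sf
  rw [h1, h2, h3, h4]
  unfold LLc JJ
  have h5 : (0 : ℝ) + m = m := by ring
  have h6 : (0 : ℝ) - m = -m := by ring
  rw [h5, h6, H_neg]
  unfold gt
  ring

/-- Elimination of `m`: lower bound of the certificate at `(m, d)` by the one at `(0, d)`. -/
theorem Sf_ge {sg ka th v m d : ℝ} (hsg : 0 ≤ sg) (hka : 0 ≤ ka) (hv0 : 0 ≤ v) (hv1 : v ≤ 1)
    (hm0 : 0 ≤ m) (hd0 : 0 ≤ d) (hmd : m + d ≤ 1) :
    Sf sg ka th v 0 d - max 0 (Rp sg ka v d) ≤ Sf sg ka th v m d := by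
  rw [Sf_identity sg ka th v m d]
  have hX : sg * (v * JJ d m - JJ 0 m) - ka * m ^ 2 * ((1 - v) * (4 - m ^ 2) / 3 + 2 * v * d ^ 2)
      ≤ max 0 (Rp sg ka v d) := by
    rcases eq_or_lt_of_le (show d ≤ 1 by linarith) with hd1 | hd1
    · -- `d = 1`, so `m = 0`
      have hm : m = 0 := by linarith
      subst hm
      rw [JJ_zero_right, JJ_zero_right]
      refine le_trans (le_of_eq ?_) (le_max_left _ _)
      ring
    · -- general case
      set ξ := 1 - d with hξ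
      have hξ0 : 0 < ξ := by rw [hξ]; linarith
      set q := m / ξ with hq
      have hq0 : 0 ≤ q := by rw [hq]; positivity
      have hq1 : q ≤ 1 := by rw [hq, div_le_one hξ0]; linarith
      have hmq : m = q * ξ := by rw [hq]; field_simp
      have hJ : JJ d m ≤ q ^ 2 * JJ d ξ := by
        rw [hmq]
        exact JJ_scale hd0 hd1 hξ0.le (by rw [hξ]; linarith) hq0 hq1
      have hm1 : |m| ≤ 1 := by rw [abs_of_nonneg hm0]; linarith
      have hJ0 : m ^ 2 / 2 ≤ JJ 0 m := JJ_zero_left hm1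
      have hm2 : m ^ 2 ≤ 1 := by
        have : m ≤ 1 := by linarith
        nlinarith
      have hk : (1 - v) * 1 + 2 * v * d ^ 2 ≤ (1 - v) * (4 - m ^ 2) / 3 + 2 * v * d ^ 2 := by
        have : 0 ≤ 1 - v := by linarith
        nlinarith
      have hR : Rp sg ka v d
          = sg * v * JJ d ξ - sg * ξ ^ 2 / 2 - ka * ξ ^ 2 * (1 - v + 2 * v * d ^ 2) := by
        rw [hξ, JJ_one_sub]; rfl
      set X := Rp sg ka v d with hXd
      have step : sg * (v * JJ d m - JJ 0 m)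
          - ka * m ^ 2 * ((1 - v) * (4 - m ^ 2) / 3 + 2 * v * d ^ 2) ≤ q ^ 2 * X := by
        have a1 : sg * (v * JJ d m) ≤ sg * (v * (q ^ 2 * JJ d ξ)) :=
          mul_le_mul_of_nonneg_left (mul_le_mul_of_nonneg_left hJ hv0) hsg
        have a2 : sg * (m ^ 2 / 2) ≤ sg * JJ 0 m := mul_le_mul_of_nonneg_left hJ0 hsg
        have a3 : ka * m ^ 2 * ((1 - v) * 1 + 2 * v * d ^ 2)
            ≤ ka * m ^ 2 * ((1 - v) * (4 - m ^ 2) / 3 + 2 * v * d ^ 2) :=
          mul_le_mul_of_nonneg_left hk (by positivity)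
        have e1 : m ^ 2 = q ^ 2 * ξ ^ 2 := by rw [hmq]; ring
        rw [hR]
        rw [e1] at a2 a3 ⊢
        nlinarith
      have hq2 : q ^ 2 ≤ 1 := by nlinarith
      have hmax : q ^ 2 * X ≤ max 0 X := by
        rcases le_total X 0 with h | h
        · exact le_trans (mul_nonpos_of_nonneg_of_nonpos (by positivity) h) (le_max_left _ _)
        · calc q ^ 2 * X ≤ 1 * X := mul_le_mul_of_nonneg_right hq2 h
            _ = X := one_mul _
            _ ≤ max 0 X := le_max_right _ _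
      exact le_trans step hmax
  linarith

/-- The two end checks imply the certificate for all `m`. -/
theorem Sf_nonneg_of_ends {sg ka th v m d : ℝ} (hsg : 0 ≤ sg) (hka : 0 ≤ ka) (hv0 : 0 ≤ v)
    (hv1 : v ≤ 1) (hd0 : 0 ≤ d) (hm0 : 0 ≤ m) (hmd : m + d ≤ 1)
    (hE0 : 0 ≤ Sf sg ka th v 0 d) (hE1 : 0 ≤ Sf sg ka th v 0 d - Rp sg ka v d) :
    0 ≤ Sf sg ka th v m d := by
  have h := Sf_ge (th := th) hsg hka hv0 hv1 hm0 hd0 hmd
  have h2 : Sf sg ka th v 0 d - max 0 (Rp sg ka v d) ≥ 0 := by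
    rcases max_cases 0 (Rp sg ka v d) with ⟨h3, _⟩ | ⟨h3, _⟩ <;> rw [h3] <;> linarith
  linarith

/-- The certificate at `m = 0` in closed form. -/
lemma Sf_zero (sg ka th v d : ℝ) :
    Sf sg ka th v 0 d = th * d + v * LLc sg ka d - (sg * log 2 + ka) := by
  have hn : LLc sg ka (-d) = LLc sg ka d := by
    unfold LLc; rw [H_neg, gt_neg]
  have h0 : LLc sg ka 0 = sg * log 2 + ka := by
    unfold LLc; rw [H_zero, gt_zero]; ring
  unfold Sf
  rw [zero_add, zero_sub, hn, h0]; ring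

/-- The excess term for the true constants, and the version of the elimination with `hE`. -/
theorem cert_of_ends {e th v m d : ℝ} (hsg : 0 ≤ sg e) (hka : 0 ≤ ka e) (hv0 : 0 ≤ v) (hv1 : v ≤ 1)
    (hd0 : 0 ≤ d) (hm0 : 0 ≤ m) (hmd : m + d ≤ 1)
    (hE0 : 0 ≤ Sf (sg e) (ka e) th v 0 d) (hE1 : 0 ≤ Sf (sg e) (ka e) th v 0 d - Rp (sg e) (ka e) v d) :
    LL e m ≤ th * d + v / 2 * (LL e (m + d) + LL e (m - d)) :=
  le_of_Sf_nonneg (Sf_nonneg_of_ends hsg hka hv0 hv1 hd0 hm0 hmd hE0 hE1)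

end Vale.Agent.Lib.P322y
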