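import Vale.Agent.Lib.P322y.ZoneT
import Vale.Agent.Lib.P322y.MElim

/-! The inequality `(F)` at very low noise, `e ≤ 1/10000` and `1 ≤ d * log (1/e)`, with the explicit
parameter `s = 2 e (1-d) / d`: everything reduces to elementary bounds. -/

set_option linter.unusedVariables false
set_option linter.unusedSectionVars false

namespace Vale.Agent.Lib.P322y

open Real Vale.Agent.Lib.P322

namespace Tail

/-- Upper bound of a logarithm from a comparison of powers. -/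
lemma log_le_of_pow {x : ℝ} (hx : 0 < x) {p q : ℕ} (hq : 0 < q)
    (h : x ^ q ≤ (2.7182818283 : ℝ) ^ p) : log x ≤ (p : ℝ) / q := by
  have h1 : log (x ^ q) ≤ log ((2.7182818283 : ℝ) ^ p) := log_le_log (by positivity) h
  rw [log_pow, log_pow] at h1
  have h2 : log (2.7182818283 : ℝ) ≤ 1 := by
    rw [log_le_iff_le_exp (by norm_num)]
    exact Real.exp_one_gt_d9.le
  have hq' : (0 : ℝ) < q := by exact_mod_cast hq
  rw [le_div_iff₀ hq']
  have h3 : (p : ℝ) * log (2.7182818283 : ℝ) ≤ p * 1 :=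
    mul_le_mul_of_nonneg_left h2 (by positivity)
  linarith

/-- Lower bound of a logarithm from a comparison of powers. -/
lemma le_log_of_pow {x : ℝ} (hx : 0 < x) {p q : ℕ} (hq : 0 < q)
    (h : (2.7182818286 : ℝ) ^ p ≤ x ^ q) : (p : ℝ) / q ≤ log x := by
  have h1 : log ((2.7182818286 : ℝ) ^ p) ≤ log (x ^ q) := log_le_log (by positivity) h
  rw [log_pow, log_pow] at h1
  have h2 : 1 ≤ log (2.7182818286 : ℝ) := by
    rw [le_log_iff_exp_le (by norm_num)]
    exact Real.exp_one_lt_d9.le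
  have hq' : (0 : ℝ) < q := by exact_mod_cast hq
  rw [div_le_iff₀ hq']
  have h3 : (p : ℝ) * 1 ≤ p * log (2.7182818286 : ℝ) :=
    mul_le_mul_of_nonneg_left h2 (by positivity)
  linarith

lemma log_two_lo : (0.6931471 : ℝ) < log 2 := by
  have := Real.log_two_gt_d9; norm_num at this ⊢; linarith

lemma log_two_hi : log 2 < (0.6931472 : ℝ) := by
  have := Real.log_two_lt_d9; norm_num at this ⊢; linarith

/-- The entropy in terms of `log (1/e)`. -/
lemma hE_eq {e : ℝ} (h0 : 0 < e) (h1 : e < 1) :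
    hE e = e * log (1 / e) + (1 - e) * (-log (1 - e)) := by
  unfold hE H negMulLog
  have e1 : (1 + (1 - 2 * e)) / 2 = 1 - e := by ring
  have e2 : (1 - (1 - 2 * e)) / 2 = e := by ring
  rw [e1, e2, one_div, log_inv]
  ring

lemma hE_lo {e : ℝ} (h0 : 0 < e) (h1 : e < 1) : e * (log (1 / e) + 1 - e) ≤ hE e := by
  rw [hE_eq h0 h1]
  have h2 : log (1 - e) ≤ (1 - e) - 1 := Real.log_le_sub_one_of_pos (by linarith)
  have h3 : (1 - e) * e ≤ (1 - e) * (-log (1 - e)) :=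
    mul_le_mul_of_nonneg_left (by linarith) (by linarith)
  nlinarith

lemma hE_hi {e : ℝ} (h0 : 0 < e) (h1 : e < 1) : hE e ≤ e * (log (1 / e) + 1) := by
  rw [hE_eq h0 h1]
  have h2 : 1 - (1 - e)⁻¹ ≤ log (1 - e) := Real.one_sub_inv_le_log_of_pos (by linarith)
  have h4 : (1 - e) * (1 - e)⁻¹ = 1 := mul_inv_cancel₀ (by linarith)
  have h3 : (1 - e) * (-log (1 - e)) ≤ (1 - e) * ((1 - e)⁻¹ - 1) :=
    mul_le_mul_of_nonneg_left (by linarith) (by linarith)
  nlinarith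

/-- `log (1/e)` is large. -/
lemma L_ge {e : ℝ} (h0 : 0 < e) (h1 : e ≤ 1 / 10000) : (46 / 5 : ℝ) ≤ log (1 / e) := by
  have h2 : (10000 : ℝ) ≤ 1 / e := by
    rw [le_div_iff₀ h0]; linarith
  have h3 : log (10000 : ℝ) ≤ log (1 / e) := log_le_log (by norm_num) h2
  have h4 : ((46 : ℕ) : ℝ) / (5 : ℕ) ≤ log (10000 : ℝ) :=
    le_log_of_pow (by norm_num) (by norm_num) (by norm_num)
  have h5 : (46 / 5 : ℝ) = ((46 : ℕ) : ℝ) / (5 : ℕ) := by norm_num
  linarith

/-- `e (log (1/e))² ≤ 1/100`. -/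
lemma e_L_sq {e : ℝ} (h0 : 0 < e) (h1 : e ≤ 1 / 10000) : e * log (1 / e) ^ 2 ≤ 1 / 100 := by
  set r : ℝ := Real.sqrt (1 / e) with hr
  have hx : (10000 : ℝ) ≤ 1 / e := by
    rw [le_div_iff₀ h0]; linarith
  have hr2 : r ^ 2 = 1 / e := Real.sq_sqrt (by positivity)
  have hr100 : 100 ≤ r := by
    apply Real.le_sqrt_of_sq_le
    have : (100 : ℝ) ^ 2 = 10000 := by norm_num
    linarith
  have hlog : log (1 / e) = 2 * log r := by
    rw [← hr2, log_pow]; norm_num
  have h2 : log (r / 100) ≤ r / 100 - 1 := Real.log_le_sub_one_of_pos (by positivity)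
  rw [log_div (by positivity) (by norm_num)] at h2
  have h3 : log (100 : ℝ) ≤ ((231 : ℕ) : ℝ) / (50 : ℕ) :=
    log_le_of_pow (by norm_num) (by norm_num) (by norm_num)
  norm_num at h3
  have h4 : log (1 / e) ≤ r / 10 := by
    rw [hlog]; nlinarith
  have h5 : 0 ≤ log (1 / e) := by
    have := L_ge h0 h1; linarith
  have h6 : log (1 / e) ^ 2 ≤ (r / 10) ^ 2 := pow_le_pow_left₀ h5 h4 2
  have h7 : e * r ^ 2 = 1 := by
    rw [hr2]; field_simp
  have h8 : e * log (1 / e) ^ 2 ≤ e * (r / 10) ^ 2 := mul_le_mul_of_nonneg_left h6 h0.le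
  nlinarith

lemma Psi_le_sq {w : ℝ} (h : |w| ≤ 1) : Psi w ≤ log 2 * w ^ 2 := by
  have h1 := Psi_mul_le (ρ := |w|) (w := 1) (abs_nonneg w) h (by norm_num)
  rw [mul_one, Psi_one] at h1
  have h2 : Psi |w| = Psi w := by
    rcases abs_cases w with ⟨e, _⟩ | ⟨e, _⟩
    · rw [e]
    · rw [e, Psi_neg]
  rw [h2, sq_abs] at h1
  linarith

/-- A bound of `J`. -/
lemma Jt_le {m d : ℝ} (hd : |m| + |d| ≤ 1) (hm : |m| < 1) :
    Jt m d ≤ log 2 * d ^ 2 / (1 - m ^ 2) := by
  rw [Jt_formula hd hm]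
  have hm1 := abs_lt.mp hm
  have hm2 := abs_le.mp (le_refl |m|)
  have hd1 := abs_le.mp (le_refl |d|)
  have hp : 0 < 1 + m := by linarith
  have hn : 0 < 1 - m := by linarith
  have w1 : |d / (1 + m)| ≤ 1 := by
    rw [abs_div, abs_of_pos hp, div_le_one hp]
    have : -m ≤ |m| := by linarith
    linarith [neg_abs_le m]
  have w2 : |d / (1 - m)| ≤ 1 := by
    rw [abs_div, abs_of_pos hn, div_le_one hn]
    linarith [le_abs_self m]
  have b1 := mul_le_mul_of_nonneg_left (Psi_le_sq w1) hp.le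
  have b2 := mul_le_mul_of_nonneg_left (Psi_le_sq w2) hn.le
  have e1 : (1 + m) * (log 2 * (d / (1 + m)) ^ 2) = log 2 * d ^ 2 / (1 + m) := by
    field_simp
  have e2 : (1 - m) * (log 2 * (d / (1 - m)) ^ 2) = log 2 * d ^ 2 / (1 - m) := by
    field_simp
  rw [e1] at b1
  rw [e2] at b2
  have e3 : log 2 * d ^ 2 / (1 - m ^ 2)
      = (log 2 * d ^ 2 / (1 + m) + log 2 * d ^ 2 / (1 - m)) / 2 := by
    have : 1 - m ^ 2 = (1 + m) * (1 - m) := by ring
    rw [this]
    field_simp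
    ring
  rw [e3]
  linarith

/-! The parameter of the certificate. -/

/-- `y = 2 (1-d) / d`. -/
noncomputable def yT (d : ℝ) : ℝ := 2 * (1 - d) / d

/-- `s = e y`. -/
noncomputable def sT (e d : ℝ) : ℝ := e * yT d

/-- `log (1 / (2 s))`. -/
noncomputable def ellT (e d : ℝ) : ℝ := log (1 / (2 * sT e d))

/-- Upper bound of the exponent. -/
noncomputable def tau0 (e d : ℝ) : ℝ := log (1 + 1 / yT d) / ellT e d

/-- Lower bound of the slope. -/
noncomputable def Th0 (e d : ℝ) : ℝ :=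
  hE e - e * log (1 + yT d) - 2 * sT e d * (sT e d + e)

lemma ellT_eq {e d : ℝ} (he : 0 < e) (hd0 : 0 < d) (hd1 : d < 1) :
    ellT e d = log (1 / e) + log (d / (4 * (1 - d))) := by
  unfold ellT sT yT
  have hx : 0 < 1 - d := by linarith
  have e1 : 1 / (2 * (e * (2 * (1 - d) / d))) = 1 / e * (d / (4 * (1 - d))) := by
    field_simp
    ring
  rw [e1, log_mul (by positivity) (by positivity)]

lemma gt_avg_le {m d : ℝ} (hz : m ^ 2 < 2 / 3) (hd2 : d ^ 2 ≤ 49 / 100) :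
    (gt (m + d) + gt (m - d)) / 2 ≤ gt d := by
  have e : (gt (m + d) + gt (m - d)) / 2 - gt d = m ^ 2 * (-(4 / 3) + m ^ 2 / 3 + 2 * d ^ 2) := by
    unfold gt; ring
  have : m ^ 2 * (-(4 / 3) + m ^ 2 / 3 + 2 * d ^ 2) ≤ 0 :=
    mul_nonpos_of_nonneg_of_nonpos (sq_nonneg m) (by linarith)
  linarith

lemma div_bound {a k z : ℝ} (ha : 0 ≤ a) (h3 : 3 * a ≤ 2 * k) (hz0 : 0 ≤ z) (hz : z < 2 / 3) :
    a / (1 - z) ≤ a + 2 * k * z := by
  have hz1 : 0 < 1 - z := by linarith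
  rw [div_le_iff₀ hz1]
  have h0 : 0 ≤ k := by linarith
  have h1 : a ≤ 2 * k * (1 - z) := by
    have : 2 / 3 * k ≤ 2 * k * (1 - z) := by
      have : 0 ≤ k * (1 / 3 - z + 1 / 3) := mul_nonneg h0 (by linarith)
      linarith
    linarith
  have h2 := mul_le_mul_of_nonneg_left h1 hz0
  have e : (a + 2 * k * z) * (1 - z) = a - z * a + z * (2 * k * (1 - z)) := by ring
  rw [e]
  linarith

/-- The loss is at most the value of the quadratic bound at `m = 0`. -/
lemma loss_bound {e d m : ℝ} (he0 : 0 < e) (he1 : e ≤ 1 / 2) (hm0 : 0 ≤ m) (hd0 : 0 < d)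
    (hmd : m + d ≤ 1) (hO : 6 * m ^ 2 + d ^ 2 < 4) (ha : 3 * (sg e * log 2) ≤ 2 * ka e) :
    LL e m - (LL e (m + d) + LL e (m - d)) / 2
      ≤ d ^ 2 * (sg e * log 2 + ka e * (4 / 3 - d ^ 2 / 3)) := by
  have hl2 : 0 < log 2 := Real.log_pos (by norm_num)
  have hsg : 0 ≤ sg e := sg_nonneg he0.le (by linarith)
  have hka : 0 ≤ ka e := ka_nonneg he0.le he1
  have hmid := LL_mid e (m + d) (m - d)
  have e1 : (m + d + (m - d)) / 2 = m := by ring
  have e2 : (m + d - (m - d)) / 2 = d := by ring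
  rw [e1, e2] at hmid
  rw [hmid]
  have hz : m ^ 2 < 2 / 3 := by nlinarith [sq_nonneg d]
  have hz0 : 0 ≤ m ^ 2 := sq_nonneg m
  have hm1 : m < 1 := by nlinarith
  have hJ := Jt_le (m := m) (d := d) (by rw [abs_of_nonneg hm0, abs_of_pos hd0]; exact hmd)
    (by rw [abs_of_nonneg hm0]; exact hm1)
  have hd2 : 0 ≤ d ^ 2 := sq_nonneg d
  have hann : 0 ≤ sg e * log 2 := mul_nonneg hsg hl2.le
  have hdiv := div_bound hann ha hz0 hz
  have hsgJ : sg e * Jt m d ≤ sg e * log 2 / (1 - m ^ 2) * d ^ 2 := by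
    have := mul_le_mul_of_nonneg_left hJ hsg
    have e3 : sg e * (log 2 * d ^ 2 / (1 - m ^ 2)) = sg e * log 2 / (1 - m ^ 2) * d ^ 2 := by
      ring
    linarith
  have h2 := mul_le_mul_of_nonneg_right hdiv hd2
  have e4 : ka e * (d ^ 2 * (4 / 3 - 2 * m ^ 2 - d ^ 2 / 3))
      + (sg e * log 2 + 2 * ka e * m ^ 2) * d ^ 2
      = d ^ 2 * (sg e * log 2 + ka e * (4 / 3 - d ^ 2 / 3)) := by ring
  linarith

/-- The mean of the two children is small. -/
lemma Abar_bound {e d m : ℝ} (he0 : 0 < e) (he1 : e ≤ 1 / 2) (hm0 : 0 ≤ m) (hd0 : 0 < d)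
    (hd1 : d ≤ 7 / 10) (hmd : m + d ≤ 1) (hO : 6 * m ^ 2 + d ^ 2 < 4) :
    (LL e (m + d) + LL e (m - d)) / 2 ≤ sg e * log 2 + ka e * gt d := by
  have hsg : 0 ≤ sg e := sg_nonneg he0.le (by linarith)
  have hka : 0 ≤ ka e := ka_nonneg he0.le he1
  have hAm : |m + d| ≤ 1 := by rw [abs_le]; constructor <;> linarith
  have hBm : |m - d| ≤ 1 := by rw [abs_le]; constructor <;> linarith
  have hH1 : H (m + d) ≤ log 2 := by
    rw [H_eq hAm]; linarith [Psi_nonneg hAm]
  have hH2 : H (m - d) ≤ log 2 := by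
    rw [H_eq hBm]; linarith [Psi_nonneg hBm]
  have hz : m ^ 2 < 2 / 3 := by nlinarith [sq_nonneg d]
  have hd49 : d ^ 2 ≤ 49 / 100 := by nlinarith
  have hgt := gt_avg_le hz hd49
  unfold LL
  have h1 := mul_le_mul_of_nonneg_left hH1 hsg
  have h2 := mul_le_mul_of_nonneg_left hH2 hsg
  have h3 := mul_le_mul_of_nonneg_left hgt hka
  have e : (sg e * H (m + d) + ka e * gt (m + d) + (sg e * H (m - d) + ka e * gt (m - d))) / 2
      = (sg e * H (m + d) + sg e * H (m - d)) / 2 + ka e * ((gt (m + d) + gt (m - d)) / 2) := by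
    ring
  rw [e]
  linarith

lemma Abar_nonneg {e d m : ℝ} (he0 : 0 < e) (he1 : e ≤ 1 / 2) (hm0 : 0 ≤ m) (hd0 : 0 < d)
    (hmd : m + d ≤ 1) : 0 ≤ (LL e (m + d) + LL e (m - d)) / 2 := by
  have hsg : 0 ≤ sg e := sg_nonneg he0.le (by linarith)
  have hka : 0 ≤ ka e := ka_nonneg he0.le he1
  have hAm : |m + d| ≤ 1 := by rw [abs_le]; constructor <;> linarith
  have hBm : |m - d| ≤ 1 := by rw [abs_le]; constructor <;> linarith
  unfold LL
  have h1 : 0 ≤ H (m + d) := H_nonneg hAm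
  have h2 : 0 ≤ H (m - d) := H_nonneg hBm
  have h3 : 0 ≤ gt (m + d) := gt_nonneg hAm
  have h4 : 0 ≤ gt (m - d) := gt_nonneg hBm
  positivity

lemma yT_pos {d : ℝ} (hd0 : 0 < d) (hd1 : d < 1) : 0 < yT d := by
  have : 0 < 1 - d := by linarith
  unfold yT; positivity

lemma tau0_nonneg {e d : ℝ} (hd0 : 0 < d) (hd1 : d < 1) (hell : 0 < ellT e d) : 0 ≤ tau0 e d := by
  have hy := yT_pos hd0 hd1
  have hlogy0 : 0 ≤ log (1 + 1 / yT d) := by
    apply Real.log_nonneg
    have : 0 < 1 / yT d := by positivity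
    linarith
  unfold tau0; positivity

lemma tau0_le {e d : ℝ} (hd0 : 0 < d) (hd1 : d < 1) (hell : 0 < ellT e d) :
    tau0 e d ≤ d / (2 * (1 - d) * ellT e d) := by
  have hxi : 0 < 1 - d := by linarith
  have hy := yT_pos hd0 hd1
  have hlogy : log (1 + 1 / yT d) ≤ 1 / yT d := by
    have := Real.log_le_sub_one_of_pos (show 0 < 1 + 1 / yT d by positivity)
    linarith
  have hinv : 1 / yT d = d / (2 * (1 - d)) := by
    unfold yT; field_simp
  unfold tau0
  have e3 : d / (2 * (1 - d) * ellT e d) = d / (2 * (1 - d)) / ellT e d := by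
    field_simp
  rw [e3]
  exact div_le_div_of_nonneg_right (by rw [← hinv]; exact hlogy) hell.le

lemma gt_nonneg' {d : ℝ} (hd0 : 0 < d) (hd1 : d < 1) : 0 ≤ gt d :=
  gt_nonneg (by rw [abs_le]; constructor <;> linarith)

/-- Algebra of the reduction for `d ≤ 7/10`. -/
lemma alg_reduceI {a k d ell L A tau lg : ℝ} (hd0 : 0 < d) (hd1 : d < 1) (hell : 0 < ell)
    (hann : 0 ≤ a) (hk : 0 ≤ k)
    (hloss : L - A ≤ d ^ 2 * (a + k * (4 / 3 - d ^ 2 / 3)))
    (hA : A ≤ a + k * ((1 - d) * ((1 + d) * (3 - d ^ 2) / 3)))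
    (htau0 : 0 ≤ tau) (htau : tau ≤ d / (2 * (1 - d) * ell))
    (hN : lg ≤ k * ((1 - 4 / 3 * d + d ^ 3 / 3) - (1 + d) * (3 - d ^ 2) / 6 / ell)
        + a * ((1 - d) - 1 / (2 * (1 - d) * ell))) :
    L ≤ (a + k - lg) * d + (1 - tau) * A := by
  have hxi : 0 < 1 - d := by linarith
  have h3 : 0 ≤ (1 + d) * (3 - d ^ 2) / 3 := by
    have : 0 ≤ 3 - d ^ 2 := by nlinarith
    positivity
  have hX0 : 0 ≤ a + k * ((1 - d) * ((1 + d) * (3 - d ^ 2) / 3)) := by positivity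
  have h1 : tau * A ≤ tau * (a + k * ((1 - d) * ((1 + d) * (3 - d ^ 2) / 3))) :=
    mul_le_mul_of_nonneg_left hA htau0
  have h2 := mul_le_mul_of_nonneg_right htau hX0
  have e3 : d / (2 * (1 - d) * ell) * (a + k * ((1 - d) * ((1 + d) * (3 - d ^ 2) / 3)))
      = d * (a * (1 / (2 * (1 - d) * ell)) + k * ((1 + d) * (3 - d ^ 2) / 6 / ell)) := by
    field_simp
    ring
  rw [e3] at h2
  have hN' := mul_le_mul_of_nonneg_left hN hd0.le
  have e5 : d * (k * ((1 - 4 / 3 * d + d ^ 3 / 3) - (1 + d) * (3 - d ^ 2) / 6 / ell)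
        + a * ((1 - d) - 1 / (2 * (1 - d) * ell)))
      = d * (a + k) - d ^ 2 * (a + k * (4 / 3 - d ^ 2 / 3))
        - d * (a * (1 / (2 * (1 - d) * ell)) + k * ((1 + d) * (3 - d ^ 2) / 6 / ell)) := by
    ring
  rw [e5] at hN'
  have e6 : (a + k - lg) * d + (1 - tau) * A = d * (a + k) - d * lg + A - tau * A := by ring
  rw [e6]
  linarith

/-- First reduction: only `m = 0`-type quantities remain, for `d ≤ 7/10`. -/
lemma reduceI {e d m : ℝ} (he0 : 0 < e) (he1 : e ≤ 1 / 2) (hm0 : 0 ≤ m) (hd0 : 0 < d)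
    (hd1 : d ≤ 7 / 10) (hmd : m + d ≤ 1) (hO : 6 * m ^ 2 + d ^ 2 < 4)
    (ha : 3 * (sg e * log 2) ≤ 2 * ka e) (hell : 0 < ellT e d)
    (hN : e * log (1 + yT d) + 2 * sT e d * (sT e d + e)
      ≤ ka e * ((1 - 4 / 3 * d + d ^ 3 / 3) - (1 + d) * (3 - d ^ 2) / 6 / ellT e d)
        + sg e * log 2 * ((1 - d) - 1 / (2 * (1 - d) * ellT e d))) :
    LL e m ≤ Th0 e d * d + (1 - tau0 e d) * ((LL e (m + d) + LL e (m - d)) / 2) := by
  have hd1' : d < 1 := by linarith
  have hl2 : 0 < log 2 := Real.log_pos (by norm_num)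
  have hsg : 0 ≤ sg e := sg_nonneg he0.le (by linarith)
  have hka : 0 ≤ ka e := ka_nonneg he0.le he1
  have hann : 0 ≤ sg e * log 2 := mul_nonneg hsg hl2.le
  have hloss := loss_bound he0 he1 hm0 hd0 hmd hO ha
  have hA := Abar_bound he0 he1 hm0 hd0 hd1 hmd hO
  have hgt : gt d = (1 - d) * ((1 + d) * (3 - d ^ 2) / 3) := by unfold gt; ring
  rw [hgt] at hA
  have := alg_reduceI hd0 hd1' hell hann hka hloss hA (tau0_nonneg hd0 hd1' hell)
    (tau0_le hd0 hd1' hell) hN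
  have hTh : Th0 e d = sg e * log 2 + ka e
      - (e * log (1 + yT d) + 2 * sT e d * (sT e d + e)) := by
    unfold Th0 ka; ring
  rw [hTh]
  exact this

/-! Normalized bounds. -/

lemma a_lo {e : ℝ} (h0 : 0 < e) (h1 : e ≤ 1 / 10000) : e * (277 / 100) ≤ sg e * log 2 := by
  unfold sg
  have hl := log_two_lo
  have h2 : (277 / 100 : ℝ) ≤ 4 * (1 - e) * log 2 := by nlinarith
  have := mul_le_mul_of_nonneg_left h2 h0.le
  nlinarith

lemma a_hi {e : ℝ} (h0 : 0 < e) (h1 : e ≤ 1 / 10000) : sg e * log 2 ≤ e * (27726 / 10000) := by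
  unfold sg
  have hl := log_two_hi
  have hl0 : 0 < log 2 := Real.log_pos (by norm_num)
  have h2 : 4 * (1 - e) * log 2 ≤ (27726 / 10000 : ℝ) := by nlinarith
  have := mul_le_mul_of_nonneg_left h2 h0.le
  nlinarith

lemma k_lo {e : ℝ} (h0 : 0 < e) (h1 : e ≤ 1 / 10000) :
    e * (log (1 / e) - 17727 / 10000) ≤ ka e := by
  have h2 := hE_lo h0 (by linarith)
  have h3 := a_hi h0 h1
  unfold ka
  have h4 : 0 ≤ e * (1 / 10000 - e) := mul_nonneg h0.le (by linarith)
  nlinarith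

lemma k_hi {e : ℝ} (h0 : 0 < e) (h1 : e ≤ 1 / 10000) :
    ka e ≤ e * (log (1 / e) - 177 / 100) := by
  have h2 := hE_hi h0 (by linarith)
  have h3 := a_lo h0 h1
  unfold ka
  nlinarith

lemma ha3 {e : ℝ} (h0 : 0 < e) (h1 : e ≤ 1 / 10000) : 3 * (sg e * log 2) ≤ 2 * ka e := by
  have h2 := k_lo h0 h1
  have h3 := a_hi h0 h1
  have h4 := L_ge h0 h1
  have h5 : e * (46 / 5 - 17727 / 10000) ≤ e * (log (1 / e) - 17727 / 10000) :=
    mul_le_mul_of_nonneg_left (by linarith) h0.le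
  nlinarith

/-- From numerical data to the hypothesis of the reduction. -/
lemma hN_of_cell {e d K0 A X : ℝ} (he0 : 0 < e) (he1 : e ≤ 1 / 10000) (hd0 : 0 < d) (hd1 : d < 1)
    (hK0 : K0 ≤ log (1 / e) - 17727 / 10000) (hK00 : 0 ≤ K0) (hA0 : 0 ≤ A) (hX0 : 0 ≤ X)
    (hA : A ≤ (1 - 4 / 3 * d + d ^ 3 / 3) - (1 + d) * (3 - d ^ 2) / 6 / ellT e d)
    (hX : X ≤ (1 - d) - 1 / (2 * (1 - d) * ellT e d))
    (hlg : log (1 + yT d) + 2 * yT d * (sT e d + e) ≤ K0 * A + 277 / 100 * X) :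
    e * log (1 + yT d) + 2 * sT e d * (sT e d + e)
      ≤ ka e * ((1 - 4 / 3 * d + d ^ 3 / 3) - (1 + d) * (3 - d ^ 2) / 6 / ellT e d)
        + sg e * log 2 * ((1 - d) - 1 / (2 * (1 - d) * ellT e d)) := by
  have hk := k_lo he0 he1
  have ha := a_lo he0 he1
  have h1 : e * K0 ≤ ka e := by
    have := mul_le_mul_of_nonneg_left hK0 he0.le
    linarith
  have h2 : e * K0 * A ≤ ka e * ((1 - 4 / 3 * d + d ^ 3 / 3) - (1 + d) * (3 - d ^ 2) / 6 / ellT e d) :=
    mul_le_mul h1 hA hA0 (by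
      have := mul_nonneg he0.le hK00
      linarith)
  have h3 : e * (277 / 100) * X ≤ sg e * log 2 * ((1 - d) - 1 / (2 * (1 - d) * ellT e d)) :=
    mul_le_mul ha hX hX0 (by
      have : 0 ≤ e * (277 / 100) := by positivity
      linarith)
  have h4 := mul_le_mul_of_nonneg_left hlg he0.le
  have e1 : e * (log (1 + yT d) + 2 * yT d * (sT e d + e))
      = e * log (1 + yT d) + 2 * sT e d * (sT e d + e) := by
    unfold sT; ring
  rw [e1] at h4
  have e2 : e * (K0 * A + 277 / 100 * X) = e * K0 * A + e * (277 / 100) * X := by ring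
  rw [e2] at h4
  linarith

/-- Bound of the divided terms by numbers. -/
lemma div_terms {d ell c l0 x0 A X a0 : ℝ} (hl0 : 0 < l0) (hell : l0 ≤ ell) (hx0 : 0 < x0)
    (hx : x0 ≤ 1 - d) (hc0 : 0 ≤ (1 + d) * (3 - d ^ 2) / 6) (hc : (1 + d) * (3 - d ^ 2) / 6 ≤ c)
    (ha : a0 ≤ 1 - 4 / 3 * d + d ^ 3 / 3) (hA : A + c / l0 ≤ a0) (hX : X + 1 / (2 * x0 * l0) ≤ x0) :
    A ≤ (1 - 4 / 3 * d + d ^ 3 / 3) - (1 + d) * (3 - d ^ 2) / 6 / ell ∧
      X ≤ (1 - d) - 1 / (2 * (1 - d) * ell) := by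
  have hell0 : 0 < ell := by linarith
  have hc00 : 0 ≤ c := le_trans hc0 hc
  have h1 : (1 + d) * (3 - d ^ 2) / 6 / ell ≤ c / l0 :=
    div_le_div₀ hc00 hc hl0 hell
  have h2 : 1 / (2 * (1 - d) * ell) ≤ 1 / (2 * x0 * l0) := by
    apply one_div_le_one_div_of_le (by positivity)
    have : x0 * l0 ≤ (1 - d) * ell := mul_le_mul hx hell hl0.le (by linarith)
    nlinarith
  constructor <;> linarith

lemma log_le_self_sub {x c : ℝ} (hx : 0 < x) (hc : 0 < c) : log x ≤ log c + x / c - 1 := by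
  have h := Real.log_le_sub_one_of_pos (show 0 < x / c by positivity)
  rw [log_div hx.ne' hc.ne'] at h
  linarith

/-- The cell `d ∈ [6/10, 7/10]`. -/
lemma hN_cell_a {e d : ℝ} (he0 : 0 < e) (he1 : e ≤ 1 / 10000) (hd0 : 6 / 10 ≤ d) (hd1 : d ≤ 7 / 10) :
    0 < ellT e d ∧ e * log (1 + yT d) + 2 * sT e d * (sT e d + e)
      ≤ ka e * ((1 - 4 / 3 * d + d ^ 3 / 3) - (1 + d) * (3 - d ^ 2) / 6 / ellT e d)
        + sg e * log 2 * ((1 - d) - 1 / (2 * (1 - d) * ellT e d)) := by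
  have hd00 : 0 < d := by linarith
  have hd11 : d < 1 := by linarith
  have hxi : 0 < 1 - d := by linarith
  have hL := L_ge he0 he1
  have hq : (3 / 8 : ℝ) ≤ d / (4 * (1 - d)) := by
    rw [le_div_iff₀ (by positivity)]; nlinarith
  have hlq : -(99 / 100 : ℝ) ≤ log (d / (4 * (1 - d))) := by
    have h1 : log (3 / 8 : ℝ) ≤ log (d / (4 * (1 - d))) := log_le_log (by norm_num) hq
    have h2 : log (8 / 3 : ℝ) ≤ ((99 : ℕ) : ℝ) / (100 : ℕ) :=
      log_le_of_pow (by norm_num) (by norm_num) (by norm_num)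
    have h3 : log (3 / 8 : ℝ) = -log (8 / 3 : ℝ) := by
      rw [← log_inv]; norm_num
    rw [h3] at h1
    norm_num at h2 ⊢
    linarith
  have hell : (821 / 100 : ℝ) ≤ ellT e d := by
    rw [ellT_eq he0 hd00 hd11]
    linarith
  have hell0 : 0 < ellT e d := by linarith
  refine ⟨hell0, ?_⟩
  have hc0 : 0 ≤ (1 + d) * (3 - d ^ 2) / 6 := by
    have : 0 ≤ 3 - d ^ 2 := by nlinarith
    positivity
  have hc : (1 + d) * (3 - d ^ 2) / 6 ≤ 712 / 1000 := by nlinarith [sq_nonneg (d - 1 / 2)]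
  have ha0 : (18 / 100 : ℝ) ≤ 1 - 4 / 3 * d + d ^ 3 / 3 := by
    have hd3 : d ^ 3 ≤ 343 / 1000 := by
      have := pow_le_pow_left₀ (by linarith) hd1 3
      norm_num at this ⊢; linarith
    have hd3' : (216 / 1000 : ℝ) ≤ d ^ 3 := by
      have := pow_le_pow_left₀ (by norm_num) hd0 3
      norm_num at this ⊢; linarith
    nlinarith
  obtain ⟨hA, hX⟩ := div_terms (l0 := 821 / 100) (x0 := 3 / 10) (c := 712 / 1000) (a0 := 18 / 100)
    (A := 93 / 1000) (X := 96 / 1000) (by norm_num) hell (by norm_num) (by linarith) hc0 hc ha0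
    (by norm_num) (by norm_num)
  refine hN_of_cell he0 he1 hd00 hd11 (K0 := 742 / 100) (by linarith)
    (by norm_num) (by norm_num) (by norm_num) hA hX ?_
  -- the logarithm and the small term
  have hy : yT d ≤ 4 / 3 := by
    unfold yT
    rw [div_le_iff₀ hd00]; linarith
  have hy0 := yT_pos hd00 hd11
  have hlog : log (1 + yT d) ≤ 85 / 100 := by
    have h1 : 1 + yT d ≤ 7 / 3 := by
      have : 1 + yT d = (2 - d) / d := by unfold yT; field_simp; ring
      rw [this, div_le_iff₀ hd00]; linarith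
    have h2 : log (1 + yT d) ≤ log (7 / 3 : ℝ) := log_le_log (by positivity) h1
    have h3 : log (7 / 3 : ℝ) ≤ ((17 : ℕ) : ℝ) / (20 : ℕ) :=
      log_le_of_pow (by norm_num) (by norm_num) (by norm_num)
    norm_num at h3 ⊢
    linarith
  have hs : 2 * yT d * (sT e d + e) ≤ 1 / 1000 := by
    unfold sT
    have e1 : 2 * yT d * (e * yT d + e) = e * (2 * yT d * (yT d + 1)) := by ring
    rw [e1]
    have h1 : 2 * yT d * (yT d + 1) ≤ 10 := by nlinarith
    have h2 := mul_le_mul_of_nonneg_left h1 he0.le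
    nlinarith
  norm_num
  linarith

/-- The cell `d ∈ [3/10, 6/10]`. -/
lemma hN_cell_b {e d : ℝ} (he0 : 0 < e) (he1 : e ≤ 1 / 10000) (hd0 : 3 / 10 ≤ d) (hd1 : d ≤ 6 / 10) :
    0 < ellT e d ∧ e * log (1 + yT d) + 2 * sT e d * (sT e d + e)
      ≤ ka e * ((1 - 4 / 3 * d + d ^ 3 / 3) - (1 + d) * (3 - d ^ 2) / 6 / ellT e d)
        + sg e * log 2 * ((1 - d) - 1 / (2 * (1 - d) * ellT e d)) := by
  have hd00 : 0 < d := by linarith
  have hd11 : d < 1 := by linarith
  have hxi : 0 < 1 - d := by linarith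
  have hL := L_ge he0 he1
  have hq : (3 / 28 : ℝ) ≤ d / (4 * (1 - d)) := by
    rw [le_div_iff₀ (by positivity)]; nlinarith
  have hlq : -(56 / 25 : ℝ) ≤ log (d / (4 * (1 - d))) := by
    have h1 : log (3 / 28 : ℝ) ≤ log (d / (4 * (1 - d))) := log_le_log (by norm_num) hq
    have h2 : log (28 / 3 : ℝ) ≤ ((56 : ℕ) : ℝ) / (25 : ℕ) :=
      log_le_of_pow (by norm_num) (by norm_num) (by norm_num)
    have h3 : log (3 / 28 : ℝ) = -log (28 / 3 : ℝ) := by
      rw [← log_inv]; norm_num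
    rw [h3] at h1
    norm_num at h2 ⊢
    linarith
  have hell : (696 / 100 : ℝ) ≤ ellT e d := by
    rw [ellT_eq he0 hd00 hd11]
    linarith
  have hell0 : 0 < ellT e d := by linarith
  refine ⟨hell0, ?_⟩
  have hc0 : 0 ≤ (1 + d) * (3 - d ^ 2) / 6 := by
    have : 0 ≤ 3 - d ^ 2 := by nlinarith
    positivity
  have hc : (1 + d) * (3 - d ^ 2) / 6 ≤ 705 / 1000 := by nlinarith [sq_nonneg (d - 1 / 2)]
  have ha0 : (27 / 100 : ℝ) ≤ 1 - 4 / 3 * d + d ^ 3 / 3 := by
    have hd3' : (27 / 1000 : ℝ) ≤ d ^ 3 := by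
      have := pow_le_pow_left₀ (by norm_num) hd0 3
      norm_num at this ⊢; linarith
    nlinarith [mul_nonneg (sub_nonneg.mpr hd0) (sub_nonneg.mpr hd1),
      pow_pos hd00 3, sq_nonneg (d - 6 / 10)]
  obtain ⟨hA, hX⟩ := div_terms (l0 := 696 / 100) (x0 := 4 / 10) (c := 705 / 1000) (a0 := 27 / 100)
    (A := 168 / 1000) (X := 22 / 100) (by norm_num) hell (by norm_num) (by linarith) hc0 hc ha0
    (by norm_num) (by norm_num)
  refine hN_of_cell he0 he1 hd00 hd11 (K0 := 742 / 100) (by linarith)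
    (by norm_num) (by norm_num) (by norm_num) hA hX ?_
  have hy : yT d ≤ 14 / 3 := by
    unfold yT
    rw [div_le_iff₀ hd00]; linarith
  have hy0 := yT_pos hd00 hd11
  have hlog : log (1 + yT d) ≤ 7 / 4 := by
    have h1 : 1 + yT d ≤ 17 / 3 := by
      have : 1 + yT d = (2 - d) / d := by unfold yT; field_simp; ring
      rw [this, div_le_iff₀ hd00]; linarith
    have h2 : log (1 + yT d) ≤ log (17 / 3 : ℝ) := log_le_log (by positivity) h1
    have h3 : log (17 / 3 : ℝ) ≤ ((7 : ℕ) : ℝ) / (4 : ℕ) :=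
      log_le_of_pow (by norm_num) (by norm_num) (by norm_num)
    norm_num at h3 ⊢
    linarith
  have hs : 2 * yT d * (sT e d + e) ≤ 6 / 1000 := by
    unfold sT
    have e1 : 2 * yT d * (e * yT d + e) = e * (2 * yT d * (yT d + 1)) := by ring
    rw [e1]
    have h1 : 2 * yT d * (yT d + 1) ≤ 60 := by nlinarith
    have h2 := mul_le_mul_of_nonneg_left h1 he0.le
    nlinarith
  norm_num
  linarith

/-- The cell `d ≤ 3/10`, `2/3 ≤ d log(1/e)`. -/
lemma hN_cell_c {e d : ℝ} (he0 : 0 < e) (he1 : e ≤ 1 / 10000) (hd0 : 0 < d) (hd1 : d ≤ 3 / 10)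
    (hdL : 2 / 3 ≤ d * log (1 / e)) :
    0 < ellT e d ∧ e * log (1 + yT d) + 2 * sT e d * (sT e d + e)
      ≤ ka e * ((1 - 4 / 3 * d + d ^ 3 / 3) - (1 + d) * (3 - d ^ 2) / 6 / ellT e d)
        + sg e * log 2 * ((1 - d) - 1 / (2 * (1 - d) * ellT e d)) := by
  have hd11 : d < 1 := by linarith
  have hxi : 0 < 1 - d := by linarith
  have hL := L_ge he0 he1
  set L : ℝ := log (1 / e) with hLdef
  have hL0 : 0 < L := by linarith
  -- `1/d` is at most `3L/2`
  have hinvd : 1 / d ≤ 3 / 2 * L := by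
    rw [div_le_iff₀ hd0]; nlinarith
  have hq : 1 / (6 * L) ≤ d / (4 * (1 - d)) := by
    rw [div_le_div_iff₀ (by positivity) (by positivity)]
    nlinarith
  have hlq : -(L / 2) ≤ log (d / (4 * (1 - d))) := by
    have h1 : log (1 / (6 * L)) ≤ log (d / (4 * (1 - d))) :=
      log_le_log (by positivity) hq
    have h2 : log (1 / (6 * L)) = -log (6 * L) := by
      rw [one_div, log_inv]
    rw [h2] at h1
    have h3 : log (6 * L) ≤ log 30 + (6 * L) / 30 - 1 := log_le_self_sub (by positivity) (by norm_num)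
    have h4 : log (30 : ℝ) ≤ ((7 : ℕ) : ℝ) / (2 : ℕ) :=
      log_le_of_pow (by norm_num) (by norm_num) (by norm_num)
    norm_num at h4
    linarith
  have hell : L / 2 ≤ ellT e d := by
    rw [ellT_eq he0 hd0 hd11]
    linarith
  have hell2 : (23 / 5 : ℝ) ≤ ellT e d := by linarith
  have hell0 : 0 < ellT e d := by linarith
  refine ⟨hell0, ?_⟩
  have hc0 : 0 ≤ (1 + d) * (3 - d ^ 2) / 6 := by
    have : 0 ≤ 3 - d ^ 2 := by nlinarith
    positivity
  have hc : (1 + d) * (3 - d ^ 2) / 6 ≤ 64 / 100 := by nlinarith [sq_nonneg d]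
  have ha0 : (6 / 10 : ℝ) ≤ 1 - 4 / 3 * d + d ^ 3 / 3 := by
    have : 0 ≤ d ^ 3 := by positivity
    linarith
  obtain ⟨hA, hX⟩ := div_terms (l0 := 23 / 5) (x0 := 7 / 10) (c := 64 / 100) (a0 := 6 / 10)
    (A := 46 / 100) (X := 54 / 100) (by norm_num) hell2 (by norm_num) (by linarith) hc0 hc ha0
    (by norm_num) (by norm_num)
  refine hN_of_cell he0 he1 hd0 hd11 (K0 := L - 17727 / 10000) le_rfl
    (by linarith) (by norm_num) (by norm_num) hA hX ?_
  have hy0 := yT_pos hd0 hd11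
  have hy : yT d ≤ 3 * L := by
    have h1 : yT d ≤ 2 * (1 / d) := by
      unfold yT
      have : 2 * (1 - d) / d = 2 * (1 - d) * (1 / d) := by ring
      rw [this]
      have h2 : 0 < 1 / d := by positivity
      nlinarith
    linarith
  have hlog : log (1 + yT d) ≤ L / 5 + 7 / 4 := by
    have h1 : 1 + yT d ≤ 3 * L := by
      have : 1 + yT d = (2 - d) / d := by unfold yT; field_simp; ring
      rw [this]
      have h2 : (2 - d) / d ≤ 2 * (1 / d) := by
        have : 2 * (1 / d) = 2 / d := by ring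
        rw [this]
        exact div_le_div_of_nonneg_right (by linarith) hd0.le
      linarith
    have h2 : log (1 + yT d) ≤ log (3 * L) := log_le_log (by positivity) h1
    have h3 : log (3 * L) ≤ log 15 + (3 * L) / 15 - 1 := log_le_self_sub (by positivity) (by norm_num)
    have h4 : log (15 : ℝ) ≤ ((11 : ℕ) : ℝ) / (4 : ℕ) :=
      log_le_of_pow (by norm_num) (by norm_num) (by norm_num)
    norm_num at h4
    linarith
  have hs : 2 * yT d * (sT e d + e) ≤ 1 / 4 := by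
    unfold sT
    have e1 : 2 * yT d * (e * yT d + e) = e * (2 * yT d * (yT d + 1)) := by ring
    rw [e1]
    have h1 : yT d + 1 ≤ 4 * L := by linarith
    have h1' : 2 * yT d * (yT d + 1) ≤ 2 * (3 * L) * (4 * L) :=
      mul_le_mul (by linarith) h1 (by positivity) (by positivity)
    have h2 := mul_le_mul_of_nonneg_left h1' he0.le
    have h3 := e_L_sq he0 he1
    rw [← hLdef] at h3
    nlinarith
  nlinarith

/-! The range `d ≥ 7/10`. -/

lemma chord_negMulLog {a b t : ℝ} (ha : 0 ≤ a) (hb : 0 ≤ b) (ht0 : 0 ≤ t) (ht1 : t ≤ 1) :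
    (1 - t) * negMulLog a + t * negMulLog b ≤ negMulLog ((1 - t) * a + t * b) := by
  have h := Real.concaveOn_negMulLog.2 (Set.mem_Ici.mpr ha) (Set.mem_Ici.mpr hb)
    (show 0 ≤ 1 - t by linarith) ht0 (by ring)
  simpa [smul_eq_mul] using h

/-- Subadditivity of the binary entropy, in the two-sided form we need. -/
lemma sum_H_ge {d m : ℝ} (hd0 : 0 < d) (hd1 : d < 1) (hm0 : 0 ≤ m) (hmd : m + d ≤ 1) :
    negMulLog (1 - d) + negMulLog d ≤ H (m + d) + H (m - d) := by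
  have hxi : 0 < 1 - d := by linarith
  set t : ℝ := (1 - d - m) / (2 * (1 - d)) with ht
  have ht0 : 0 ≤ t := by
    rw [ht]; apply div_nonneg (by linarith) (by linarith)
  have ht1 : t ≤ 1 := by
    rw [ht, div_le_one (by linarith)]; linarith
  have e1 : (1 - m - d) / 2 = (1 - t) * 0 + t * (1 - d) := by
    rw [ht]; field_simp; ring
  have e2 : (1 + m - d) / 2 = t * 0 + (1 - t) * (1 - d) := by
    rw [ht]; field_simp; ring
  have e3 : (1 + m + d) / 2 = (1 - t) * 1 + t * d := by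
    rw [ht]; field_simp; ring
  have e4 : (1 - m + d) / 2 = t * 1 + (1 - t) * d := by
    rw [ht]; field_simp; ring
  have c1 := chord_negMulLog (a := 0) (b := 1 - d) (t := t) le_rfl hxi.le ht0 ht1
  have c2 := chord_negMulLog (a := 0) (b := 1 - d) (t := 1 - t) le_rfl hxi.le (by linarith) (by linarith)
  have c3 := chord_negMulLog (a := 1) (b := d) (t := t) zero_le_one hd0.le ht0 ht1
  have c4 := chord_negMulLog (a := 1) (b := d) (t := 1 - t) zero_le_one hd0.le (by linarith) (by linarith)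
  simp only [Real.negMulLog_zero, Real.negMulLog_one, sub_sub_cancel, mul_zero, zero_add] at c1 c2 c3 c4
  unfold H
  have f1 : (1 + (m + d)) / 2 = (1 + m + d) / 2 := by ring
  have f2 : (1 - (m + d)) / 2 = (1 - m - d) / 2 := by ring
  have f3 : (1 + (m - d)) / 2 = (1 + m - d) / 2 := by ring
  have f4 : (1 - (m - d)) / 2 = (1 - m + d) / 2 := by ring
  rw [f1, f2, f3, f4]
  have g1 : negMulLog ((1 - m - d) / 2) = negMulLog (t * (1 - d)) := by
    rw [e1]; ring_nf
  have g2 : negMulLog ((1 + m - d) / 2) = negMulLog ((1 - t) * (1 - d)) := by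
    rw [e2]; ring_nf
  have g3 : negMulLog ((1 + m + d) / 2) = negMulLog ((1 - t) * 1 + t * d) := by
    rw [e3]
  have g4 : negMulLog ((1 - m + d) / 2) = negMulLog (t * 1 + (1 - t) * d) := by
    rw [e4]
  rw [g1, g2, g3, g4]
  nlinarith

/-- The entropy of a small probability. -/
lemma hb_lo {x : ℝ} (h0 : 0 < x) (h1 : x < 1) :
    x * (log (1 / x) + 1 - x) ≤ negMulLog x + negMulLog (1 - x) := by
  unfold negMulLog
  rw [one_div, log_inv]
  have h2 : log (1 - x) ≤ (1 - x) - 1 := Real.log_le_sub_one_of_pos (by linarith)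
  have h3 : (1 - x) * log (1 - x) ≤ (1 - x) * (-x) :=
    mul_le_mul_of_nonneg_left (by linarith) (by linarith)
  nlinarith

/-- The mean of `gt` near the corner. -/
lemma gt_avg_xi {x m : ℝ} (hx0 : 0 ≤ x) (hx1 : x ≤ 3 / 10) (hm0 : 0 ≤ m) (hmx : m ≤ x) :
    (gt (m + (1 - x)) + gt (m - (1 - x))) / 2 ≤ 143 / 100 * x := by
  have e : (gt (m + (1 - x)) + gt (m - (1 - x))) / 2
      = (4 * x + 2 * x ^ 2 - 4 * x ^ 3 + x ^ 4 + m ^ 2 * (2 - 12 * x + 6 * x ^ 2 + m ^ 2)) / 3 := by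
    unfold gt; ring
  rw [e]
  have hz : m ^ 2 ≤ x ^ 2 := pow_le_pow_left₀ hm0 hmx 2
  have hz0 : 0 ≤ m ^ 2 := sq_nonneg m
  have h1 : m ^ 2 * (2 - 12 * x + 6 * x ^ 2 + m ^ 2) ≤ m ^ 2 * (2 - 12 * x + 7 * x ^ 2) :=
    mul_le_mul_of_nonneg_left (by linarith) hz0
  have hx2 : 0 ≤ x ^ 2 := sq_nonneg x
  have hx3 : x ^ 3 ≤ 27 / 1000 := by
    have := pow_le_pow_left₀ hx0 hx1 3
    norm_num at this ⊢; linarith
  have hx30 : 0 ≤ x ^ 3 := by positivity
  have hx4 : x ^ 4 = x * x ^ 3 := by ring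
  by_cases hc : 2 - 12 * x + 7 * x ^ 2 ≤ 0
  · have h2 : m ^ 2 * (2 - 12 * x + 7 * x ^ 2) ≤ 0 := mul_nonpos_of_nonneg_of_nonpos hz0 hc
    have h3 : 2 * x - 4 * x ^ 2 + x ^ 3 ≤ 29 / 100 := by nlinarith [sq_nonneg (x - 1 / 4)]
    have h4 := mul_le_mul_of_nonneg_left h3 hx0
    nlinarith
  · push Not at hc
    have h2 : m ^ 2 * (2 - 12 * x + 7 * x ^ 2) ≤ x ^ 2 * (2 - 12 * x + 7 * x ^ 2) :=
      mul_le_mul_of_nonneg_right hz hc.le
    have h3 : 4 * x - 16 * x ^ 2 + 8 * x ^ 3 ≤ 29 / 100 := by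
      nlinarith [sq_nonneg (x - 1 / 8), sq_nonneg (x - 1 / 5), mul_nonneg hx0 (sq_nonneg (x - 1 / 5))]
    have h4 := mul_le_mul_of_nonneg_left h3 hx0
    nlinarith

/-- Algebra of the reduction for `d ≥ 7/10`. -/
lemma alg_reduceII {a k sg0 x lg s ee tau Hm HH gm gg z b : ℝ}
    (hx0 : 0 < x) (hx3 : x ≤ 3 / 10)
    (hk : 0 ≤ k) (hsg : 0 ≤ sg0) (hz : 0 ≤ z) (hee : 0 ≤ ee) (hs : 0 ≤ s)
    (hHm : Hm ≤ log 2 - z / 2) (ha : a = sg0 * log 2)
    (hHH : x * (b + 1 - x) / 2 ≤ HH)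
    (hgg : gg ≤ 143 / 100 * x)
    (hgm : gm - gg = (1 - x) ^ 2 * (4 / 3 - 2 * z - (1 - x) ^ 2 / 3))
    (hlg : lg * (1 - x) ≤ 2 * x) (hsd : s * (1 - x) = 2 * ee * x)
    (htau0 : 0 ≤ tau) (htau1 : tau ≤ 1)
    (hcore : a + 2 * ee + 4 * ee * (s + ee) + 143 / 100 * tau * k
      ≤ k / 3 + (1 - tau) * (sg0 / 2) * (b + 1 - x)) :
    sg0 * Hm + k * gm
      ≤ (a + k - ee * lg - 2 * s * (s + ee)) * (1 - x) + (1 - tau) * ((sg0 * HH + k * gg)) := by
  have h1 := mul_le_mul_of_nonneg_left hHm hsg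
  have h2 : ee * (lg * (1 - x)) ≤ ee * (2 * x) := mul_le_mul_of_nonneg_left hlg hee
  have h3 : (1 - tau) * (sg0 * (x * (b + 1 - x) / 2)) ≤ (1 - tau) * (sg0 * HH) :=
    mul_le_mul_of_nonneg_left (mul_le_mul_of_nonneg_left hHH hsg) (by linarith)
  have h4 : tau * (k * gg) ≤ tau * (k * (143 / 100 * x)) :=
    mul_le_mul_of_nonneg_left (mul_le_mul_of_nonneg_left hgg hk) htau0
  have h5 := mul_le_mul_of_nonneg_left hcore hx0.le
  have h6 : 0 ≤ k * (x ^ 2 * (2 - 4 * x + x ^ 2) / 3) := by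
    apply mul_nonneg hk
    have : 0 ≤ 2 - 4 * x + x ^ 2 := by nlinarith [sq_nonneg x]
    positivity
  have h7 : 0 ≤ k * (2 * z * (1 - x) ^ 2) := by positivity
  have h8 : 0 ≤ sg0 * (z / 2) := by positivity
  have hgm' : gm = gg + (1 - x) ^ 2 * (4 / 3 - 2 * z - (1 - x) ^ 2 / 3) := by linarith
  have hs2 : 2 * s * (s + ee) * (1 - x) = 4 * ee * x * (s + ee) := by
    have : 2 * s * (s + ee) * (1 - x) = 2 * (s * (1 - x)) * (s + ee) := by ring
    rw [this, hsd]; ring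
  rw [hgm']
  have h9 : sg0 * log 2 = a := ha.symm
  have h10 : sg0 * (log 2 - z / 2) = a - sg0 * (z / 2) := by rw [← h9]; ring
  rw [h10] at h1
  have e1 : (a + k - ee * lg - 2 * s * (s + ee)) * (1 - x)
      = (a + k) * (1 - x) - ee * (lg * (1 - x)) - 2 * s * (s + ee) * (1 - x) := by ring
  rw [e1, hs2]
  have e2 : k * (gg + (1 - x) ^ 2 * (4 / 3 - 2 * z - (1 - x) ^ 2 / 3))
      = k * gg + k * (1 - x) - k * (x / 3) - k * (x ^ 2 * (2 - 4 * x + x ^ 2) / 3)
        - k * (2 * z * (1 - x) ^ 2) := by ring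
  rw [e2]
  have e3 : x * (a + 2 * ee + 4 * ee * (s + ee) + 143 / 100 * tau * k)
      = x * a + ee * (2 * x) + 4 * ee * x * (s + ee) + tau * (k * (143 / 100 * x)) := by ring
  have e4 : x * (k / 3 + (1 - tau) * (sg0 / 2) * (b + 1 - x))
      = k * (x / 3) + (1 - tau) * (sg0 * (x * (b + 1 - x) / 2)) := by ring
  rw [e3, e4] at h5
  have e5 : (1 - tau) * (sg0 * HH + k * gg) = (1 - tau) * (sg0 * HH) + k * gg - tau * (k * gg) := by
    ring
  rw [e5]
  have e6 : (a + k) * (1 - x) = a - x * a + k * (1 - x) := by ring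
  rw [e6]
  linarith

/-- The polynomial inequality behind the range `d ≥ 7/10`. -/
lemma poly_II {L b K : ℝ} (hL : 46 / 5 ≤ L) (hb : 6 / 5 ≤ b) (hK0 : L - 17727 / 10000 ≤ K)
    (hK1 : K ≤ L - 177 / 100) :
    47734 / 10000 * (L + b - 7 / 4) + 143 / 100 * (b - 2 / 5) * K
      ≤ K * (L + b - 7 / 4) / 3 + (L - 27 / 20) * (19998 / 10000 * (b + 7 / 10)) := by
  set B : ℝ := (L + b - 7 / 4) / 3 - 143 / 100 * (b - 2 / 5) with hB
  have e : K * (L + b - 7 / 4) / 3 - 143 / 100 * (b - 2 / 5) * K = K * B := by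
    rw [hB]; ring
  have hu : 0 ≤ L - 46 / 5 := by linarith
  have hw : 0 ≤ b - 6 / 5 := by linarith
  have huw := mul_nonneg hu hw
  have huu := mul_nonneg hu hu
  by_cases hB0 : 0 ≤ B
  · have h1 : (L - 17727 / 10000) * B ≤ K * B := mul_le_mul_of_nonneg_right hK0 hB0
    rw [hB] at h1
    nlinarith
  · push Not at hB0
    have h1 : (L - 177 / 100) * B ≤ K * B := mul_le_mul_of_nonpos_right hK1 hB0.le
    rw [hB] at h1
    nlinarith

/-- Dividing the polynomial inequality. -/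
lemma core_norm {K D t G c : ℝ} (hD : 0 < D) (ht : t * D = c)
    (hp : 47734 / 10000 * D + 143 / 100 * c * K ≤ K * D / 3 + (D - c) * G) :
    47734 / 10000 + 143 / 100 * t * K ≤ K / 3 + (1 - t) * G := by
  apply le_of_mul_le_mul_left _ hD
  have e1 : D * (47734 / 10000 + 143 / 100 * t * K)
      = 47734 / 10000 * D + 143 / 100 * (t * D) * K := by ring
  have e2 : D * (K / 3 + (1 - t) * G) = K * D / 3 + (D - t * D) * G := by ring
  rw [e1, e2, ht]
  exact hp

lemma combine_II {e K t tau G b x sg0 a s : ℝ} (he0 : 0 < e) (hK : 0 ≤ K) (htau : tau ≤ t)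
    (ht1 : t ≤ 1) (hG0 : 0 ≤ G)
    (hnorm : 47734 / 10000 + 143 / 100 * t * K ≤ K / 3 + (1 - t) * G)
    (ha : a ≤ e * (27726 / 10000)) (hs4 : 4 * e * (s + e) ≤ e * (8 / 10000))
    (hsg2 : e * G ≤ (sg0 / 2) * (b + 1 - x)) :
    a + 2 * e + 4 * e * (s + e) + 143 / 100 * tau * (e * K)
      ≤ e * K / 3 + (1 - tau) * (sg0 / 2) * (b + 1 - x) := by
  have hmain := mul_le_mul_of_nonneg_left hnorm he0.le
  have heK : 0 ≤ e * K := mul_nonneg he0.le hK
  have heG : 0 ≤ e * G := mul_nonneg he0.le hG0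
  have h1 : 143 / 100 * tau * (e * K) ≤ 143 / 100 * t * (e * K) :=
    mul_le_mul_of_nonneg_right (by linarith) heK
  have h2 : (1 - t) * (e * G) ≤ (1 - tau) * ((sg0 / 2) * (b + 1 - x)) :=
    mul_le_mul (by linarith) hsg2 heG (by linarith)
  have e1 : e * (47734 / 10000 + 143 / 100 * t * K) = e * (47734 / 10000) + 143 / 100 * t * (e * K) := by
    ring
  have e2 : e * (K / 3 + (1 - t) * G) = e * K / 3 + (1 - t) * (e * G) := by ring
  rw [e1, e2] at hmain
  have e3 : (1 - tau) * (sg0 / 2) * (b + 1 - x) = (1 - tau) * ((sg0 / 2) * (b + 1 - x)) := by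
    ring
  rw [e3]
  linarith

lemma sg_half_mul {e b x : ℝ} (he0 : 0 < e) (he1 : e ≤ 1 / 10000) (hb : 6 / 5 ≤ b) (hx3 : x ≤ 3 / 10) :
    e * (19998 / 10000 * (b + 7 / 10)) ≤ (sg e / 2) * (b + 1 - x) := by
  have h1 : e * (19998 / 10000) ≤ sg e / 2 := by
    unfold sg
    have : 0 ≤ e * (1 / 10000 - e) := mul_nonneg he0.le (by linarith)
    nlinarith
  have h2 : b + 7 / 10 ≤ b + 1 - x := by linarith
  have h3 : 0 ≤ b + 7 / 10 := by linarith
  have h4 : 0 ≤ sg e / 2 := by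
    have := mul_pos he0 (by norm_num : (0 : ℝ) < 19998 / 10000)
    linarith
  have := mul_le_mul h1 h2 h3 h4
  have e : e * (19998 / 10000) * (b + 7 / 10) = e * (19998 / 10000 * (b + 7 / 10)) := by ring
  linarith

/-- The core inequality for `d ≥ 7/10`. -/
lemma core_II {e d : ℝ} (he0 : 0 < e) (he1 : e ≤ 1 / 10000) (hd07 : 7 / 10 ≤ d) (hd1 : d < 1) :
    0 < ellT e d ∧ tau0 e d ≤ 1 ∧ sg e * log 2 + 2 * e + 4 * e * (sT e d + e)
        + 143 / 100 * tau0 e d * ka e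
      ≤ ka e / 3 + (1 - tau0 e d) * (sg e / 2) * (log (1 / (1 - d)) + 1 - (1 - d)) := by
  have hd0 : 0 < d := by linarith
  have hx0 : 0 < 1 - d := by linarith
  have hL := L_ge he0 he1
  have hx3 : 1 - d ≤ 3 / 10 := by linarith
  -- `b`
  have hb0 : 6 / 5 ≤ log (1 / (1 - d)) := by
    have h1 : (10 / 3 : ℝ) ≤ 1 / (1 - d) := by
      rw [le_div_iff₀ hx0]; nlinarith
    have h2 : log (10 / 3 : ℝ) ≤ log (1 / (1 - d)) := log_le_log (by norm_num) h1
    have h3 : ((6 : ℕ) : ℝ) / (5 : ℕ) ≤ log (10 / 3 : ℝ) :=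
      le_log_of_pow (by norm_num) (by norm_num) (by norm_num)
    norm_num at h3
    linarith
  -- the numerator
  have hy0 := yT_pos hd0 hd1
  have hN0 : 0 ≤ log (1 + 1 / yT d) := by
    apply Real.log_nonneg
    have : 0 < 1 / yT d := by positivity
    linarith
  have hN1 : log (1 + 1 / yT d) ≤ log (1 / (1 - d)) - 2 / 5 := by
    have e1 : 1 + 1 / yT d = 1 / (1 - d) * ((1 + (1 - d)) / 2) := by
      unfold yT
      field_simp
      ring
    rw [e1, log_mul (by positivity) (by positivity)]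
    have h1 : log ((1 + (1 - d)) / 2) ≤ log (13 / 20 : ℝ) :=
      log_le_log (by positivity) (by linarith)
    have h2 : ((2 : ℕ) : ℝ) / (5 : ℕ) ≤ log (20 / 13 : ℝ) :=
      le_log_of_pow (by norm_num) (by norm_num) (by norm_num)
    have h3 : log (13 / 20 : ℝ) = -log (20 / 13 : ℝ) := by
      rw [← log_inv]; norm_num
    norm_num at h2
    rw [h3] at h1
    linarith
  -- the denominator
  have hell : log (1 / e) + log (1 / (1 - d)) - 7 / 4 ≤ ellT e d := by
    rw [ellT_eq he0 hd0 hd1]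
    have e1 : d / (4 * (1 - d)) = 1 / (1 - d) * (d / 4) := by
      field_simp
    rw [e1, log_mul (by positivity) (by positivity)]
    have h1 : log (7 / 40 : ℝ) ≤ log (d / 4) := log_le_log (by norm_num) (by linarith)
    have h2 : log (40 / 7 : ℝ) ≤ ((7 : ℕ) : ℝ) / (4 : ℕ) :=
      log_le_of_pow (by norm_num) (by norm_num) (by norm_num)
    have h3 : log (7 / 40 : ℝ) = -log (40 / 7 : ℝ) := by
      rw [← log_inv]; norm_num
    norm_num at h2
    rw [h3] at h1
    linarith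
  have hD0 : 0 < log (1 / e) + log (1 / (1 - d)) - 7 / 4 := by linarith
  have hell0 : 0 < ellT e d := by linarith
  have htD : (log (1 / (1 - d)) - 2 / 5) / (log (1 / e) + log (1 / (1 - d)) - 7 / 4)
      * (log (1 / e) + log (1 / (1 - d)) - 7 / 4) = log (1 / (1 - d)) - 2 / 5 :=
    div_mul_cancel₀ _ hD0.ne'
  have htau : tau0 e d ≤ (log (1 / (1 - d)) - 2 / 5) / (log (1 / e) + log (1 / (1 - d)) - 7 / 4) := by
    unfold tau0
    have h1 : log (1 + 1 / yT d) / ellT e d ≤ log (1 + 1 / yT d) / (log (1 / e) + log (1 / (1 - d)) - 7 / 4) :=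
      div_le_div_of_nonneg_left hN0 hD0 hell
    have h2 : log (1 + 1 / yT d) / (log (1 / e) + log (1 / (1 - d)) - 7 / 4)
        ≤ (log (1 / (1 - d)) - 2 / 5) / (log (1 / e) + log (1 / (1 - d)) - 7 / 4) :=
      div_le_div_of_nonneg_right hN1 hD0.le
    linarith
  have ht1 : (log (1 / (1 - d)) - 2 / 5) / (log (1 / e) + log (1 / (1 - d)) - 7 / 4) ≤ 1 := by
    rw [div_le_one hD0]; linarith
  refine ⟨hell0, by linarith, ?_⟩
  -- normalization
  have hka : 0 ≤ ka e := ka_nonneg he0.le (by linarith)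
  have hk0 := k_lo he0 he1
  have hk1 := k_hi he0 he1
  have hkK : ka e = e * (ka e / e) := by field_simp
  rw [hkK] at hk0 hk1
  have hK0 : log (1 / e) - 17727 / 10000 ≤ ka e / e := le_of_mul_le_mul_left hk0 he0
  have hK1 : ka e / e ≤ log (1 / e) - 177 / 100 := le_of_mul_le_mul_left hk1 he0
  have hK00 : 0 ≤ ka e / e := by linarith
  have hG0 : 0 ≤ 19998 / 10000 * (log (1 / (1 - d)) + 7 / 10) := by
    apply mul_nonneg (by norm_num); linarith
  have hpoly := poly_II hL hb0 hK0 hK1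
  have hDc : log (1 / e) + log (1 / (1 - d)) - 7 / 4 - (log (1 / (1 - d)) - 2 / 5)
      = log (1 / e) - 27 / 20 := by ring
  have hnorm := core_norm (G := 19998 / 10000 * (log (1 / (1 - d)) + 7 / 10)) hD0 htD
    (by rw [hDc]; exact hpoly)
  -- the small terms
  have ha := a_hi he0 he1
  have hs : sT e d ≤ e := by
    unfold sT
    have : yT d ≤ 1 := by
      unfold yT
      rw [div_le_one hd0]; linarith
    exact mul_le_of_le_one_right he0.le this
  have hs4 : 4 * e * (sT e d + e) ≤ e * (8 / 10000) := by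
    have h1 : sT e d + e ≤ 2 / 10000 := by linarith
    have := mul_le_mul_of_nonneg_left h1 (by positivity : 0 ≤ 4 * e)
    linarith
  have hsg2 := sg_half_mul he0 he1 hb0 hx3
  have hfin := combine_II he0 hK00 htau ht1 hG0 hnorm ha hs4 hsg2
  rw [← hkK] at hfin
  exact hfin

/-- The reduction for `d ≥ 7/10`. -/
lemma reduceII {e d m : ℝ} (he0 : 0 < e) (he1 : e ≤ 1 / 10000) (hm0 : 0 ≤ m) (hd07 : 7 / 10 ≤ d)
    (hd1 : d < 1) (hmd : m + d ≤ 1) :
    LL e m ≤ Th0 e d * d + (1 - tau0 e d) * ((LL e (m + d) + LL e (m - d)) / 2) := by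
  have hd0 : 0 < d := by linarith
  have hx0 : 0 < 1 - d := by linarith
  obtain ⟨hell, htau1, hcore⟩ := core_II he0 he1 hd07 hd1
  have hsg : 0 ≤ sg e := sg_nonneg he0.le (by linarith)
  have hka : 0 ≤ ka e := ka_nonneg he0.le (by linarith)
  have hy0 := yT_pos hd0 hd1
  have hm1 : |m| ≤ 1 := by rw [abs_le]; constructor <;> linarith
  have hHm : H m ≤ log 2 - m ^ 2 / 2 := by
    rw [H_eq hm1]
    have := half_sq_le_Psi' hm1
    linarith
  have hHH : (1 - d) * (log (1 / (1 - d)) + 1 - (1 - d)) / 2 ≤ (H (m + d) + H (m - d)) / 2 := by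
    have h1 := hb_lo (x := 1 - d) hx0 (by linarith)
    have h2 := sum_H_ge hd0 hd1 hm0 hmd
    rw [sub_sub_cancel] at h1
    linarith
  have hgg : (gt (m + d) + gt (m - d)) / 2 ≤ 143 / 100 * (1 - d) := by
    have := gt_avg_xi (x := 1 - d) (m := m) hx0.le (by linarith) hm0 (by linarith)
    rwa [sub_sub_cancel] at this
  have hgm : gt m - (gt (m + d) + gt (m - d)) / 2
      = (1 - (1 - d)) ^ 2 * (4 / 3 - 2 * m ^ 2 - (1 - (1 - d)) ^ 2 / 3) := by
    rw [sub_sub_cancel]; unfold gt; ring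
  have hlg : log (1 + yT d) * (1 - (1 - d)) ≤ 2 * (1 - d) := by
    rw [sub_sub_cancel]
    have h1 := Real.log_le_sub_one_of_pos (show 0 < 1 + yT d by positivity)
    have h2 : log (1 + yT d) ≤ yT d := by linarith
    have h3 := mul_le_mul_of_nonneg_right h2 hd0.le
    have h4 : yT d * d = 2 * (1 - d) := by unfold yT; field_simp
    linarith
  have hsd : sT e d * (1 - (1 - d)) = 2 * e * (1 - d) := by
    rw [sub_sub_cancel]; unfold sT yT; field_simp
  have hs0 : 0 ≤ sT e d := by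
    unfold sT; positivity
  have key := alg_reduceII (a := sg e * log 2) (k := ka e) (sg0 := sg e) (x := 1 - d)
    (lg := log (1 + yT d)) (s := sT e d) (ee := e) (tau := tau0 e d) (Hm := H m)
    (HH := (H (m + d) + H (m - d)) / 2) (gm := gt m) (gg := (gt (m + d) + gt (m - d)) / 2)
    (z := m ^ 2) (b := log (1 / (1 - d))) hx0 (by linarith) hka hsg (sq_nonneg m) he0.le hs0
    hHm rfl hHH hgg hgm hlg hsd (tau0_nonneg hd0 hd1 hell) htau1 hcore
  rw [sub_sub_cancel] at key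
  have hTh : Th0 e d = sg e * log 2 + ka e - e * log (1 + yT d)
      - 2 * sT e d * (sT e d + e) := by
    unfold Th0 ka; ring
  rw [hTh]
  have e1 : (LL e (m + d) + LL e (m - d)) / 2
      = sg e * ((H (m + d) + H (m - d)) / 2) + ka e * ((gt (m + d) + gt (m - d)) / 2) := by
    unfold LL; ring
  rw [e1]
  exact key

/-- The main inequality of this file. -/
theorem tail_core {e d m : ℝ} (he0 : 0 < e) (he1 : e ≤ 1 / 10000) (hm0 : 0 ≤ m) (hd0 : 0 < d)
    (hd1 : d < 1) (hmd : m + d ≤ 1) (hO : 6 * m ^ 2 + d ^ 2 < 4) (hdL : 2 / 3 ≤ d * log (1 / e)) :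
    LL e m ≤ Th0 e d * d + (1 - tau0 e d) * ((LL e (m + d) + LL e (m - d)) / 2) := by
  have he12 : e ≤ 1 / 2 := by linarith
  have hA := ha3 he0 he1
  rcases le_total d (7 / 10) with h7 | h7
  · have hcell : 0 < ellT e d ∧ e * log (1 + yT d) + 2 * sT e d * (sT e d + e)
        ≤ ka e * ((1 - 4 / 3 * d + d ^ 3 / 3) - (1 + d) * (3 - d ^ 2) / 6 / ellT e d)
          + sg e * log 2 * ((1 - d) - 1 / (2 * (1 - d) * ellT e d)) := by
      rcases le_total d (3 / 10) with h3 | h3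
      · exact hN_cell_c he0 he1 hd0 h3 hdL
      · rcases le_total d (6 / 10) with h6 | h6
        · exact hN_cell_b he0 he1 h3 h6
        · exact hN_cell_a he0 he1 h6 h7
    exact reduceI he0 he12 hm0 hd0 h7 hmd hO hA hcell.1 hcell.2
  · exact reduceII he0 he1 hm0 h7 hd1 hmd

/-! The link with the double-root family. -/

lemma H_one_sub_two (q : ℝ) : H (1 - 2 * q) = negMulLog (1 - q) + negMulLog q := by
  unfold H
  have e1 : (1 + (1 - 2 * q)) / 2 = 1 - q := by ring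
  have e2 : (1 - (1 - 2 * q)) / 2 = q := by ring
  rw [e1, e2]

/-- The size of the parameter. -/
lemma sT_small {e d : ℝ} (he0 : 0 < e) (he1 : e ≤ 1 / 10000) (hd0 : 0 < d) (hd1 : d < 1)
    (hdL : 2 / 3 ≤ d * log (1 / e)) : 0 < sT e d ∧ sT e d ≤ 3 / 920 := by
  have hy := yT_pos hd0 hd1
  refine ⟨mul_pos he0 hy, ?_⟩
  have hL := L_ge he0 he1
  have hsq := e_L_sq he0 he1
  have h1 : e * log (1 / e) ≤ 1 / 920 := by
    have h2 : e * log (1 / e) * (46 / 5) ≤ e * log (1 / e) * log (1 / e) :=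
      mul_le_mul_of_nonneg_left hL (mul_nonneg he0.le (by linarith))
    nlinarith
  have h3 : yT d ≤ 3 * log (1 / e) := by
    unfold yT
    rw [div_le_iff₀ hd0]
    nlinarith
  have h4 := mul_le_mul_of_nonneg_left h3 he0.le
  unfold sT
  nlinarith

section Link

variable {e s : ℝ}

/-- The defining relation of the exponent. -/
lemma tauV2_mul (he0 : 0 < e) (he1 : e < 1 / 2) (hs0 : 0 < s) (hs1 : s < 1 / 2) :
    tauV2 e s * log (1 / (2 * s))
      = log (e + (1 - 2 * e) * s) + log (1 - (e + (1 - 2 * e) * s)) - log s - log (1 - s) := by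
  have hl : 0 < log (1 / (2 * s)) := by
    apply Real.log_pos
    rw [lt_div_iff₀ (by positivity)]
    linarith
  have hp0 : 0 < e + (1 - 2 * e) * s := by
    have : 0 < (1 - 2 * e) * s := mul_pos (by linarith) hs0
    linarith
  have hp1 : 0 < 1 - (e + (1 - 2 * e) * s) := by
    have : (1 - 2 * e) * (1 / 2 - s) > 0 := mul_pos (by linarith) (by linarith)
    nlinarith
  have hs2 : 0 < 1 - s := by linarith
  unfold tauV2
  rw [div_mul_cancel₀ _ hl.ne', log_div (by positivity) (by positivity),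
    log_mul hp0.ne' hp1.ne', log_mul hs0.ne' hs2.ne']
  ring

/-- The slope in closed form. -/
lemma thetaV2_eq (he0 : 0 < e) (he1 : e < 1 / 2) (hs0 : 0 < s) (hs1 : s < 1 / 2) :
    thetaV2 e s = e * (-log (e + (1 - 2 * e) * s)) - (1 - e) * log (1 - (e + (1 - 2 * e) * s))
      + log (1 - s) + tauV2 e s / 2 * (-log (1 - 2 * s)) := by
  have h := tauV2_mul he0 he1 hs0 hs1
  have hs2 : 0 < 1 - 2 * s := by linarith
  unfold thetaV2
  rw [div_eq_iff hs2.ne', H_one_sub_two, H_one_sub_two, show (1 : ℝ) - 4 * s = 1 - 2 * (2 * s) by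
    ring, H_one_sub_two]
  unfold negMulLog
  rw [show 1 / (2 * s) = (2 * s)⁻¹ by rw [one_div], log_inv] at h
  generalize tauV2 e s = t at h ⊢
  have e1 : 1 - (2 * s) = 1 - 2 * s := rfl
  generalize hp : e + (1 - 2 * e) * s = p at h ⊢
  generalize log p = lp at h ⊢
  generalize log (1 - p) = lq at h ⊢
  generalize log s = ls at h ⊢
  generalize log (1 - s) = lr at h ⊢
  generalize log (2 * s) = lu at h ⊢
  generalize log (1 - 2 * s) = lv at h ⊢
  subst hp
  linear_combination (s) * h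

lemma tauV2_bounds (he0 : 0 < e) (he1 : e < 1 / 2) (hs0 : 0 < s) (hs1 : s < 1 / 2) :
    0 ≤ tauV2 e s ∧ tauV2 e s ≤ log (1 + e / s) / log (1 / (2 * s)) := by
  have hl : 0 < log (1 / (2 * s)) := by
    apply Real.log_pos
    rw [lt_div_iff₀ (by positivity)]
    linarith
  set p : ℝ := e + (1 - 2 * e) * s with hp
  have hp0 : 0 < p := by
    have : 0 < (1 - 2 * e) * s := mul_pos (by linarith) hs0
    rw [hp]; linarith
  have hp1 : 0 < 1 - p := by
    have : (1 - 2 * e) * (1 / 2 - s) > 0 := mul_pos (by linarith) (by linarith)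
    rw [hp]; nlinarith
  have hs2 : 0 < 1 - s := by linarith
  have hps : s ≤ p := by
    have : 0 ≤ e * (1 - 2 * s) := mul_nonneg he0.le (by linarith)
    rw [hp]; nlinarith
  have hp12 : p ≤ 1 / 2 := by
    have : 0 ≤ (1 - 2 * e) * (1 / 2 - s) := mul_nonneg (by linarith) (by linarith)
    rw [hp]; nlinarith
  have hX1 : 1 ≤ p * (1 - p) / (s * (1 - s)) := by
    rw [le_div_iff₀ (by positivity)]
    nlinarith
  have hX2 : p * (1 - p) / (s * (1 - s)) ≤ 1 + e / s := by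
    rw [div_le_iff₀ (by positivity)]
    have e1 : (1 + e / s) * (s * (1 - s)) = (s + e) * (1 - s) := by
      field_simp
    rw [e1]
    have h1 : p ≤ s + e := by
      have : 0 ≤ 2 * e * s := by positivity
      rw [hp]; nlinarith
    have h2 : 1 - p ≤ 1 - s := by linarith
    exact mul_le_mul h1 h2 hp1.le (by linarith)
  constructor
  · unfold tauV2
    rw [← hp]
    exact div_nonneg (Real.log_nonneg hX1) hl.le
  · unfold tauV2
    rw [← hp]
    exact div_le_div_of_nonneg_right (Real.log_le_log (by linarith) hX2) hl.le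

/-- The slope is at least the explicit lower bound used above. -/
lemma Th_le_theta (he0 : 0 < e) (he1 : e < 1 / 2) (hs0 : 0 < s) (hs1 : s < 1 / 2)
    {y : ℝ} (hy0 : 0 < y) (hsy : s = e * y) :
    hE e - e * log (1 + y) - 2 * s * (s + e) ≤ thetaV2 e s := by
  have ht := (tauV2_bounds he0 he1 hs0 hs1).1
  rw [thetaV2_eq he0 he1 hs0 hs1, hE_eq he0 (by linarith)]
  set p : ℝ := e + (1 - 2 * e) * s with hp
  have hp0 : 0 < p := by
    have : 0 < (1 - 2 * e) * s := mul_pos (by linarith) hs0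
    rw [hp]; linarith
  have hp1 : 0 < 1 - p := by
    have : (1 - 2 * e) * (1 / 2 - s) > 0 := mul_pos (by linarith) (by linarith)
    rw [hp]; nlinarith
  have hs2 : 0 < 1 - s := by linarith
  have he2 : 0 < 1 - e := by linarith
  have hs3 : 0 < 1 - 2 * s := by linarith
  -- first term
  have hpe : p ≤ e * (1 + y) := by
    have : 0 ≤ 2 * e * s := by positivity
    rw [hp]; nlinarith
  have h1 : log p ≤ log e + log (1 + y) := by
    rw [← log_mul he0.ne' (by positivity)]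
    exact log_le_log hp0 hpe
  have h1' := mul_le_mul_of_nonneg_left h1 he0.le
  -- second term
  have h2 : 1 - (1 - p) / (1 - e) ≤ log (1 - e) - log (1 - p) := by
    rw [← log_div he2.ne' hp1.ne']
    have := Real.one_sub_inv_le_log_of_pos (show 0 < (1 - e) / (1 - p) by positivity)
    rwa [inv_div] at this
  have h2' := mul_le_mul_of_nonneg_left h2 he2.le
  have e2 : (1 - e) * (1 - (1 - p) / (1 - e)) = p - e := by
    field_simp
    ring
  rw [e2] at h2'
  -- third term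
  have h3 : s / (1 - s) ≥ -log (1 - s) := by
    have := Real.one_sub_inv_le_log_of_pos hs2
    have e3 : s / (1 - s) = (1 - s)⁻¹ - 1 := by
      field_simp
      ring
    linarith
  have h4 : s / (1 - s) ≤ s + 2 * s * s := by
    rw [div_le_iff₀ hs2]
    nlinarith [mul_pos hs0 hs0, mul_pos (mul_pos hs0 hs0) hs3]
  -- fourth term
  have h5 : 0 ≤ tauV2 e s / 2 * (-log (1 - 2 * s)) := by
    apply mul_nonneg (by linarith)
    have := Real.log_nonpos hs3.le (by linarith)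
    linarith
  have hloge : log (1 / e) = -log e := by rw [one_div, log_inv]
  rw [hloge]
  have e6 : p - e = (1 - 2 * e) * s := by rw [hp]; ring
  nlinarith

end Link

/-- Everything for the pair `s = 2 e (1-d) / d`. -/
theorem tail_pair {e d m : ℝ} (he0 : 0 < e) (he1 : e ≤ 1 / 10000) (hm0 : 0 ≤ m) (hd0 : 0 < d)
    (hd1 : d < 1) (hmd : m + d ≤ 1) (hO : 6 * m ^ 2 + d ^ 2 < 4) (hdL : 2 / 3 ≤ d * log (1 / e)) :
    0 < sT e d ∧ sT e d < 1 / 2 ∧ LL e m ≤ thetaV2 e (sT e d) * d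
      + (1 - tauV2 e (sT e d)) / 2 * (LL e (m + d) + LL e (m - d)) := by
  have he12 : e < 1 / 2 := by linarith
  obtain ⟨hs0, hs1⟩ := sT_small he0 he1 hd0 hd1 hdL
  have hs12 : sT e d < 1 / 2 := by linarith
  refine ⟨hs0, hs12, ?_⟩
  have hy := yT_pos hd0 hd1
  have hcore := tail_core he0 he1 hm0 hd0 hd1 hmd hO hdL
  have hTh : Th0 e d ≤ thetaV2 e (sT e d) := Th_le_theta he0 he12 hs0 hs12 hy rfl
  have htau : tauV2 e (sT e d) ≤ tau0 e d := by
    have h := (tauV2_bounds he0 he12 hs0 hs12).2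
    have e1 : e / sT e d = 1 / yT d := by
      unfold sT
      field_simp
    rw [e1] at h
    exact h
  have hA := Abar_nonneg (m := m) he0 (by linarith) hm0 hd0 hmd
  have h1 := mul_le_mul_of_nonneg_right hTh hd0.le
  have h2 := mul_le_mul_of_nonneg_right htau hA
  nlinarith

end Tail

/-- The zone `e ≤ 1/10000`, `2/3 ≤ d log (1/e)` of `(F)`, from the validity of the double-root
family. -/
theorem tail_zone (V2 : ∀ e s : ℝ, 0 < e → e < 1 / 2 → 0 < s → s < 1 / 2 →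
      ValidPair e (thetaV2 e s) (1 - tauV2 e s))
    {e d m : ℝ} (he0 : 0 < e) (he1 : e ≤ 1 / 10000) (hm0 : 0 ≤ m) (hd1 : d < 1)
    (hmd : m + d ≤ 1) (hO : 6 * m ^ 2 + d ^ 2 < 4) (hdL : 2 / 3 ≤ d * Real.log (1 / e)) :
    ∃ th v : ℝ, ValidPair e th v ∧ LL e m ≤ th * d + v / 2 * (LL e (m + d) + LL e (m - d)) := by
  have hL := Tail.L_ge he0 he1
  have hd0 : 0 < d := by
    by_contra hd
    have hd' := not_lt.mp hd
    nlinarith
  obtain ⟨h1, h2, h3⟩ := Tail.tail_pair he0 he1 hm0 hd0 hd1 hmd hO hdL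
  exact ⟨_, _, V2 e (Tail.sT e d) he0 (by linarith) h1 h2, h3⟩

end Vale.Agent.Lib.P322y
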