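import Vale.Agent.Lib.P322y.MElim

/-! The zone `d * log (1 / e) ≤ 4 / 5` of the inequality `(F)`: the family `V1` of dual pairs with
`sqrt β = (4 / 5) * log (1 / e) * d`.  Everything is elementary: by concavity in `ℓ = log (1 / e)`, it
reduces to finitely many numerical checks on cells in `m`. -/

namespace Vale.Agent.Lib.P322y

open Real Vale.Agent.Lib.P322

/-- `H u ≥ log 2 * (1 - u²)`. -/
lemma H_ge_parabola {u : ℝ} (h : |u| ≤ 1) : log 2 * (1 - u ^ 2) ≤ H u := by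
  rw [H_eq h]
  have h1 : Psi u = Psi |u| := by
    rcases abs_cases u with ⟨h2, _⟩ | ⟨h2, _⟩
    · rw [h2]
    · rw [h2, Psi_neg]
  have h2 := Psi_mul_le (ρ := |u|) (w := 1) (abs_nonneg u) h (by norm_num)
  rw [mul_one, Psi_one, sq_abs] at h2
  rw [h1]
  nlinarith

lemma H_le_parabola {u : ℝ} (h : |u| ≤ 1) : H u ≤ log 2 - u ^ 2 / 2 := by
  rw [H_eq h]
  have := half_sq_le_Psi' h
  linarith

/-- Upper bound for `Psi`. -/
lemma Psi_le_quartic {t : ℝ} (h : |t| ≤ 1) : Psi t ≤ t ^ 2 / 2 + (log 2 - 1 / 2) * t ^ 4 := by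
  have h1 := hasSum_Psi h
  have h2 := (hasSum_nat_add_iff' (f := fun k : ℕ => ee k * t ^ (2 * k + 2)) 1).mpr h1
  have h3 := (hasSum_nat_add_iff' (f := ee) 1).mpr hasSum_ee
  have h4 := h3.mul_right (t ^ 4)
  have ht2 : t ^ 2 ≤ 1 := by
    have := abs_le.mp h
    nlinarith
  have key := hasSum_le (fun k : ℕ => ?_) h2 h4
  · simp only [Finset.sum_range_one, ee] at key
    norm_num at key
    nlinarith
  · have e1 : t ^ (2 * (k + 1) + 2) = (t ^ 2) ^ k * t ^ 4 := by ring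
    rw [e1]
    have h5 : (t ^ 2) ^ k ≤ 1 := pow_le_one₀ (by positivity) ht2
    have h6 : 0 ≤ t ^ 4 := by positivity
    have h7 := ee_nonneg (k + 1)
    calc ee (k + 1) * ((t ^ 2) ^ k * t ^ 4) ≤ ee (k + 1) * (1 * t ^ 4) := by
          apply mul_le_mul_of_nonneg_left _ h7
          exact mul_le_mul_of_nonneg_right h5 h6
      _ = ee (k + 1) * t ^ 4 := by ring

/-- Lower bound of `JJ`. -/
lemma JJ_ge {y x : ℝ} (hy : |y| < 1) (hxy : |y| + |x| ≤ 1) :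
    x ^ 2 / (2 * (1 - y ^ 2)) ≤ JJ y x := by
  rw [JJ_eq_Jt, Jt_formula hxy hy]
  have hy1 := abs_lt.mp hy
  have hx1 := abs_le.mp (le_refl |x|)
  have hy2 := abs_le.mp (le_refl |y|)
  have hp : 0 < 1 + y := by linarith
  have hq : 0 < 1 - y := by linarith
  have w1 : |x / (1 + y)| ≤ 1 := by
    rw [abs_div, abs_of_pos hp, div_le_one hp]; linarith
  have w2 : |x / (1 - y)| ≤ 1 := by
    rw [abs_div, abs_of_pos hq, div_le_one hq]; linarith
  have p1 := half_sq_le_Psi' w1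
  have p2 := half_sq_le_Psi' w2
  have q1 := mul_le_mul_of_nonneg_left p1 hp.le
  have q2 := mul_le_mul_of_nonneg_left p2 hq.le
  have e1 : (1 + y) * ((x / (1 + y)) ^ 2 / 2) = x ^ 2 / (2 * (1 + y)) := by field_simp
  have e2 : (1 - y) * ((x / (1 - y)) ^ 2 / 2) = x ^ 2 / (2 * (1 - y)) := by field_simp
  rw [e1] at q1
  rw [e2] at q2
  have e3 : x ^ 2 / (2 * (1 - y ^ 2)) = (x ^ 2 / (2 * (1 + y)) + x ^ 2 / (2 * (1 - y))) / 2 := by
    have : 1 - y ^ 2 = (1 + y) * (1 - y) := by ring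
    rw [this]
    field_simp
    ring
  rw [e3]
  linarith

/-- Upper bound of `JJ`. -/
lemma JJ_le {m d : ℝ} (hm0 : 0 ≤ m) (hd0 : 0 ≤ d) (hmd : m + d ≤ 1) (hm1 : m < 1) :
    JJ m d ≤ d ^ 2 * (1 / (2 * (1 - m ^ 2))
      + (log 2 - 1 / 2) * (d ^ 2 / 2) * (1 / (1 - m) ^ 3 + 1 / (1 + m) ^ 3)) := by
  rw [JJ_eq_Jt, Jt_formula (by rw [abs_of_nonneg hm0, abs_of_nonneg hd0]; exact hmd)
    (by rw [abs_of_nonneg hm0]; exact hm1)]
  have hp : 0 < 1 + m := by linarith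
  have hq : 0 < 1 - m := by linarith
  have w1 : |d / (1 + m)| ≤ 1 := by
    rw [abs_of_nonneg (by positivity), div_le_one hp]; linarith
  have w2 : |d / (1 - m)| ≤ 1 := by
    rw [abs_of_nonneg (by positivity), div_le_one hq]; linarith
  have p1 := Psi_le_quartic w1
  have p2 := Psi_le_quartic w2
  have q1 := mul_le_mul_of_nonneg_left p1 hp.le
  have q2 := mul_le_mul_of_nonneg_left p2 hq.le
  have e1 : (1 + m) * ((d / (1 + m)) ^ 2 / 2 + (log 2 - 1 / 2) * (d / (1 + m)) ^ 4)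
      = d ^ 2 / (2 * (1 + m)) + (log 2 - 1 / 2) * d ^ 4 / (1 + m) ^ 3 := by
    field_simp
  have e2 : (1 - m) * ((d / (1 - m)) ^ 2 / 2 + (log 2 - 1 / 2) * (d / (1 - m)) ^ 4)
      = d ^ 2 / (2 * (1 - m)) + (log 2 - 1 / 2) * d ^ 4 / (1 - m) ^ 3 := by
    field_simp
  rw [e1] at q1
  rw [e2] at q2
  have e3 : d ^ 2 * (1 / (2 * (1 - m ^ 2))
      + (log 2 - 1 / 2) * (d ^ 2 / 2) * (1 / (1 - m) ^ 3 + 1 / (1 + m) ^ 3))
      = ((d ^ 2 / (2 * (1 + m)) + (log 2 - 1 / 2) * d ^ 4 / (1 + m) ^ 3)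
        + (d ^ 2 / (2 * (1 - m)) + (log 2 - 1 / 2) * d ^ 4 / (1 - m) ^ 3)) / 2 := by
    have : 1 - m ^ 2 = (1 + m) * (1 - m) := by ring
    rw [this]
    field_simp
    ring
  rw [e3]
  linarith

/-- Pointwise algebra of the `V1` certificate. -/
lemma v1_algebra {β τ x w : ℝ} (hβ0 : 0 ≤ β) (hβ1 : β ≤ 1) (hτ0 : 0 ≤ τ) (hτ : τ ^ 2 ≤ β * (1 - β))
    (hw0 : 0 < w) (hw1 : w ≤ 1) :
    τ * x ≤ x ^ 2 / (2 * w) + β / 2 * (w - x ^ 2) := by
  have hmain : 2 * w * (τ * |x|) ≤ x ^ 2 + β * w * (w - x ^ 2) := by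
    have hx2 : |x| ^ 2 = x ^ 2 := sq_abs x
    rcases eq_or_lt_of_le hβ0 with h | h
    · subst h
      have : τ = 0 := by
        have : τ ^ 2 ≤ 0 := by simpa using hτ
        nlinarith [sq_nonneg τ]
      subst this
      simp
      positivity
    · have h1 : 0 ≤ β * (x ^ 2 + β * w * (w - x ^ 2) - 2 * w * (τ * |x|)) := by
        have e : β * (x ^ 2 + β * w * (w - x ^ 2) - 2 * w * (τ * |x|))
            = (β * w - τ * |x|) ^ 2 + (β * (1 - β) - τ ^ 2) * x ^ 2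
              + β * β * x ^ 2 * (1 - w) := by
          have : (τ * |x|) ^ 2 = τ ^ 2 * x ^ 2 := by rw [mul_pow, hx2]
          nlinarith
        rw [e]
        have a1 : 0 ≤ (β * (1 - β) - τ ^ 2) * x ^ 2 :=
          mul_nonneg (by linarith) (by positivity)
        have a2 : 0 ≤ β * β * x ^ 2 * (1 - w) :=
          mul_nonneg (by positivity) (by linarith)
        nlinarith [sq_nonneg (β * w - τ * |x|)]
      have := nonneg_of_mul_nonneg_right h1 h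
      linarith
  have hx : τ * x ≤ τ * |x| := mul_le_mul_of_nonneg_left (le_abs_self x) hτ0
  have e : x ^ 2 / (2 * w) + β / 2 * (w - x ^ 2) = (x ^ 2 + β * w * (w - x ^ 2)) / (2 * w) := by
    field_simp
  rw [e, le_div_iff₀ (by positivity)]
  nlinarith

/-- The family `V1` of dual pairs: no square root is needed, only `τ² ≤ β (1 - β)`. -/
theorem V1pair_valid {e β τ : ℝ} (h0 : 0 < e) (h1 : e ≤ 1 / 2) (hβ0 : 0 ≤ β) (hβ1 : β ≤ 1)
    (hτ0 : 0 ≤ τ) (hτ : τ ^ 2 ≤ β * (1 - β)) :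
    ValidPair e (sg e * τ) (1 - β * sg e / (2 * log 2)) := by
  have hL := Real.log_two_gt_d9
  have hL0 : 0 < log 2 := by linarith
  have hsg0 : 0 ≤ sg e := sg_nonneg h0.le (by linarith)
  have hsg1 : sg e ≤ 1 := by
    unfold sg
    nlinarith [sq_nonneg (2 * e - 1)]
  have hbs : β * sg e ≤ 1 := by nlinarith
  have hbs0 : 0 ≤ β * sg e := by positivity
  refine ⟨mul_nonneg hsg0 hτ0, ?_, ?_, ?_⟩
  · have : β * sg e / (2 * log 2) ≤ 1 := by
      rw [div_le_one (by positivity)]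
      norm_num at hL
      linarith
    linarith
  · have : 0 ≤ β * sg e / (2 * log 2) := by positivity
    linarith
  · intro a b ha hb
    have ha1 := abs_le.mp ha
    have hb1 := abs_le.mp hb
    set x := (a - b) / 2 with hx
    set y := (a + b) / 2 with hy
    have ea : a = y + x := by rw [hx, hy]; ring
    have eb : b = y - x := by rw [hx, hy]; ring
    set ρ := 1 - 2 * e with hρ
    have hρ0 : 0 ≤ ρ := by rw [hρ]; linarith
    have hρ1 : ρ ≤ 1 := by rw [hρ]; linarith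
    have hρ2 : ρ ^ 2 = 1 - sg e := by rw [hρ]; unfold sg; ring
    have hxy : |y| + |x| ≤ 1 := by
      rcases abs_cases y with ⟨h2, _⟩ | ⟨h2, _⟩ <;> rcases abs_cases x with ⟨h3, _⟩ | ⟨h3, _⟩ <;>
        rw [h2, h3] <;> rw [hx, hy] <;> linarith
    have hNN : NN e a b = H y - JJ y (ρ * x) := by
      unfold NN JJ
      have e1 : (1 - e) * a + e * b = y + ρ * x := by rw [ea, eb, hρ]; ring
      have e2 : e * a + (1 - e) * b = y - ρ * x := by rw [ea, eb, hρ]; ring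
      rw [e1, e2]; ring
    have hHH : (H a + H b) / 2 = H y - JJ y x := by
      unfold JJ
      rw [ea, eb]
      have e1 : y + x = y + x := rfl
      simp only [hx, hy]
      ring_nf
    have hscale : JJ y (ρ * x) ≤ ρ ^ 2 * JJ y x := Jt_scale hxy hρ0 hρ1
    have hgain : sg e * JJ y x ≤ NN e a b - (H a + H b) / 2 := by
      rw [hNN, hHH]
      have : ρ ^ 2 * JJ y x = (1 - sg e) * JJ y x := by rw [hρ2]
      nlinarith
    have hHa := H_ge_parabola ha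
    have hHb := H_ge_parabola hb
    have hsum : log 2 * (1 - x ^ 2 - y ^ 2) ≤ (H a + H b) / 2 := by
      have : a ^ 2 + b ^ 2 = 2 * x ^ 2 + 2 * y ^ 2 := by rw [hx, hy]; ring
      nlinarith
    have hcost : β * sg e / 2 * (1 - x ^ 2 - y ^ 2)
        ≤ β * sg e / (2 * log 2) * ((H a + H b) / 2) := by
      have e1 : β * sg e / 2 * (1 - x ^ 2 - y ^ 2)
          = β * sg e / (2 * log 2) * (log 2 * (1 - x ^ 2 - y ^ 2)) := by
        field_simp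
      rw [e1]
      exact mul_le_mul_of_nonneg_left hsum (by positivity)
    -- the key inequality
    have hkey : sg e * τ * x ≤ sg e * JJ y x + β * sg e / 2 * (1 - x ^ 2 - y ^ 2) := by
      rcases lt_or_eq_of_le (show |y| ≤ 1 by linarith [abs_nonneg x]) with hy1 | hy1
      · have hJ := JJ_ge hy1 hxy
        have hw0 : 0 < 1 - y ^ 2 := by
          have h7 := abs_lt.mp hy1
          have e7 : 1 - y ^ 2 = (1 - y) * (1 + y) := by ring
          rw [e7]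
          exact mul_pos (by linarith [h7.2]) (by linarith [h7.1])
        have hw1 : 1 - y ^ 2 ≤ 1 := by linarith [sq_nonneg y]
        have := v1_algebra (x := x) hβ0 hβ1 hτ0 hτ hw0 hw1
        have h5 := mul_le_mul_of_nonneg_left this hsg0
        have h6 := mul_le_mul_of_nonneg_left hJ hsg0
        calc sg e * τ * x = sg e * (τ * x) := by ring
          _ ≤ sg e * (x ^ 2 / (2 * (1 - y ^ 2)) + β / 2 * (1 - y ^ 2 - x ^ 2)) := h5
          _ = sg e * (x ^ 2 / (2 * (1 - y ^ 2))) + β * sg e / 2 * (1 - x ^ 2 - y ^ 2) := by ring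
          _ ≤ _ := by linarith [h6]
      · have hx0 : x = 0 := by
          have : |x| ≤ 0 := by linarith
          exact abs_eq_zero.mp (le_antisymm this (abs_nonneg x))
        have hy2 : y ^ 2 = 1 := by rw [← sq_abs, hy1]; norm_num
        rw [hx0, hy2, JJ_zero_right]
        simp
    have e3 : (sg e * τ) * x + (1 - β * sg e / (2 * log 2)) / 2 * (H a + H b)
        = sg e * τ * x + (H a + H b) / 2 - β * sg e / (2 * log 2) * ((H a + H b) / 2) := by ring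
    rw [e3]
    linarith

/-! ### Numerics on `ℓ = log (1 / e)` -/

lemma log_bracket : (3.794 : ℝ) ≤ log (400 / 9) ∧ log (400 / 9) ≤ 3.795 := by
  have h1 := Real.exp_one_lt_d9
  have h2 := Real.exp_one_gt_d9
  have l1 := Real.log_two_gt_d9
  have l2 := Real.log_two_lt_d9
  have hpos : (0 : ℝ) < 25 / 18 := by norm_num
  have e0 : log (400 / 9) = 5 * log 2 + log (25 / 18) := by
    have : (400 / 9 : ℝ) = 2 ^ 5 * (25 / 18) := by norm_num
    rw [this, Real.log_mul (by norm_num) (by norm_num), Real.log_pow]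
    norm_num
  have hlo : (45 : ℝ) / 137 ≤ log (25 / 18) := by
    rw [Real.le_log_iff_exp_le hpos]
    have e1 : Real.exp (45 / 137) ^ 137 = Real.exp 1 ^ 45 := by
      rw [← Real.exp_nat_mul, ← Real.exp_nat_mul]
      norm_num
    have e2 : Real.exp 1 ^ 45 ≤ (2.7183 : ℝ) ^ 45 :=
      pow_le_pow_left₀ (Real.exp_pos 1).le (by norm_num at h1 ⊢; linarith) _
    have e3 : (2.7183 : ℝ) ^ 45 ≤ (25 / 18) ^ 137 := by norm_num
    have e4 : Real.exp (45 / 137) ^ 137 ≤ (25 / 18 : ℝ) ^ 137 := by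
      rw [e1]; exact e2.trans e3
    exact (pow_le_pow_iff_left₀ (Real.exp_pos _).le hpos.le (by norm_num)).mp e4
  have hup : log (25 / 18) ≤ (24 : ℝ) / 73 := by
    rw [Real.log_le_iff_le_exp hpos]
    have e1 : Real.exp (24 / 73) ^ 73 = Real.exp 1 ^ 24 := by
      rw [← Real.exp_nat_mul, ← Real.exp_nat_mul]
      norm_num
    have e2 : (2.7182 : ℝ) ^ 24 ≤ Real.exp 1 ^ 24 :=
      pow_le_pow_left₀ (by norm_num) (by norm_num at h2 ⊢; linarith) _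
    have e3 : (25 / 18 : ℝ) ^ 73 ≤ (2.7182 : ℝ) ^ 24 := by norm_num
    have e4 : (25 / 18 : ℝ) ^ 73 ≤ Real.exp (24 / 73) ^ 73 := by
      rw [e1]; exact e3.trans e2
    exact (pow_le_pow_iff_left₀ hpos.le (Real.exp_pos _).le (by norm_num)).mp e4
  rw [e0]
  norm_num at l1 l2 hlo hup ⊢
  constructor <;> linarith

lemma ell_facts {e : ℝ} (h0 : 0 < e) (h1 : e ≤ 9 / 400) :
    (3.794 : ℝ) ≤ log (1 / e) ∧ e * log (1 / e) ^ 2 ≤ 0.3241 ∧
      e * log (1 / e) ^ 2 * (log (1 / e) - 1.71) ≤ 0.681 := by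
  obtain ⟨hlo, hup⟩ := log_bracket
  set y := 9 / (400 * e) with hy
  have hy1 : 1 ≤ y := by
    rw [hy, one_le_div (by positivity)]; linarith
  set x := log y with hx
  have hx0 : 0 ≤ x := Real.log_nonneg hy1
  have hℓ : log (1 / e) = log (400 / 9) + x := by
    rw [hx, ← Real.log_mul (by norm_num) (by positivity)]
    congr 1
    rw [hy]; field_simp
  have hE : Real.exp x = y := Real.exp_log (by linarith)
  have heE : e * Real.exp x = 9 / 400 := by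
    rw [hE, hy]; field_simp
  have hq : 1 + x + x ^ 2 / 2 + x ^ 3 / 6 ≤ Real.exp x := by
    have := Real.sum_le_exp_of_nonneg hx0 4
    simp only [Finset.sum_range_succ, Finset.sum_range_zero, Nat.factorial] at this
    norm_num at this
    linarith
  have hE0 : 0 < Real.exp x := Real.exp_pos x
  rw [hℓ]
  set l0 := log (400 / 9) with hl0
  have hpos : 0 ≤ l0 + x := by linarith
  have hle : l0 + x ≤ 3.795 + x := by linarith
  have hsq : (l0 + x) ^ 2 ≤ (3.795 + x) ^ 2 := pow_le_pow_left₀ hpos hle 2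
  have hx2 : 0 ≤ x ^ 2 := by positivity
  have hx3 : 0 ≤ x ^ 3 := by positivity
  refine ⟨by linarith, ?_, ?_⟩
  · have key : e * (l0 + x) ^ 2 * Real.exp x ≤ 0.3241 * Real.exp x := by
      have e1 : e * (l0 + x) ^ 2 * Real.exp x = 9 / 400 * (l0 + x) ^ 2 := by
        rw [← heE]; ring
      rw [e1]
      nlinarith
    exact le_of_mul_le_mul_right key hE0
  · have key : e * (l0 + x) ^ 2 * (l0 + x - 1.71) * Real.exp x ≤ 0.681 * Real.exp x := by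
      have e1 : e * (l0 + x) ^ 2 * (l0 + x - 1.71) * Real.exp x
          = 9 / 400 * ((l0 + x) ^ 2 * (l0 + x - 1.71)) := by
        rw [← heE]; ring
      rw [e1]
      have h3 : (l0 + x) ^ 2 * (l0 + x - 1.71) ≤ (3.795 + x) ^ 2 * (2.085 + x) := by
        apply mul_le_mul hsq (by linarith) (by linarith) (by positivity)
      nlinarith
    exact le_of_mul_le_mul_right key hE0

/-- `h(e) ≤ e (ℓ + 1)`. -/
lemma hE_le_ell {e : ℝ} (h0 : 0 < e) (h1 : e < 1) : hE e ≤ e * (log (1 / e) + 1) := by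
  unfold hE H
  have e1 : (1 + (1 - 2 * e)) / 2 = 1 - e := by ring
  have e2 : (1 - (1 - 2 * e)) / 2 = e := by ring
  rw [e1, e2]
  unfold Real.negMulLog
  have hp : 0 < 1 - e := by linarith
  have h3 := Real.one_sub_inv_le_log_of_pos hp
  have h4 : (1 - e) * (1 - e)⁻¹ = 1 := by field_simp
  have h5 := mul_le_mul_of_nonneg_left h3 hp.le
  have h6 : log (1 / e) = - log e := by rw [one_div, Real.log_inv]
  rw [h6]
  nlinarith

/-! ### The concavity step and the numerical cells -/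

lemma cubic_chord {α γ C s0 s1 s : ℝ} (hγ : 0 ≤ γ) (hs00 : 0 ≤ s0) (hs0 : s0 ≤ s) (hs1 : s ≤ s1)
    (h0 : 0 ≤ α * s0 - γ * s0 ^ 3 - C) (h1 : 0 ≤ α * s1 - γ * s1 ^ 3 - C) :
    0 ≤ α * s - γ * s ^ 3 - C := by
  rcases eq_or_lt_of_le (hs0.trans hs1) with h | h
  · have : s = s0 := by linarith
    rw [this]; exact h0
  · have hpos : 0 < s1 - s0 := by linarith
    have e : (s1 - s0) * (α * s - γ * s ^ 3 - C)
        = (s1 - s) * (α * s0 - γ * s0 ^ 3 - C) + (s - s0) * (α * s1 - γ * s1 ^ 3 - C)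
          + γ * ((s - s0) * (s1 - s) * (s1 - s0) * (s + s0 + s1)) := by ring
    have a1 : 0 ≤ (s1 - s) * (α * s0 - γ * s0 ^ 3 - C) := mul_nonneg (by linarith) h0
    have a2 : 0 ≤ (s - s0) * (α * s1 - γ * s1 ^ 3 - C) := mul_nonneg (by linarith) h1
    have a3 : 0 ≤ γ * ((s - s0) * (s1 - s) * (s1 - s0) * (s + s0 + s1)) := by
      apply mul_nonneg hγ
      apply mul_nonneg (mul_nonneg (mul_nonneg (by linarith) (by linarith)) (by linarith))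
      linarith
    have : 0 ≤ (s1 - s0) * (α * s - γ * s ^ 3 - C) := by rw [e]; linarith
    exact nonneg_of_mul_nonneg_right this hpos

/-- One numerical cell. -/
lemma cell_check {m d m1 m2 dc : ℝ} (hm10 : 0 ≤ m1) (hm1 : m1 ≤ m) (hm2 : m ≤ m2) (hm21 : m2 < 1)
    (hd0 : 0 < d) (hdc : d ≤ dc)
    (hA : 0 ≤ 1.5886 + 1.7926 * m1 ^ 2 - 0.1067 * m2 ^ 4 - 15.4605 * dc ^ 2 - 1 / (2 * (1 - m2 ^ 2))
      - 0.0966 * dc ^ 2 * (1 / (1 - m2) ^ 3 + 1 / (1 + m1) ^ 3))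
    (hB : 0 ≤ 0.2177 + 0.4092 * m1 ^ 2 - dc * (0.1528 + 0.1481 * m2 ^ 2 + 0.1067 * m2 ^ 4
      + 1 / (2 * (1 - m2 ^ 2)) + 0.0966 * dc ^ 2 * (1 / (1 - m2) ^ 3 + 1 / (1 + m1) ^ 3))) :
    0 ≤ 1.5886 + 1.7926 * m ^ 2 - 0.1067 * m ^ 4 - 15.4605 * d ^ 2 - 1 / (2 * (1 - m ^ 2))
      - 0.0966 * d ^ 2 * (1 / (1 - m) ^ 3 + 1 / (1 + m) ^ 3) ∧
    0 ≤ 0.2177 + 0.4092 * m ^ 2 - d * (0.1528 + 0.1481 * m ^ 2 + 0.1067 * m ^ 4
      + 1 / (2 * (1 - m ^ 2)) + 0.0966 * d ^ 2 * (1 / (1 - m) ^ 3 + 1 / (1 + m) ^ 3)) := by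
  have hm0 : 0 ≤ m := hm10.trans hm1
  have hm20 : 0 ≤ m2 := hm0.trans hm2
  have sq1 : m1 ^ 2 ≤ m ^ 2 := pow_le_pow_left₀ hm10 hm1 2
  have sq2 : m ^ 2 ≤ m2 ^ 2 := pow_le_pow_left₀ hm0 hm2 2
  have qu2 : m ^ 4 ≤ m2 ^ 4 := pow_le_pow_left₀ hm0 hm2 4
  have hdsq : d ^ 2 ≤ dc ^ 2 := pow_le_pow_left₀ hd0.le hdc 2
  have hm2sq : 0 < 1 - m2 ^ 2 := by nlinarith
  have hmsq : 0 < 1 - m ^ 2 := by linarith
  have hQ : 1 / (2 * (1 - m ^ 2)) ≤ 1 / (2 * (1 - m2 ^ 2)) :=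
    one_div_le_one_div_of_le (by positivity) (by linarith)
  have hp1 : 0 < 1 - m2 := by linarith
  have hp2 : 0 < 1 - m := by linarith
  have hT1 : 1 / (1 - m) ^ 3 ≤ 1 / (1 - m2) ^ 3 :=
    one_div_le_one_div_of_le (by positivity) (pow_le_pow_left₀ hp1.le (by linarith) 3)
  have hT2 : 1 / (1 + m) ^ 3 ≤ 1 / (1 + m1) ^ 3 :=
    one_div_le_one_div_of_le (by positivity) (pow_le_pow_left₀ (by linarith) (by linarith) 3)
  set T := 1 / (1 - m) ^ 3 + 1 / (1 + m) ^ 3 with hT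
  set T2 := 1 / (1 - m2) ^ 3 + 1 / (1 + m1) ^ 3 with hT2'
  have hT0 : 0 ≤ T := by rw [hT]; positivity
  have hTT : T ≤ T2 := by rw [hT, hT2']; linarith
  have hDT : d ^ 2 * T ≤ dc ^ 2 * T2 := mul_le_mul hdsq hTT hT0 (by positivity)
  set Q := 1 / (2 * (1 - m ^ 2)) with hQd
  set Q2 := 1 / (2 * (1 - m2 ^ 2)) with hQ2d
  have hQ0 : 0 ≤ Q := by rw [hQd]; positivity
  have hm2' : 0 ≤ m ^ 2 := by positivity
  have hm4' : 0 ≤ m ^ 4 := by positivity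
  have hDT0 : 0 ≤ d ^ 2 * T := by positivity
  constructor
  · linarith
  · have hS : 0.1528 + 0.1481 * m ^ 2 + 0.1067 * m ^ 4 + Q + 0.0966 * d ^ 2 * T
        ≤ 0.1528 + 0.1481 * m2 ^ 2 + 0.1067 * m2 ^ 4 + Q2 + 0.0966 * dc ^ 2 * T2 := by linarith
    have hS0 : 0 ≤ 0.1528 + 0.1481 * m ^ 2 + 0.1067 * m ^ 4 + Q + 0.0966 * d ^ 2 * T := by
      linarith
    have hmul := mul_le_mul hdc hS hS0 (hd0.le.trans hdc)
    linarith

/-- All numerical cells. -/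
lemma cells_all {m d : ℝ} (hm0 : 0 ≤ m) (hm1 : m < 0.8165) (hd0 : 0 < d) (hd1 : d ≤ 0.2109)
    (hmd : m + d ≤ 1) :
    0 ≤ 1.5886 + 1.7926 * m ^ 2 - 0.1067 * m ^ 4 - 15.4605 * d ^ 2 - 1 / (2 * (1 - m ^ 2))
      - 0.0966 * d ^ 2 * (1 / (1 - m) ^ 3 + 1 / (1 + m) ^ 3) ∧
    0 ≤ 0.2177 + 0.4092 * m ^ 2 - d * (0.1528 + 0.1481 * m ^ 2 + 0.1067 * m ^ 4
      + 1 / (2 * (1 - m ^ 2)) + 0.0966 * d ^ 2 * (1 / (1 - m) ^ 3 + 1 / (1 + m) ^ 3)) := by
  rcases le_total m 0.568 with h1 | h1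
  · exact cell_check (m1 := 0) (m2 := 0.568) (dc := 0.2109) le_rfl hm0 h1 (by norm_num) hd0 hd1
      (by norm_num) (by norm_num)
  rcases le_total m 0.742 with h2 | h2
  · exact cell_check (m1 := 0.568) (m2 := 0.742) (dc := 0.2109) (by norm_num) h1 h2 (by norm_num)
      hd0 hd1 (by norm_num) (by norm_num)
  rcases le_total m 0.789 with h3 | h3
  · exact cell_check (m1 := 0.742) (m2 := 0.789) (dc := 0.2109) (by norm_num) h2 h3 (by norm_num)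
      hd0 hd1 (by norm_num) (by norm_num)
  rcases le_total m 0.799 with h4 | h4
  · exact cell_check (m1 := 0.789) (m2 := 0.799) (dc := 0.2109) (by norm_num) h3 h4 (by norm_num)
      hd0 hd1 (by norm_num) (by norm_num)
  rcases le_total m 0.811 with h5 | h5
  · exact cell_check (m1 := 0.799) (m2 := 0.811) (dc := 0.201) (by norm_num) h4 h5 (by norm_num)
      hd0 (by linarith) (by norm_num) (by norm_num)
  rcases le_total m 0.816 with h6 | h6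
  · exact cell_check (m1 := 0.811) (m2 := 0.816) (dc := 0.189) (by norm_num) h5 h6 (by norm_num)
      hd0 (by linarith) (by norm_num) (by norm_num)
  · exact cell_check (m1 := 0.816) (m2 := 0.8165) (dc := 0.184) (by norm_num) h6 hm1.le (by norm_num)
      hd0 (by linarith) (by norm_num) (by norm_num)

/-- Left endpoint `ℓ = 3.794`. -/
lemma endpoint_A {m d L2 Q T : ℝ} (hL1 : 0.6931 ≤ L2) (hL2 : L2 ≤ 0.6932)
    (hK0 : 0 ≤ (4 - 6 * m ^ 2 - d ^ 2) / 3) (hT0 : 0 ≤ T)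
    (hA : 0 ≤ 1.5886 + 1.7926 * m ^ 2 - 0.1067 * m ^ 4 - 15.4605 * d ^ 2 - Q
      - 0.0966 * d ^ 2 * T) :
    0 ≤ (4 / 5 - 100 / 391 * ((4 - 6 * m ^ 2 - d ^ 2) / 3)) * 3.794
      - 57 / 100 * (64 / 125) * 3.794 ^ 3 * d ^ 2
      - (3 / 5 * (L2 - (m ^ 2 + d ^ 2) / 2)
        + 8 / 25 * (1 - 4 / 3 * m ^ 2 + 1 / 3 * m ^ 4 - d ^ 2 * ((4 - 6 * m ^ 2 - d ^ 2) / 3))
        + (Q + (L2 - 1 / 2) * (d ^ 2 / 2) * T) + (100 / 391 - L2) * ((4 - 6 * m ^ 2 - d ^ 2) / 3)) := by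
  have h_a := mul_nonneg (sub_nonneg.mpr hL1) hK0
  have h_b : 0 ≤ (0.6932 - L2) * (d ^ 2 * T) :=
    mul_nonneg (by linarith) (by positivity)
  have h_c : 0 ≤ d ^ 2 * ((4 - 6 * m ^ 2 - d ^ 2) / 3) := mul_nonneg (by positivity) hK0
  have h_d : 0 ≤ d ^ 2 := by positivity
  have h_e : 0 ≤ m ^ 2 := by positivity
  have h_f : 0 ≤ m ^ 4 := by positivity
  linarith

/-- The bound of the constant term at the right endpoint. -/
lemma endpoint_R {m d L2 Q T : ℝ} (hL1 : 0.6931 ≤ L2) (hL2 : L2 ≤ 0.6932)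
    (hK0 : 0 ≤ (4 - 6 * m ^ 2 - d ^ 2) / 3) (hT0 : 0 ≤ T) :
    3 / 5 * (L2 - (m ^ 2 + d ^ 2) / 2)
        + 8 / 25 * (1 - 4 / 3 * m ^ 2 + 1 / 3 * m ^ 4 - d ^ 2 * ((4 - 6 * m ^ 2 - d ^ 2) / 3))
        + (Q + (L2 - 1 / 2) * (d ^ 2 / 2) * T) + (100 / 391 - L2) * ((4 - 6 * m ^ 2 - d ^ 2) / 3)
      ≤ 0.1528 + 0.1481 * m ^ 2 + 0.1067 * m ^ 4 + Q + 0.0966 * d ^ 2 * T := by
  have h_a := mul_nonneg (sub_nonneg.mpr hL1) hK0
  have h_b : 0 ≤ (0.6932 - L2) * (d ^ 2 * T) :=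
    mul_nonneg (by linarith) (by positivity)
  have h_c : 0 ≤ d ^ 2 * ((4 - 6 * m ^ 2 - d ^ 2) / 3) := mul_nonneg (by positivity) hK0
  have h_d : 0 ≤ d ^ 2 := by positivity
  have h_e : 0 ≤ m ^ 2 := by positivity
  have h_f : 0 ≤ m ^ 4 := by positivity
  linarith

/-- The reduced inequality: concavity in `ℓ`, then the numerical cells. -/
lemma core_ineq {ℓ m d L2 : ℝ} (hL1 : 0.6931 ≤ L2) (hL2 : L2 ≤ 0.6932) (hℓ0 : 3.794 ≤ ℓ)
    (hℓd : d * ℓ ≤ 4 / 5) (hd0 : 0 < d) (hm0 : 0 ≤ m) (hmd : m + d ≤ 1)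
    (hz : 6 * m ^ 2 + d ^ 2 < 4) :
    0 ≤ 4 / 5 * ℓ * (1 - 57 / 100 * (4 / 5 * ℓ * d) ^ 2)
      - (3 / 5 * (L2 - (m ^ 2 + d ^ 2) / 2)
        + 8 / 25 * (gt m - d ^ 2 * ((4 - 6 * m ^ 2 - d ^ 2) / 3)))
      - (1 / (2 * (1 - m ^ 2)) + (L2 - 1 / 2) * (d ^ 2 / 2) * (1 / (1 - m) ^ 3 + 1 / (1 + m) ^ 3))
      - (100 / 391 * (ℓ + 1) - L2) * ((4 - 6 * m ^ 2 - d ^ 2) / 3) := by
  have hd1 : d ≤ 0.2109 := by
    have : d * 3.794 ≤ d * ℓ := mul_le_mul_of_nonneg_left hℓ0 hd0.le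
    norm_num at this hℓd ⊢
    linarith
  have hm1 : m < 0.8165 := by
    by_contra h
    have h' : 0.8165 ≤ m := not_lt.mp h
    have : (0.8165 : ℝ) ^ 2 ≤ m ^ 2 := pow_le_pow_left₀ (by norm_num) h' 2
    norm_num at this
    nlinarith [sq_nonneg d]
  obtain ⟨hA, hB⟩ := cells_all hm0 hm1 hd0 hd1 hmd
  have hm11 : m < 1 := by linarith
  have hp1 : 0 < 1 - m := by linarith
  have hp2 : 0 < 1 + m := by linarith
  generalize hT : 1 / (1 - m) ^ 3 + 1 / (1 + m) ^ 3 = T at hA hB ⊢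
  have hT0 : 0 ≤ T := by rw [← hT]; positivity
  generalize hQ : 1 / (2 * (1 - m ^ 2)) = Q at hA hB ⊢
  have hK0 : 0 ≤ (4 - 6 * m ^ 2 - d ^ 2) / 3 := by linarith
  have hgt : gt m = 1 - 4 / 3 * m ^ 2 + 1 / 3 * m ^ 4 := rfl
  rw [hgt]
  have hA' := endpoint_A (Q := Q) (T := T) hL1 hL2 hK0 hT0 hA
  have hR' := endpoint_R (d := d) (Q := Q) hL1 hL2 hK0 hT0
  generalize hK : (4 - 6 * m ^ 2 - d ^ 2) / 3 = K at hA' hR' hK0 ⊢
  have hKe : K = (4 - 6 * m ^ 2 - d ^ 2) / 3 := hK.symm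
  generalize hR : 3 / 5 * (L2 - (m ^ 2 + d ^ 2) / 2)
        + 8 / 25 * (1 - 4 / 3 * m ^ 2 + 1 / 3 * m ^ 4 - d ^ 2 * K)
        + (Q + (L2 - 1 / 2) * (d ^ 2 / 2) * T) + (100 / 391 - L2) * K = R at hA' hR'
  -- left endpoint
  have h0 : 0 ≤ (4 / 5 - 100 / 391 * K) * (3.794 * d)
      - (57 / 100 * (64 / 125)) * (3.794 * d) ^ 3 - d * R := by
    have e : (4 / 5 - 100 / 391 * K) * (3.794 * d)
        - (57 / 100 * (64 / 125)) * (3.794 * d) ^ 3 - d * R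
        = d * ((4 / 5 - 100 / 391 * K) * 3.794 - 57 / 100 * (64 / 125) * 3.794 ^ 3 * d ^ 2 - R) := by
      ring
    rw [e]
    exact mul_nonneg hd0.le hA'
  -- right endpoint
  have h1 : 0 ≤ (4 / 5 - 100 / 391 * K) * (4 / 5) - (57 / 100 * (64 / 125)) * (4 / 5) ^ 3 - d * R := by
    have hmul := mul_le_mul_of_nonneg_left hR' hd0.le
    have hαb : 0.2177 + 0.4092 * m ^ 2
        ≤ (4 / 5 - 100 / 391 * K) * (4 / 5) - (57 / 100 * (64 / 125)) * (4 / 5) ^ 3 := by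
      rw [hKe]
      have h_d : 0 ≤ d ^ 2 := by positivity
      have h_e : 0 ≤ m ^ 2 := by positivity
      norm_num
      linarith
    linarith
  have hmain := cubic_chord (α := 4 / 5 - 100 / 391 * K) (γ := 57 / 100 * (64 / 125)) (C := d * R)
    (s0 := 3.794 * d) (s1 := 4 / 5) (s := d * ℓ) (by norm_num) (by positivity)
    (by rw [mul_comm d ℓ]; exact mul_le_mul_of_nonneg_right hℓ0 hd0.le) hℓd h0 h1
  have e : (4 / 5 - 100 / 391 * K) * (d * ℓ) - (57 / 100 * (64 / 125)) * (d * ℓ) ^ 3 - d * R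
      = d * (4 / 5 * ℓ * (1 - 57 / 100 * (4 / 5 * ℓ * d) ^ 2)
        - (3 / 5 * (L2 - (m ^ 2 + d ^ 2) / 2) + 8 / 25 * (1 - 4 / 3 * m ^ 2 + 1 / 3 * m ^ 4 - d ^ 2 * K))
        - (Q + (L2 - 1 / 2) * (d ^ 2 / 2) * T)
        - (100 / 391 * (ℓ + 1) - L2) * K) := by
    rw [← hR]; ring
  rw [e] at hmain
  exact nonneg_of_mul_nonneg_right hmain hd0

/-- The constants `κ` and `σ²` against `ℓ`. -/
lemma v1_constants {e ℓ : ℝ} (he0 : 0 < e) (he1 : e ≤ 9 / 400) (hℓ0 : 3.794 ≤ ℓ)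
    (hU : e * ℓ ^ 2 ≤ 0.3241) (hW : e * ℓ ^ 2 * (ℓ - 1.71) ≤ 0.681) (hhE : hE e ≤ e * (ℓ + 1))
    (hL1 : (0.6931 : ℝ) ≤ log 2) :
    ka e ≤ sg e * (100 / 391 * (ℓ + 1) - log 2) ∧ ka e * ℓ ^ 2 ≤ 0.681 ∧
      sg e * ℓ ^ 2 ≤ 1.2964 := by
  have hσ0 : 0 < sg e := by
    unfold sg
    have : 0 < 1 - e := by linarith
    positivity
  have hσ1 : 3.91 * e ≤ sg e := by
    unfold sg
    nlinarith
  have hσ2 : sg e ≤ 4 * e := by
    unfold sg
    nlinarith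
  have hℓ2 : 0 ≤ ℓ ^ 2 := by positivity
  refine ⟨?_, ?_, ?_⟩
  · unfold ka
    have h1 : e * (ℓ + 1) ≤ sg e * (100 / 391) * (ℓ + 1) := by
      apply mul_le_mul_of_nonneg_right _ (by linarith)
      norm_num at hσ1 ⊢
      linarith
    linarith
  · have h1 : ka e ≤ e * (ℓ - 1.71) := by
      unfold ka
      have h2 : 3.91 * e * 0.6931 ≤ sg e * log 2 :=
        mul_le_mul hσ1 hL1 (by norm_num) hσ0.le
      norm_num at h2 ⊢
      linarith
    have h3 := mul_le_mul_of_nonneg_right h1 hℓ2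
    linarith
  · have h3 := mul_le_mul_of_nonneg_right hσ2 hℓ2
    linarith

/-- The parameters of the pair. -/
lemma v1_params {ℓ d : ℝ} (hℓ : 0 < ℓ) (hd0 : 0 < d) (hdl : d * ℓ ≤ 4 / 5) :
    let u := 4 / 5 * ℓ * d
    let b := u ^ 2
    let τ := u * (1 - 57 / 100 * b)
    0 ≤ b ∧ b ≤ 1 ∧ 0 ≤ τ ∧ τ ^ 2 ≤ b * (1 - b) := by
  intro u b τ
  have hu0 : 0 ≤ u := by positivity
  have hu1 : u ≤ 16 / 25 := by
    have : u = 4 / 5 * (d * ℓ) := by simp only [u]; ring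
    rw [this]; linarith
  have hb0 : 0 ≤ b := by positivity
  have hb1 : b ≤ 0.4096 := by
    have : u ^ 2 ≤ (16 / 25) ^ 2 := pow_le_pow_left₀ hu0 hu1 2
    simp only [b]
    norm_num at this ⊢
    linarith
  norm_num at hb1
  have hτ0 : 0 ≤ τ := by
    apply mul_nonneg hu0
    linarith
  refine ⟨hb0, by linarith, hτ0, ?_⟩
  have e1 : τ ^ 2 = b * (1 - 57 / 100 * b) ^ 2 := by simp only [τ, b]; ring
  rw [e1]
  apply mul_le_mul_of_nonneg_left _ hb0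
  nlinarith

/-- The pure algebra of the last step. -/
lemma v1_final_algebra {σ κ L2 d K Hb Gb J Jb W b Z τ A aK : ℝ} (hσ : 0 ≤ σ)
    (hτd : τ * d = d ^ 2 * A) (hbZ : b / (2 * L2) = d ^ 2 * Z)
    (c1 : J ≤ d ^ 2 * Jb) (c2 : κ * (d ^ 2 * K) ≤ σ * d ^ 2 * aK)
    (c3 : Z * (σ * Hb + κ * Gb) ≤ W) (c4 : 0 ≤ A - W - Jb - aK) :
    σ * (Hb + J) + κ * (Gb + d ^ 2 * K)
      ≤ (σ * τ) * d + (1 - b * σ / (2 * L2)) / 2 * (2 * (σ * Hb + κ * Gb)) := by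
  have hd2 : 0 ≤ d ^ 2 := by positivity
  have hs : 0 ≤ σ * d ^ 2 := by positivity
  generalize hX : σ * Hb + κ * Gb = X at c3 ⊢
  have c1' := mul_le_mul_of_nonneg_left c1 hσ
  have c3' := mul_le_mul_of_nonneg_left c3 hs
  have c4' := mul_nonneg hs c4
  have e2 : (σ * τ) * d + (1 - b * σ / (2 * L2)) / 2 * (2 * X)
      = σ * (τ * d) + X - σ * (b / (2 * L2)) * X := by ring
  rw [e2, hbZ, hτd]
  have e3 : σ * (Hb + J) + κ * (Gb + d ^ 2 * K) = X + σ * J + κ * (d ^ 2 * K) := by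
    rw [← hX]; ring
  rw [e3]
  have e4 : σ * (d ^ 2 * Z) * X = σ * d ^ 2 * (Z * X) := by ring
  have e5 : σ * (d ^ 2 * A) = σ * d ^ 2 * A := by ring
  have e6 : σ * d ^ 2 * (A - W - Jb - aK)
      = σ * d ^ 2 * A - σ * d ^ 2 * W - σ * (d ^ 2 * Jb) - σ * d ^ 2 * aK := by ring
  rw [e4, e5]
  rw [e6] at c4'
  linarith

lemma v1_W {Z σ κ Hb Gb Hu : ℝ} (hZσ : Z * σ ≤ 3 / 5) (hZκ : Z * κ ≤ 8 / 25) (hHb0 : 0 ≤ Hb)
    (hGb0 : 0 ≤ Gb) (hHb1 : Hb ≤ Hu) :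
    Z * (σ * Hb + κ * Gb) ≤ 3 / 5 * Hu + 8 / 25 * Gb := by
  have h1 := mul_le_mul_of_nonneg_right hZσ hHb0
  have h2 := mul_le_mul_of_nonneg_right hZκ hGb0
  have e : Z * (σ * Hb + κ * Gb) = Z * σ * Hb + Z * κ * Gb := by ring
  rw [e]
  linarith

/-- **The zone `V1` of `(F)`.** -/
theorem zoneV1 {e m d : ℝ} (he0 : 0 < e) (he1 : e ≤ 9 / 400) (hm0 : 0 ≤ m) (hd0 : 0 < d)
    (hmd : m + d ≤ 1) (hz : 6 * m ^ 2 + d ^ 2 < 4) (hdl : d * log (1 / e) ≤ 4 / 5) :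
    ∃ th v : ℝ, ValidPair e th v ∧ LL e m ≤ th * d + v / 2 * (LL e (m + d) + LL e (m - d)) := by
  obtain ⟨hℓ0, hU, hW⟩ := ell_facts he0 he1
  have hhE := hE_le_ell he0 (by linarith : e < 1)
  generalize log (1 / e) = ℓ at hℓ0 hU hW hhE hdl
  have hlog1 := Real.log_two_gt_d9
  have hlog2 := Real.log_two_lt_d9
  have hL1 : (0.6931 : ℝ) ≤ log 2 := by norm_num at hlog1 ⊢; linarith
  have hL2 : log 2 ≤ (0.6932 : ℝ) := by norm_num at hlog2 ⊢; linarith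
  have hL0 : 0 < log 2 := by linarith
  have hm1 : m < 1 := by linarith
  have hσ0 : 0 < sg e := by
    unfold sg
    have : 0 < 1 - e := by linarith
    positivity
  obtain ⟨hκ1, hκ2, hσℓ⟩ := v1_constants he0 he1 hℓ0 hU hW hhE hL1
  have hℓpos : 0 < ℓ := by linarith
  obtain ⟨hb0, hb1, hτ0, hτ2⟩ := v1_params hℓpos hd0 hdl
  refine ⟨sg e * ((4 / 5 * ℓ * d) * (1 - 57 / 100 * (4 / 5 * ℓ * d) ^ 2)),
    1 - (4 / 5 * ℓ * d) ^ 2 * sg e / (2 * log 2),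
    V1pair_valid he0 (by linarith) hb0 hb1 hτ0 hτ2, ?_⟩
  -- expansions
  have hK0 : 0 ≤ (4 - 6 * m ^ 2 - d ^ 2) / 3 := by linarith
  have hGb : (gt (m + d) + gt (m - d)) / 2 = gt m - d ^ 2 * ((4 - 6 * m ^ 2 - d ^ 2) / 3) := by
    unfold gt; ring
  have hJ : H m = (H (m + d) + H (m - d)) / 2 + JJ m d := by unfold JJ; ring
  have hSum : LL e (m + d) + LL e (m - d)
      = 2 * (sg e * ((H (m + d) + H (m - d)) / 2) + ka e * ((gt (m + d) + gt (m - d)) / 2)) := by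
    unfold LL; ring
  have hLm : LL e m = sg e * ((H (m + d) + H (m - d)) / 2 + JJ m d)
      + ka e * ((gt (m + d) + gt (m - d)) / 2 + d ^ 2 * ((4 - 6 * m ^ 2 - d ^ 2) / 3)) := by
    unfold LL
    rw [← hJ, hGb]; ring
  have a1 : |m + d| ≤ 1 := by rw [abs_le]; constructor <;> linarith
  have a2 : |m - d| ≤ 1 := by rw [abs_le]; constructor <;> linarith
  have hHb0 : 0 ≤ (H (m + d) + H (m - d)) / 2 := by
    have := H_nonneg a1
    have := H_nonneg a2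
    linarith
  have hGb0 : 0 ≤ (gt (m + d) + gt (m - d)) / 2 := by
    have := gt_nonneg a1
    have := gt_nonneg a2
    linarith
  have hHb1 : (H (m + d) + H (m - d)) / 2 ≤ log 2 - (m ^ 2 + d ^ 2) / 2 := by
    have h1 := H_le_parabola a1
    have h2 := H_le_parabola a2
    nlinarith
  have hJb := JJ_le hm0 hd0.le hmd hm1
  have hcore := core_ineq hL1 hL2 hℓ0 hdl hd0 hm0 hmd hz
  rw [hLm, hSum]
  -- the constants
  have hZ0 : 0 ≤ 16 / 25 * ℓ ^ 2 / (2 * log 2) := by positivity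
  have hZσ : 16 / 25 * ℓ ^ 2 / (2 * log 2) * sg e ≤ 3 / 5 := by
    have e1 : 16 / 25 * ℓ ^ 2 / (2 * log 2) * sg e = 16 / 25 * (sg e * ℓ ^ 2) / (2 * log 2) := by ring
    rw [e1, div_le_iff₀ (by positivity)]
    norm_num at hσℓ hL1 ⊢
    linarith
  have hZκ : 16 / 25 * ℓ ^ 2 / (2 * log 2) * ka e ≤ 8 / 25 := by
    have e1 : 16 / 25 * ℓ ^ 2 / (2 * log 2) * ka e = 16 / 25 * (ka e * ℓ ^ 2) / (2 * log 2) := by ring
    rw [e1, div_le_iff₀ (by positivity)]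
    norm_num at hκ2 hL1 ⊢
    linarith
  have hW1 : 16 / 25 * ℓ ^ 2 / (2 * log 2) * (sg e * ((H (m + d) + H (m - d)) / 2)
        + ka e * ((gt (m + d) + gt (m - d)) / 2))
      ≤ 3 / 5 * (log 2 - (m ^ 2 + d ^ 2) / 2)
        + 8 / 25 * (gt m - d ^ 2 * ((4 - 6 * m ^ 2 - d ^ 2) / 3)) := by
    rw [← hGb]
    exact v1_W hZσ hZκ hHb0 hGb0 hHb1
  have c2 : ka e * (d ^ 2 * ((4 - 6 * m ^ 2 - d ^ 2) / 3))
      ≤ sg e * d ^ 2 * ((100 / 391 * (ℓ + 1) - log 2) * ((4 - 6 * m ^ 2 - d ^ 2) / 3)) := by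
    have := mul_le_mul_of_nonneg_right hκ1 (mul_nonneg (sq_nonneg d) hK0)
    linarith [this]
  refine v1_final_algebra (A := 4 / 5 * ℓ * (1 - 57 / 100 * (4 / 5 * ℓ * d) ^ 2)) hσ0.le ?_ ?_ hJb c2
    hW1 hcore
  · ring
  · field_simp
    norm_num

end Vale.Agent.Lib.P322y
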