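import Vale.Agent.Lib.P322y.Valid
import Vale.Agent.Lib.P322y.ZoneV1
import Vale.Agent.Lib.P322y.Tail
import Vale.Agent.Lib.P322y.Corner

/-! The inequality `(F)` and the Courtade-Kumar inequality at very low noise `ε ≤ 1/10000`. -/

namespace Vale.Agent.Lib.P322y

open Vale.Agent.Lib.P311 Vale.Agent.Lib.P322

variable {n : ℕ}

/-- The inequality at `d = 0`. -/
lemma cert_d_zero {e m : ℝ} (h0 : 0 < e) (h1 : e ≤ 1 / 2) :
    ∃ th v : ℝ, ValidPair e th v ∧
      LL e m ≤ th * (0 : ℝ) + v / 2 * (LL e (m + 0) + LL e (m - 0)) := by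
  refine ⟨0, 1 - 0 ^ 2 / (sg e * Real.log 2), V1_simple h0 h1 le_rfl ?_, ?_⟩
  · have := sg_pos h0 (by linarith)
    linarith
  · simp
    linarith

/-- The inequality `(F)` at very low noise. -/
theorem FcertAt_low {e : ℝ} (h0 : 0 < e) (h1 : e ≤ 1 / 10000) : FcertAt e := by
  intro m d hm hd hmd hO
  rcases eq_or_lt_of_le hd with hd0 | hd0
  · rw [← hd0]
    exact cert_d_zero h0 (by linarith)
  by_cases hdl : d * Real.log (1 / e) ≤ 4 / 5
  · exact zoneV1 h0 (by linarith) hm hd0 hmd hO hdl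
  push Not at hdl
  rcases lt_or_eq_of_le (show d ≤ 1 by linarith) with hd1 | hd1
  · exact tail_zone (fun e s he0 he1 hs0 hs1 => V2_valid he0 he1 hs0 hs1) h0 h1 hm hd1 hmd hO
      (by linarith)
  · exact zoneCorner (fun e s he0 he1 hs0 hs1 => V2_valid he0 he1 hs0 hs1) h0 (by linarith) hm
      (by linarith) hmd

/-- The Courtade-Kumar inequality at very low noise, for every Boolean function. -/
theorem ck_low (f : (Fin n → Bool) → Bool) {ε : ℝ} (h0 : 0 ≤ ε) (h1 : ε ≤ 1 / 10000) :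
    mutualInfo f ε ≤ 1 - h2 ε :=
  ck_of_FcertAt f (fun h => FcertAt_low h h1) h0 (by linarith)

end Vale.Agent.Lib.P322y
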