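import Vale.Agent.Lib.P322y.MElim

/-! Real inequalities on a cell of the numeric zone of `(F)`: concavity in `d` and polynomial
minorants. -/

set_option linter.unusedVariables false
set_option linter.unusedSectionVars false

namespace Vale.Agent.Lib.P322y

/-- Concavity of `H`. -/
lemma H_chord {u0 u1 w : ℝ} (h0 : |u0| ≤ 1) (h1 : |u1| ≤ 1) (hw0 : 0 ≤ w) (hw1 : w ≤ 1) :
    (1 - w) * H u0 + w * H u1 ≤ H ((1 - w) * u0 + w * u1) := by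
  have a0 := abs_le.mp h0
  have a1 := abs_le.mp h1
  have hc := Real.concaveOn_negMulLog
  have hw' : 0 ≤ 1 - w := by linarith
  have hs : (1 - w) + w = 1 := by ring
  have c1 := hc.2 (x := (1 + u0) / 2) (y := (1 + u1) / 2) (Set.mem_Ici.mpr (by linarith))
    (Set.mem_Ici.mpr (by linarith)) hw' hw0 hs
  have c2 := hc.2 (x := (1 - u0) / 2) (y := (1 - u1) / 2) (Set.mem_Ici.mpr (by linarith))
    (Set.mem_Ici.mpr (by linarith)) hw' hw0 hs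
  simp only [smul_eq_mul] at c1 c2
  have e1 : (1 - w) * ((1 + u0) / 2) + w * ((1 + u1) / 2) = (1 + ((1 - w) * u0 + w * u1)) / 2 := by
    ring
  have e2 : (1 - w) * ((1 - u0) / 2) + w * ((1 - u1) / 2) = (1 - ((1 - w) * u0 + w * u1)) / 2 := by
    ring
  rw [e1] at c1
  rw [e2] at c2
  unfold H
  linarith

/-- A function `A + B d + W H(α + β d)` is nonnegative on an interval if it is at the ends. -/
lemma affine_H_nonneg {A B W α β d0 d1 d : ℝ} (hW : 0 ≤ W) (h01 : d0 < d1) (hd0 : d0 ≤ d)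
    (hd1 : d ≤ d1) (hu0 : |α + β * d0| ≤ 1) (hu1 : |α + β * d1| ≤ 1)
    (h0 : 0 ≤ A + B * d0 + W * H (α + β * d0)) (h1 : 0 ≤ A + B * d1 + W * H (α + β * d1)) :
    0 ≤ A + B * d + W * H (α + β * d) := by
  have hl : 0 < d1 - d0 := by linarith
  set w := (d - d0) / (d1 - d0) with hw
  have hw0 : 0 ≤ w := div_nonneg (by linarith) hl.le
  have hw1 : w ≤ 1 := by rw [hw, div_le_one hl]; linarith
  have hd : d = (1 - w) * d0 + w * d1 := by rw [hw]; field_simp; ring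
  have hc := H_chord hu0 hu1 hw0 hw1
  have e : (1 - w) * (α + β * d0) + w * (α + β * d1) = α + β * d := by
    rw [hd]; ring
  rw [e] at hc
  have h2 := mul_le_mul_of_nonneg_left hc hW
  have h3 : 0 ≤ (1 - w) * (A + B * d0 + W * H (α + β * d0)) :=
    mul_nonneg (by linarith) h0
  have h4 : 0 ≤ w * (A + B * d1 + W * H (α + β * d1)) := mul_nonneg hw0 h1
  have e2 : A + B * d = (1 - w) * (A + B * d0) + w * (A + B * d1) := by
    rw [hd]; ring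
  nlinarith

lemma gpoly_le {d0 d1 d : ℝ} (h0 : 0 ≤ d0) (h1 : d0 ≤ d) (h2 : d ≤ d1) (h3 : d1 ≤ 1) :
    d ^ 2 * (4 / 3 - d ^ 2 / 3) ≤ d0 * d0 * (4 / 3 - d0 * d0 / 3)
      + (d0 + d1) * (4 / 3 - 2 / 3 * (d0 * d0)) * (d - d0) := by
  have e : d ^ 2 * (4 / 3 - d ^ 2 / 3) - d0 * d0 * (4 / 3 - d0 * d0 / 3)
      = (d - d0) * ((d + d0) * (4 / 3 - (d ^ 2 + d0 ^ 2) / 3)) := by ring
  have a1 : 0 ≤ d - d0 := by linarith
  have a2 : d + d0 ≤ d0 + d1 := by linarith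
  have a3 : 4 / 3 - (d ^ 2 + d0 ^ 2) / 3 ≤ 4 / 3 - 2 / 3 * (d0 * d0) := by nlinarith
  have a4 : 0 ≤ 4 / 3 - (d ^ 2 + d0 ^ 2) / 3 := by nlinarith
  have a5 : (d + d0) * (4 / 3 - (d ^ 2 + d0 ^ 2) / 3)
      ≤ (d0 + d1) * (4 / 3 - 2 / 3 * (d0 * d0)) :=
    mul_le_mul a2 a3 a4 (by linarith)
  have := mul_le_mul_of_nonneg_left a5 a1
  nlinarith

lemma qpoly_ge {d0 d1 d : ℝ} (h0 : 0 ≤ d0) (h1 : d0 ≤ d) (h2 : d ≤ d1) (h3 : d1 ≤ 1) :
    d0 * d0 * ((1 - d0) * (1 - d0))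
      + (2 * d0 * ((1 - d1) * (1 - d1)) - d0 * d0 * (2 - 2 * d0)) * (d - d0)
      ≤ d ^ 2 * (1 - d) ^ 2 := by
  have e : d ^ 2 * (1 - d) ^ 2 - d0 * d0 * ((1 - d0) * (1 - d0))
      = (d - d0) * ((d + d0) * (1 - d) ^ 2 - d0 ^ 2 * (2 - d - d0)) := by ring
  have a1 : 0 ≤ d - d0 := by linarith
  have a2 : (1 - d1) * (1 - d1) ≤ (1 - d) ^ 2 := by nlinarith
  have a3 : 2 * d0 * ((1 - d1) * (1 - d1)) ≤ (d + d0) * (1 - d) ^ 2 := by
    apply mul_le_mul (by linarith) a2 (mul_self_nonneg _) (by linarith)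
  have a4 : d0 ^ 2 * (2 - d - d0) ≤ d0 * d0 * (2 - 2 * d0) := by
    have : d0 ^ 2 * (2 - d - d0) ≤ d0 ^ 2 * (2 - 2 * d0) :=
      mul_le_mul_of_nonneg_left (by linarith) (sq_nonneg _)
    nlinarith
  have := mul_le_mul_of_nonneg_left
    (show (2 * d0 * ((1 - d1) * (1 - d1)) - d0 * d0 * (2 - 2 * d0))
      ≤ (d + d0) * (1 - d) ^ 2 - d0 ^ 2 * (2 - d - d0) by linarith) a1
  nlinarith

/-- The inequality at `m = 0` on a cell, in real variables. -/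
lemma E0_real {th v sg ka d0 d1 d L2 C g0 K Ha Hb : ℝ} (hvs : 0 ≤ v * sg) (hvk : 0 ≤ v * ka)
    (hd01 : d0 < d1) (hd0 : d0 ≤ d) (hd1 : d ≤ d1) (hua : |d0| ≤ 1) (hub : |d1| ≤ 1)
    (hC : sg * L2 + ka ≤ C) (hgp : d ^ 2 * (4 / 3 - d ^ 2 / 3) ≤ g0 + K * (d - d0))
    (sa : Ha ≤ H d0) (sb : Hb ≤ H d1)
    (c0 : 0 ≤ th * d0 - C + v * sg * Ha + v * ka * (1 - g0 - K * (d0 - d0)))
    (c1 : 0 ≤ th * d1 - C + v * sg * Hb + v * ka * (1 - g0 - K * (d1 - d0))) :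
    0 ≤ th * d + v * (sg * H d + ka * (1 - 4 / 3 * d ^ 2 + 1 / 3 * d ^ 4)) - (sg * L2 + ka) := by
  have ma := mul_le_mul_of_nonneg_left sa hvs
  have mb := mul_le_mul_of_nonneg_left sb hvs
  have key := affine_H_nonneg (A := - C + v * ka * (1 - g0 + K * d0)) (B := th - v * ka * K)
    (W := v * sg) (α := 0) (β := 1) (d0 := d0) (d1 := d1) (d := d) hvs hd01 hd0 hd1
    (by rwa [zero_add, one_mul]) (by rwa [zero_add, one_mul])
    (by rw [zero_add, one_mul]; linarith) (by rw [zero_add, one_mul]; linarith)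
  rw [zero_add, one_mul] at key
  have h8 := mul_le_mul_of_nonneg_left hgp hvk
  linarith

/-- The inequality at `m = 1 - d` on a cell, in real variables. -/
lemma E1_real {th v sg ka d0 d1 d L2 C g0 K x0 KQ Q0 Ha Hb : ℝ} (hv1 : v ≤ 1) (hsg : 0 ≤ sg)
    (hka : 0 ≤ ka) (hv0 : 0 ≤ v)
    (hd01 : d0 < d1) (hd0 : d0 ≤ d) (hd1 : d ≤ d1) (hua : |2 * d0 - 1| ≤ 1) (hub : |2 * d1 - 1| ≤ 1)
    (hC : sg * L2 + ka ≤ C) (hgp : d ^ 2 * (4 / 3 - d ^ 2 / 3) ≤ g0 + K * (d - d0))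
    (hq : Q0 + KQ * (d - d0) ≤ d ^ 2 * (1 - d) ^ 2)
    (hx : x0 * x0 - 2 * x0 * (d - d0) ≤ (1 - d) ^ 2)
    (sa : Ha ≤ H (2 * d0 - 1)) (sb : Hb ≤ H (2 * d1 - 1))
    (c0 : 0 ≤ th * d0 - C + v * sg / 2 * Ha + sg * (x0 * x0 - 2 * x0 * (d0 - d0)) / 2
      + ka * (v * (1 - g0 - K * (d0 - d0)) + (1 - v) * (x0 * x0 - 2 * x0 * (d0 - d0))
        + 2 * v * (Q0 + KQ * (d0 - d0))))
    (c1 : 0 ≤ th * d1 - C + v * sg / 2 * Hb + sg * (x0 * x0 - 2 * x0 * (d1 - d0)) / 2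
      + ka * (v * (1 - g0 - K * (d1 - d0)) + (1 - v) * (x0 * x0 - 2 * x0 * (d1 - d0))
        + 2 * v * (Q0 + KQ * (d1 - d0)))) :
    0 ≤ th * d + v * (sg * H d + ka * (1 - 4 / 3 * d ^ 2 + 1 / 3 * d ^ 4)) - (sg * L2 + ka)
      - (sg * v * (H d - H (2 * d - 1) / 2) - sg * (1 - d) ^ 2 / 2
        - ka * (1 - d) ^ 2 * (1 - v + 2 * v * d ^ 2)) := by
  have hW : 0 ≤ v * sg / 2 := by positivity
  have ma := mul_le_mul_of_nonneg_left sa hW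
  have mb := mul_le_mul_of_nonneg_left sb hW
  have e1 : ∀ x : ℝ, -1 + 2 * x = 2 * x - 1 := fun x => by ring
  have key := affine_H_nonneg
    (A := - C + sg * (x0 * x0 + 2 * x0 * d0) / 2
      + ka * (v * (1 - g0 + K * d0) + (1 - v) * (x0 * x0 + 2 * x0 * d0) + 2 * v * (Q0 - KQ * d0)))
    (B := th - sg * x0 + ka * (-v * K - (1 - v) * (2 * x0) + 2 * v * KQ))
    (W := v * sg / 2) (α := -1) (β := 2) (d0 := d0) (d1 := d1) (d := d) hW hd01 hd0 hd1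
    (by rwa [e1]) (by rwa [e1])
    (by rw [e1]; linarith) (by rw [e1]; linarith)
  rw [e1] at key
  have hvk : 0 ≤ v * ka := mul_nonneg hv0 hka
  have hk1 : 0 ≤ (1 - v) * ka := mul_nonneg (by linarith) hka
  have h8 := mul_le_mul_of_nonneg_left hgp hvk
  have h9 := mul_le_mul_of_nonneg_left hx hk1
  have h10 := mul_le_mul_of_nonneg_left hq hvk
  have h11 := mul_le_mul_of_nonneg_left hx hsg
  linarith

end Vale.Agent.Lib.P322y
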