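import Vale.Agent.Lib.P322y.NumFix
import Vale.Agent.Lib.P322y.NumReal

/-! The fixed point check of one rectangle `[ea, eb] × [d0, d1]` of the numeric zone of `(F)`. -/

set_option linter.unusedVariables false
set_option linter.unusedSectionVars false

namespace Vale.Agent.Lib.P322y

open Vale.Agent.Lib.P322

lemma mulD_le {a b : ℕ} {x y : ℝ} (ha : rv a ≤ x) (hb : rv b ≤ y) : rv (mulD a b) ≤ x * y :=
  (rv_mulD a b).trans (mul_le_mul ha hb (rv_nonneg b) ((rv_nonneg a).trans ha))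

lemma le_mulU {a b : ℕ} {x y : ℝ} (ha : x ≤ rv a) (hb : y ≤ rv b) (hx : 0 ≤ x) (hy : 0 ≤ y) :
    x * y ≤ rv (mulU a b) :=
  (mul_le_mul ha hb hy (rv_nonneg a)).trans (mul_le_rv_mulU a b)

/-- Lower bound for the entropy `h(x)`. -/
def hLN (x : ℕ) : ℕ := mulD x (mlnL x) + mulD (WW - x) (mlnL (WW - x))

/-- Upper bound for the entropy `h(x)`. -/
def hUN (x : ℕ) : ℕ := mulU x (mlnU x) + mulU (WW - x) (mlnU (WW - x))

lemma rv_WW_sub {x : ℕ} (h : x ≤ WW) : rv (WW - x) = 1 - rv x := by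
  rw [rv_sub h, rv_WW]

lemma H_one_sub' (x : ℝ) : H (1 - 2 * x) = x * (-Real.log x) + (1 - x) * (-Real.log (1 - x)) := by
  unfold H Real.negMulLog
  have e1 : (1 + (1 - 2 * x)) / 2 = 1 - x := by ring
  have e2 : (1 - (1 - 2 * x)) / 2 = x := by ring
  rw [e1, e2]; ring

lemma hLN_sound {x : ℕ} (h0 : 0 < x) (h1 : x < WW) : rv (hLN x) ≤ H (1 - 2 * rv x) := by
  unfold hLN
  rw [rv_add, H_one_sub']
  have a1 := mlnL_sound h0 h1.le
  have a2 := mlnL_sound (x := WW - x) (by omega) (by omega)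
  rw [rv_WW_sub h1.le] at a2
  have b1 := mulD_le (le_refl (rv x)) a1
  have b2 := mulD_le (le_of_eq (rv_WW_sub h1.le)) a2
  linarith

lemma hUN_sound {x : ℕ} (h0 : 0 < x) (h1 : x < WW) : H (1 - 2 * rv x) ≤ rv (hUN x) := by
  unfold hUN
  rw [rv_add, H_one_sub']
  have a1 := mlnU_sound h0 h1.le
  have a2 := mlnU_sound (x := WW - x) (by omega) (by omega)
  rw [rv_WW_sub h1.le] at a2
  have hx0 := rv_nonneg x
  have hx1 : 0 ≤ 1 - rv x := by
    rw [← rv_WW_sub h1.le]; exact rv_nonneg _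
  have l1 : 0 ≤ -Real.log (rv x) := by
    have : Real.log (rv x) ≤ 0 := Real.log_nonpos hx0 (by linarith)
    linarith
  have l2 : 0 ≤ -Real.log (1 - rv x) := by
    have : Real.log (1 - rv x) ≤ 0 := Real.log_nonpos hx1 (by linarith)
    linarith
  have b1 := le_mulU (le_refl (rv x)) a1 hx0 l1
  have b2 := le_mulU (le_of_eq (rv_WW_sub h1.le).symm) a2 hx1 l2
  linarith

/-- The check that the fixed point pair `(th, 1 - 2 t)` is dominated by the double root pair. -/
def pairN (ea s th t : ℕ) : Bool :=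
  let s2 := 2 * s
  let pL := ea + mulD (WW - 2 * ea) s
  let pU := ea + mulU (WW - 2 * ea) s
  let qL := WW - pU
  let qU := WW - pL
  let lpU := mlnU pL
  let lpL := mlnL pU
  let lqU := mlnU qL
  let lqL := mlnL qU
  let lsU := mlnU s
  let lsL := mlnL s
  let ls1U := mlnU (WW - s)
  let ls1L := mlnL (WW - s)
  let laU := mlnU s2
  let laL := mlnL s2
  let l1L := mlnL (WW - s2)
  let lXL := (lsL + ls1L) - (lpU + lqU)
  let hpL := mulD pL lpL + mulD qL lqL
  let hsU := mulU s lsU + mulU (WW - s) ls1U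
  let h2sL := mulD s2 laL + mulD (WW - s2) l1L
  Nat.blt 0 ea && Nat.ble (40 * ea) WW && Nat.blt 0 s && Nat.blt s2 WW && Nat.ble (2 * t) WW
    && Nat.blt pU WW && Nat.blt 0 laL
    && Nat.ble (lsU + ls1U) (lpL + lqL + mulD (2 * t) laL)
    && Nat.ble (lpU + lqU) (lsL + ls1L)
    && Nat.ble (mulU th (WW - s2) + hsU) (hpL + mulD (divD lXL (2 * laU)) h2sL)

/-- Soundness of `pairN`. -/
theorem pairN_sound {ea s th t : ℕ} (h : pairN ea s th t = true) :
    0 < rv ea ∧ rv ea ≤ 1 / 40 ∧ 0 < rv s ∧ rv s < 1 / 2 ∧ 2 * rv t ≤ 1 ∧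
    rv th ≤ thetaV2 (rv ea) (rv s) ∧ tauV2 (rv ea) (rv s) ≤ 2 * rv t := by
  simp only [pairN, Bool.and_eq_true, Nat.ble_eq, Nat.blt_eq] at h
  obtain ⟨⟨⟨⟨⟨⟨⟨⟨⟨h1, h2⟩, h3⟩, h4⟩, h5⟩, h6⟩, h7⟩, h8⟩, h9⟩, h10⟩ := h
  have hW := WW_pos
  have hWn : 0 < WW := by norm_num [WW]
  set E := rv ea with hE
  set S := rv s with hS
  set pL := ea + mulD (WW - 2 * ea) s with hpL
  set pU := ea + mulU (WW - 2 * ea) s with hpU
  have hE0 : 0 < E := div_pos (by exact_mod_cast h1) hW
  have hE1 : E ≤ 1 / 40 := by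
    have : ((40 * ea : ℕ) : ℝ) ≤ (WW : ℝ) := by exact_mod_cast h2
    push_cast at this
    rw [hE]; unfold rv
    rw [div_le_iff₀ hW]; linarith
  have hS0 : 0 < S := div_pos (by exact_mod_cast h3) hW
  have hS1 : S < 1 / 2 := by
    have : ((2 * s : ℕ) : ℝ) < (WW : ℝ) := by exact_mod_cast h4
    push_cast at this
    rw [hS]; unfold rv
    rw [div_lt_iff₀ hW]; linarith
  have ht : 2 * rv t ≤ 1 := by
    have : ((2 * t : ℕ) : ℝ) ≤ (WW : ℝ) := by exact_mod_cast h5
    push_cast at this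
    unfold rv
    rw [mul_div_assoc', div_le_iff₀ hW]; linarith
  have h2e : 2 * ea ≤ WW := by omega
  have e1 : rv (WW - 2 * ea) = 1 - 2 * E := by
    rw [rv_WW_sub h2e, rv_mul_const]; push_cast; ring
  have hs2 : rv (2 * s) = 2 * S := by rw [rv_mul_const]; push_cast; ring
  set P := E + (1 - 2 * E) * S with hP
  have hPL : rv pL ≤ P := by
    rw [hpL, rv_add]
    have := mulD_le (le_of_eq e1) (le_refl S)
    linarith
  have hPU : P ≤ rv pU := by
    rw [hpU, rv_add]
    have := le_mulU (le_of_eq e1.symm) (le_refl S) (by linarith) hS0.le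
    linarith
  have hdu : mulD (WW - 2 * ea) s ≤ mulU (WW - 2 * ea) s := by unfold mulD mulU; omega
  have hpLU : pL ≤ pU := by omega
  have hpL0 : 0 < pL := by omega
  have hpLr : 0 < rv pL := div_pos (by exact_mod_cast hpL0) hW
  have hpUr : rv pU < 1 := by
    unfold rv
    rw [div_lt_one hW]; exact_mod_cast h6
  have hP0 : 0 < P := lt_of_lt_of_le hpLr hPL
  have hP1 : P < 1 := lt_of_le_of_lt hPU hpUr
  -- logarithms of p
  have lp1 : -Real.log P ≤ rv (mlnU pL) := by
    have a := mlnU_sound hpL0 (by omega)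
    have b : Real.log (rv pL) ≤ Real.log P := Real.log_le_log hpLr hPL
    linarith
  have lp2 : rv (mlnL pU) ≤ -Real.log P := by
    have a := mlnL_sound (x := pU) (by omega) h6.le
    have b : Real.log P ≤ Real.log (rv pU) := Real.log_le_log hP0 hPU
    linarith
  -- logarithms of q
  have hqUe : rv (WW - pU) = 1 - rv pU := rv_WW_sub h6.le
  have hqLe : rv (WW - pL) = 1 - rv pL := rv_WW_sub (by omega)
  have hqL0 : 0 < WW - pU := by omega
  have hqU0 : 0 < WW - pL := by omega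
  have lq1 : -Real.log (1 - P) ≤ rv (mlnU (WW - pU)) := by
    have a := mlnU_sound hqL0 (by omega)
    have hr : 0 < rv (WW - pU) := by rw [hqUe]; linarith
    have b : Real.log (rv (WW - pU)) ≤ Real.log (1 - P) :=
      Real.log_le_log hr (by rw [hqUe]; linarith)
    linarith
  have lq2 : rv (mlnL (WW - pL)) ≤ -Real.log (1 - P) := by
    have a := mlnL_sound hqU0 (by omega)
    have b : Real.log (1 - P) ≤ Real.log (rv (WW - pL)) :=
      Real.log_le_log (by linarith) (by rw [hqLe]; linarith)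
    linarith
  -- logarithms of s, 1 - s, 2 s, 1 - 2 s
  have hs0n : 0 < s := h3
  have hsW : s < WW := by omega
  have ls1 := mlnU_sound hs0n hsW.le
  have ls2 := mlnL_sound hs0n hsW.le
  have ls3 := mlnU_sound (x := WW - s) (by omega) (by omega)
  have ls4 := mlnL_sound (x := WW - s) (by omega) (by omega)
  rw [rv_WW_sub hsW.le] at ls3 ls4
  have la1 := mlnU_sound (x := 2 * s) (by omega) h4.le
  have la2 := mlnL_sound (x := 2 * s) (by omega) h4.le
  have la3 := mlnL_sound (x := WW - 2 * s) (by omega) (by omega)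
  rw [rv_WW_sub h4.le, hs2] at la3
  rw [hs2] at la1 la2
  -- the exponent
  set Lam := Real.log (1 / (2 * S)) with hLam
  have hLam' : Lam = -Real.log (2 * S) := by
    rw [hLam, one_div, Real.log_inv]
  have hLam0 : 0 < Lam := by
    rw [hLam']
    have : (0 : ℝ) < rv (mlnL (2 * s)) := div_pos (by exact_mod_cast h7) hW
    linarith
  set lX := Real.log (P * (1 - P) / (S * (1 - S))) with hlX
  have hlX' : lX = (-Real.log S) + (-Real.log (1 - S)) - (-Real.log P) - (-Real.log (1 - P)) := by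
    rw [hlX, Real.log_div (mul_pos hP0 (by linarith)).ne' (mul_pos hS0 (by linarith)).ne',
      Real.log_mul hP0.ne' (by linarith), Real.log_mul hS0.ne' (by linarith)]
    ring
  have htau : tauV2 E S = lX / Lam := rfl
  have ht0 : 0 ≤ rv t := rv_nonneg t
  have h8R := rv_mono h8
  rw [rv_add, rv_add, rv_add] at h8R
  have hm1 : rv (mulD (2 * t) (mlnL (2 * s))) ≤ (2 * rv t) * Lam := by
    apply mulD_le
    · rw [rv_mul_const]; push_cast; exact le_rfl
    · rw [hLam']; exact la2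
  have hX1 : lX ≤ (2 * rv t) * Lam := by
    rw [hlX']; linarith
  have hTau : tauV2 E S ≤ 2 * rv t := by
    rw [htau, div_le_iff₀ hLam0]; exact hX1
  -- lower bound of the exponent
  have h9R : rv (mlnU pL + mlnU (WW - pU)) ≤ rv (mlnL s + mlnL (WW - s)) := rv_mono h9
  set lXLn := mlnL s + mlnL (WW - s) - (mlnU pL + mlnU (WW - pU)) with hlXLn
  have hlXLe : rv lXLn = rv (mlnL s) + rv (mlnL (WW - s)) - rv (mlnU pL) - rv (mlnU (WW - pU)) := by
    rw [hlXLn, rv_sub h9, rv_add, rv_add]; ring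
  have hlXLle : rv lXLn ≤ lX := by
    rw [hlXLe, hlX']; linarith
  have hlXL0 : 0 ≤ rv lXLn := rv_nonneg _
  have hLT : Lam ≤ rv (mlnU (2 * s)) := by rw [hLam']; exact la1
  have hLTpos : 0 < rv (mlnU (2 * s)) := lt_of_lt_of_le hLam0 hLT
  have hLTn : 0 < mlnU (2 * s) := by
    by_contra hc
    have : mlnU (2 * s) = 0 := by omega
    rw [this] at hLTpos
    simp [rv] at hLTpos
  have hdiv := rv_divD lXLn (b := 2 * mlnU (2 * s)) (by omega)
  rw [rv_mul_const] at hdiv
  push_cast at hdiv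
  have hrho : rv (divD lXLn (2 * mlnU (2 * s))) ≤ tauV2 E S / 2 := by
    refine hdiv.trans ?_
    rw [htau]
    have e2 : lX / Lam / 2 = lX / (2 * Lam) := by field_simp
    rw [e2]
    calc rv lXLn / (2 * rv (mlnU (2 * s))) ≤ rv lXLn / (2 * Lam) :=
          div_le_div_of_nonneg_left hlXL0 (by positivity) (by linarith)
      _ ≤ lX / (2 * Lam) := div_le_div_of_nonneg_right hlXLle (by positivity)
  -- entropies
  have hHP : rv (mulD pL (mlnL pU) + mulD (WW - pU) (mlnL (WW - pL))) ≤ H (1 - 2 * P) := by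
    rw [rv_add, H_one_sub']
    have b1 := mulD_le hPL lp2
    have b2 := mulD_le (x := 1 - P) (a := WW - pU) (by rw [hqUe]; linarith) lq2
    linarith
  have hHS : H (1 - 2 * S) ≤ rv (mulU s (mlnU s) + mulU (WW - s) (mlnU (WW - s))) := by
    rw [rv_add, H_one_sub']
    have l1 : 0 ≤ -Real.log S := by
      have : Real.log S ≤ 0 := Real.log_nonpos hS0.le (by linarith)
      linarith
    have l2 : 0 ≤ -Real.log (1 - S) := by
      have : Real.log (1 - S) ≤ 0 := Real.log_nonpos (by linarith) (by linarith)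
      linarith
    have b1 := le_mulU (le_refl S) ls1 hS0.le l1
    have b2 := le_mulU (x := 1 - S) (a := WW - s) (le_of_eq (rv_WW_sub hsW.le).symm) ls3
      (by linarith) l2
    linarith
  have hH2 : rv (mulD (2 * s) (mlnL (2 * s)) + mulD (WW - 2 * s) (mlnL (WW - 2 * s)))
      ≤ H (1 - 4 * S) := by
    have e4 : 1 - 4 * S = 1 - 2 * (2 * S) := by ring
    rw [rv_add, e4, H_one_sub']
    have b1 := mulD_le (le_of_eq hs2) la2
    have b2 := mulD_le (x := 1 - 2 * S) (a := WW - 2 * s)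
      (by rw [rv_WW_sub h4.le, hs2]) la3
    linarith
  have hm3 := mulD_le hrho hH2
  have hm4 : rv th * (1 - 2 * S) ≤ rv (mulU th (WW - 2 * s)) :=
    le_mulU (le_refl _) (by rw [rv_WW_sub h4.le, hs2]) (rv_nonneg _) (by linarith)
  have h10R := rv_mono h10
  simp only [rv_add] at h10R hHP hHS
  have hdn : 0 < 1 - 2 * S := by linarith
  have eTh : thetaV2 E S
      = (H (1 - 2 * P) - H (1 - 2 * S) + tauV2 E S / 2 * H (1 - 4 * S)) / (1 - 2 * S) := rfl
  have hTh : rv th ≤ thetaV2 E S := by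
    rw [eTh, le_div_iff₀ hdn]
    linarith
  exact ⟨hE0, hE1, hS0, hS1, ht, hTh, hTau⟩

/-- Lower bound for `H d`, for even `d`. -/
def HdN (d : ℕ) : ℕ := hLN ((WW - d) / 2)

lemma HdN_sound {d : ℕ} (h0 : 0 < d) (h1 : d < WW) (h2 : 2 * ((WW - d) / 2) + d = WW) :
    rv (HdN d) ≤ H (rv d) := by
  have hx0 : 0 < (WW - d) / 2 := by omega
  have hx1 : (WW - d) / 2 < WW := by omega
  have := hLN_sound hx0 hx1
  have e : 1 - 2 * rv ((WW - d) / 2) = rv d := by
    have e1 : rv (2 * ((WW - d) / 2) + d) = 1 := by rw [h2, rv_WW]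
    rw [rv_add, rv_mul_const] at e1
    push_cast at e1
    linarith
  rwa [e] at this

/-- The `m = 0` end inequality at a point `d` of the cell. -/
def E0N (th v sg ka CN g0N KN d0 d Hd : ℕ) : Bool :=
  Nat.ble (CN + mulU (mulU (mulU v ka) KN) (d - d0))
    (mulD th d + mulD (mulD v sg) Hd + mulD (mulD v ka) (WW - g0N))

/-- The `m = 1 - d` end inequality at a point `d` of the cell. -/
def E1N (th v tt sg ka CN g0N KN x0 x2L Q0N A1N B1U d0 d Hd : ℕ) : Bool :=
  let w := d - d0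
  let xw := mulU x0 w
  Nat.ble (CN + mulU sg xw
      + mulU ka (mulU v (mulU KN w) + mulU tt (2 * xw) + 2 * mulU v (mulU B1U w)))
    (mulD th d + mulD (mulD v sg / 2) Hd + mulD sg x2L / 2
      + mulD ka (mulD v (WW - g0N) + mulD tt x2L + 2 * mulD v (Q0N + mulD A1N w)))

/-- Upper bound of `4/3`. -/
def c43U : ℕ := 24595658764946068822

/-- Lower bound of `1/3`. -/
def c13L : ℕ := 6148914691236517205

/-- Lower bound of `2/3`. -/
def c23L : ℕ := 12297829382473034410

/-- The upper constant `sg` at `eb`. -/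
def sgUN (eb : ℕ) : ℕ := mulU (4 * eb) (WW - eb)

/-- The upper constant `ka` at `eb`. -/
def kaUN (eb : ℕ) : ℕ := hUN eb - mulD (mulD (4 * eb) (WW - eb)) L2L

/-- Upper bound of `d0² (4/3 - d0²/3)`. -/
def g0NN (d0 : ℕ) : ℕ :=
  mulU (mulU d0 d0) c43U - mulD (mulD (mulD d0 d0) (mulD d0 d0)) c13L

/-- Upper bound of the slope of `d² (4/3 - d²/3)`. -/
def KNN (d0 d1 : ℕ) : ℕ := mulU (d0 + d1) (c43U - mulD c23L (mulD d0 d0))

/-- Lower bound of `d0² (1 - d0)²`. -/
def Q0NN (d0 : ℕ) : ℕ := mulD (mulD d0 d0) (mulD (WW - d0) (WW - d0))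

/-- Lower bound of `2 d0 (1 - d1)²`. -/
def A1NN (d0 d1 : ℕ) : ℕ := mulD (2 * d0) (mulD (WW - d1) (WW - d1))

/-- Upper bound of `d0² (2 - 2 d0)`. -/
def B1NN (d0 : ℕ) : ℕ := mulU (mulU d0 d0) (2 * WW - 2 * d0)

/-- Upper bound of the constant term. -/
def CNN (eb : ℕ) : ℕ := mulU (sgUN eb) L2U + kaUN eb

/-- The check of the end inequalities on the cell `[d0, d1]` with the constants of `eb`. -/
def endsN (eb d0 d1 th t : ℕ) : Bool :=
  let tt := 2 * t
  let v := WW - tt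
  let sg := sgUN eb
  let ka := kaUN eb
  let CN := CNN eb
  let g0N := g0NN d0
  let KN := KNN d0 d1
  let x0 := WW - d0
  let x1 := WW - d1
  let x2L := mulD x0 x0
  let Q0N := Q0NN d0
  let A1N := A1NN d0 d1
  let B1U := B1NN d0
  Nat.blt 0 d0 && Nat.blt d0 d1 && Nat.blt d1 WW && Nat.ble g0N WW && Nat.ble tt WW
    && Nat.beq (2 * ((WW - d0) / 2) + d0) WW && Nat.beq (2 * ((WW - d1) / 2) + d1) WW
    && E0N th v sg ka CN g0N KN d0 d0 (HdN d0)
    && E0N th v sg ka CN g0N KN d0 d1 (HdN d1)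
    && E1N th v tt sg ka CN g0N KN x0 x2L Q0N A1N B1U d0 d0 (hLN x0)
    && E1N th v tt sg ka CN g0N KN x0 x2L Q0N A1N B1U d0 d1 (hLN x1)

/-- Real form of the check `E0N`. -/
lemma E0N_sound {th v sg ka CN g0N KN d0 d Hd : ℕ} (h : E0N th v sg ka CN g0N KN d0 d Hd = true)
    (hg : g0N ≤ WW) (hd : d0 ≤ d) :
    0 ≤ rv th * rv d - rv CN + rv v * rv sg * rv Hd
      + rv v * rv ka * (1 - rv g0N - rv KN * (rv d - rv d0)) := by
  simp only [E0N, Nat.ble_eq] at h
  have hR := rv_mono h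
  simp only [rv_add] at hR
  have a1 := rv_mulD th d
  have a2 := mulD_le (rv_mulD v sg) (le_refl (rv Hd))
  have a3 := mulD_le (rv_mulD v ka) (le_of_eq (rv_WW_sub hg))
  have hw : rv (d - d0) = rv d - rv d0 := rv_sub hd
  have a4 : rv v * rv ka * rv KN * (rv d - rv d0) ≤ rv (mulU (mulU (mulU v ka) KN) (d - d0)) := by
    rw [← hw]
    apply le_mulU _ (le_refl _) (by positivity [rv_nonneg v, rv_nonneg ka, rv_nonneg KN]) (rv_nonneg _)
    apply le_mulU (mul_le_rv_mulU v ka) (le_refl _) (mul_nonneg (rv_nonneg v) (rv_nonneg ka)) (rv_nonneg _)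
  nlinarith

end Vale.Agent.Lib.P322y
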