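import Vale.Agent.Lib.P322y.NumChk

/-! Soundness of the end checks of one rectangle of the numeric zone of `(F)`. -/

set_option linter.unusedVariables false
set_option linter.unusedSectionVars false

namespace Vale.Agent.Lib.P322y

open Vale.Agent.Lib.P322

lemma rv_half_le (a : ℕ) : rv (a / 2) ≤ rv a / 2 := by
  unfold rv
  have h := Nat.cast_div_le (α := ℝ) (m := a) (n := 2)
  have hW := WW_pos
  push_cast at h
  calc (((a / 2 : ℕ) : ℝ)) / (WW : ℝ) ≤ ((a : ℝ) / 2) / (WW : ℝ) :=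
        div_le_div_of_nonneg_right h hW.le
    _ = (a : ℝ) / WW / 2 := by ring

/-- Real form of the check `E1N`. -/
lemma E1N_sound {th v tt sg ka CN g0N KN x0 x2L Q0N A1N B1U d0 d Hd : ℕ}
    (h : E1N th v tt sg ka CN g0N KN x0 x2L Q0N A1N B1U d0 d Hd = true)
    (hg : g0N ≤ WW) (hd : d0 ≤ d) (hx2 : rv x2L ≤ rv x0 * rv x0) :
    0 ≤ rv th * rv d - rv CN + rv v * rv sg / 2 * rv Hd
      + rv sg * (rv x0 * rv x0 - 2 * rv x0 * (rv d - rv d0)) / 2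
      + rv ka * (rv v * (1 - rv g0N - rv KN * (rv d - rv d0))
        + rv tt * (rv x0 * rv x0 - 2 * rv x0 * (rv d - rv d0))
        + 2 * rv v * (rv Q0N + (rv A1N - rv B1U) * (rv d - rv d0))) := by
  simp only [E1N, Nat.ble_eq] at h
  have hR := rv_mono h
  simp only [rv_add] at hR
  have hw : rv (d - d0) = rv d - rv d0 := rv_sub hd
  set W := rv d - rv d0 with hW
  have hW0 : 0 ≤ W := by rw [← hw]; exact rv_nonneg _
  set xw := mulU x0 (d - d0) with hxw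
  have a0 : rv x0 * W ≤ rv xw := by
    rw [← hw]; exact mul_le_rv_mulU _ _
  have a00 : 0 ≤ rv x0 * W := mul_nonneg (rv_nonneg _) hW0
  -- lower parts
  have b1 := rv_mulD th d
  have b2 : rv (mulD (mulD v sg / 2) Hd) ≤ rv v * rv sg / 2 * rv Hd :=
    mulD_le ((rv_half_le _).trans (div_le_div_of_nonneg_right (rv_mulD v sg) (by norm_num)))
      (le_refl _)
  have b3 : rv (mulD sg x2L / 2) ≤ rv sg * (rv x0 * rv x0) / 2 :=
    (rv_half_le _).trans (div_le_div_of_nonneg_right (mulD_le (le_refl _) hx2) (by norm_num))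
  have b4 : rv (mulD v (WW - g0N)) ≤ rv v * (1 - rv g0N) :=
    mulD_le (le_refl _) (le_of_eq (rv_WW_sub hg))
  have b5 : rv (mulD tt x2L) ≤ rv tt * (rv x0 * rv x0) := mulD_le (le_refl _) hx2
  have b6 : rv (mulD A1N (d - d0)) ≤ rv A1N * W := by
    rw [← hw]; exact rv_mulD _ _
  have b7 : rv (mulD v (Q0N + mulD A1N (d - d0))) ≤ rv v * (rv Q0N + rv A1N * W) := by
    apply mulD_le (le_refl _)
    rw [rv_add]; linarith
  have b8 : rv (mulD ka (mulD v (WW - g0N) + mulD tt x2L + 2 * mulD v (Q0N + mulD A1N (d - d0))))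
      ≤ rv ka * (rv v * (1 - rv g0N) + rv tt * (rv x0 * rv x0)
        + 2 * (rv v * (rv Q0N + rv A1N * W))) := by
    apply mulD_le (le_refl _)
    rw [rv_add, rv_add, rv_mul_const]
    push_cast
    linarith
  -- upper parts
  have c1 : rv sg * (rv x0 * W) ≤ rv (mulU sg xw) :=
    le_mulU (le_refl _) a0 (rv_nonneg _) a00
  have hkw : 0 ≤ rv KN * W := mul_nonneg (rv_nonneg _) hW0
  have hbw : 0 ≤ rv B1U * W := mul_nonneg (rv_nonneg _) hW0
  have c2 : rv v * (rv KN * W) ≤ rv (mulU v (mulU KN (d - d0))) := by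
    apply le_mulU (le_refl _) _ (rv_nonneg _) hkw
    rw [← hw]; exact mul_le_rv_mulU _ _
  have c3 : rv tt * (2 * (rv x0 * W)) ≤ rv (mulU tt (2 * xw)) := by
    apply le_mulU (le_refl _) _ (rv_nonneg _) (by linarith)
    rw [rv_mul_const]; push_cast; linarith
  have c4 : rv v * (rv B1U * W) ≤ rv (mulU v (mulU B1U (d - d0))) := by
    apply le_mulU (le_refl _) _ (rv_nonneg _) hbw
    rw [← hw]; exact mul_le_rv_mulU _ _
  have hu0 : 0 ≤ rv v * (rv KN * W) + rv tt * (2 * (rv x0 * W)) + 2 * (rv v * (rv B1U * W)) := by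
    have h1 := mul_nonneg (rv_nonneg v) hkw
    have h2 := mul_nonneg (rv_nonneg tt) (show 0 ≤ 2 * (rv x0 * W) by linarith)
    have h3 := mul_nonneg (rv_nonneg v) hbw
    linarith
  have c5 : rv ka * (rv v * (rv KN * W) + rv tt * (2 * (rv x0 * W)) + 2 * (rv v * (rv B1U * W)))
      ≤ rv (mulU ka (mulU v (mulU KN (d - d0)) + mulU tt (2 * xw)
        + 2 * mulU v (mulU B1U (d - d0)))) := by
    apply le_mulU (le_refl _) _ (rv_nonneg _) hu0
    rw [rv_add, rv_add, rv_mul_const]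
    push_cast
    linarith
  have key : rv th * rv d - rv CN + rv v * rv sg / 2 * rv Hd
      + rv sg * (rv x0 * rv x0 - 2 * rv x0 * W) / 2
      + rv ka * (rv v * (1 - rv g0N - rv KN * W)
        + rv tt * (rv x0 * rv x0 - 2 * rv x0 * W)
        + 2 * rv v * (rv Q0N + (rv A1N - rv B1U) * W))
      = rv th * rv d - rv CN + rv v * rv sg / 2 * rv Hd + rv sg * (rv x0 * rv x0) / 2
        - rv sg * (rv x0 * W)
        + rv ka * (rv v * (1 - rv g0N) + rv tt * (rv x0 * rv x0)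
          + 2 * (rv v * (rv Q0N + rv A1N * W)))
        - rv ka * (rv v * (rv KN * W) + rv tt * (2 * (rv x0 * W)) + 2 * (rv v * (rv B1U * W))) := by
    ring
  rw [key]
  linarith

lemma g0NN_sound (d0 : ℕ) :
    rv d0 * rv d0 * (4 / 3 - rv d0 * rv d0 / 3) ≤ rv (g0NN d0) := by
  have hddL' : rv (mulD d0 d0) ≤ rv d0 * rv d0 := rv_mulD _ _
  have hddU' : rv d0 * rv d0 ≤ rv (mulU d0 d0) := mul_le_rv_mulU _ _
  have c43 : (4 : ℝ) / 3 ≤ rv c43U := by norm_num [rv, c43U, WW]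
  have c13 : rv c13L ≤ (1 : ℝ) / 3 := by norm_num [rv, c13L, WW]
  have hDD : 0 ≤ rv d0 * rv d0 := mul_self_nonneg _
  have a1 : rv d0 * rv d0 * (4 / 3) ≤ rv (mulU (mulU d0 d0) c43U) :=
    le_mulU hddU' c43 hDD (by norm_num)
  have a2 : rv (mulD (mulD (mulD d0 d0) (mulD d0 d0)) c13L)
      ≤ rv d0 * rv d0 * (rv d0 * rv d0) * (1 / 3) :=
    mulD_le (mulD_le hddL' hddL') c13
  have a3 := sub_le_rv_sub (mulU (mulU d0 d0) c43U) (mulD (mulD (mulD d0 d0) (mulD d0 d0)) c13L)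
  unfold g0NN
  linarith

lemma KNN_sound {d0 d1 : ℕ} (h0 : rv d0 < 1) (h1 : rv d1 ≤ 1) :
    (rv d0 + rv d1) * (4 / 3 - 2 / 3 * (rv d0 * rv d0)) ≤ rv (KNN d0 d1) := by
  have hddL' : rv (mulD d0 d0) ≤ rv d0 * rv d0 := rv_mulD _ _
  have c23 : rv c23L ≤ (2 : ℝ) / 3 := by norm_num [rv, c23L, WW]
  have a1 : 4 / 3 - 2 / 3 * (rv d0 * rv d0) ≤ rv (c43U - mulD c23L (mulD d0 d0)) := by
    have a2 : rv (mulD c23L (mulD d0 d0)) ≤ 2 / 3 * (rv d0 * rv d0) := mulD_le c23 hddL'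
    have a3 := sub_le_rv_sub c43U (mulD c23L (mulD d0 d0))
    have c43 : (4 : ℝ) / 3 ≤ rv c43U := by norm_num [rv, c43U, WW]
    linarith
  have h00 := rv_nonneg d0
  have hD0le : rv d0 * rv d0 ≤ 1 := by nlinarith
  unfold KNN
  apply le_mulU _ a1 (by linarith [rv_nonneg d1]) (by nlinarith)
  rw [rv_add]

lemma QNN_sound {d0 d1 : ℕ} (h0 : d0 ≤ WW) (h1 : d1 ≤ WW) {d : ℝ} (hd : rv d0 ≤ d) :
    rv (Q0NN d0) + (rv (A1NN d0 d1) - rv (B1NN d0)) * (d - rv d0)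
      ≤ rv d0 * rv d0 * ((1 - rv d0) * (1 - rv d0))
        + (2 * rv d0 * ((1 - rv d1) * (1 - rv d1)) - rv d0 * rv d0 * (2 - 2 * rv d0))
          * (d - rv d0) := by
  have hddL' : rv (mulD d0 d0) ≤ rv d0 * rv d0 := rv_mulD _ _
  have hddU' : rv d0 * rv d0 ≤ rv (mulU d0 d0) := mul_le_rv_mulU _ _
  have hDD : 0 ≤ rv d0 * rv d0 := mul_self_nonneg _
  have hx0e : rv (WW - d0) = 1 - rv d0 := rv_WW_sub h0
  have hx1e : rv (WW - d1) = 1 - rv d1 := rv_WW_sub h1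
  have h00 : 0 ≤ 1 - rv d0 := by rw [← hx0e]; exact rv_nonneg _
  have hx2L : rv (mulD (WW - d0) (WW - d0)) ≤ (1 - rv d0) * (1 - rv d0) := by
    have := rv_mulD (WW - d0) (WW - d0)
    rwa [hx0e] at this
  have hQ0 : rv (Q0NN d0) ≤ rv d0 * rv d0 * ((1 - rv d0) * (1 - rv d0)) :=
    mulD_le hddL' hx2L
  have hA1 : rv (A1NN d0 d1) ≤ 2 * rv d0 * ((1 - rv d1) * (1 - rv d1)) := by
    apply mulD_le
    · rw [rv_mul_const]; push_cast; exact le_rfl
    · have := rv_mulD (WW - d1) (WW - d1)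
      rwa [hx1e] at this
  have hB1 : rv d0 * rv d0 * (2 - 2 * rv d0) ≤ rv (B1NN d0) := by
    apply le_mulU hddU' _ hDD (by linarith)
    have e : 2 * WW - 2 * d0 = 2 * (WW - d0) := by omega
    rw [e, rv_mul_const, hx0e]
    push_cast
    linarith
  have a1 : (rv (A1NN d0 d1) - rv (B1NN d0)) * (d - rv d0)
      ≤ (2 * rv d0 * ((1 - rv d1) * (1 - rv d1)) - rv d0 * rv d0 * (2 - 2 * rv d0)) * (d - rv d0) :=
    mul_le_mul_of_nonneg_right (by linarith) (by linarith)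
  linarith

lemma CNN_sound (eb : ℕ) :
    rv (sgUN eb) * Real.log 2 + rv (kaUN eb) ≤ rv (CNN eb) := by
  unfold CNN
  rw [rv_add]
  have := le_mulU (x := rv (sgUN eb)) (le_refl _) L2U_sound (rv_nonneg _)
    (Real.log_pos (by norm_num)).le
  linarith

/-- Soundness of the end checks. -/
theorem endsN_sound {eb d0 d1 th t : ℕ} (h : endsN eb d0 d1 th t = true)
    (hka : 0 ≤ rv (kaUN eb)) {d : ℝ} (hd0 : rv d0 ≤ d) (hd1 : d ≤ rv d1) :
    0 < rv d0 ∧ rv d1 < 1 ∧ 2 * t ≤ WW ∧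
    0 ≤ Sf (rv (sgUN eb)) (rv (kaUN eb)) (rv th) (rv (WW - 2 * t)) 0 d
    ∧ 0 ≤ Sf (rv (sgUN eb)) (rv (kaUN eb)) (rv th) (rv (WW - 2 * t)) 0 d
      - Rp (rv (sgUN eb)) (rv (kaUN eb)) (rv (WW - 2 * t)) d := by
  simp only [endsN, Bool.and_eq_true, Nat.ble_eq, Nat.blt_eq, Nat.beq_eq] at h
  obtain ⟨⟨⟨⟨⟨⟨⟨⟨⟨⟨h1, h2⟩, h3⟩, h4⟩, h5⟩, h6⟩, h7⟩, h8⟩, h9⟩, h10⟩, h11⟩ := h
  have hW := WW_pos
  have hD00 : 0 < rv d0 := div_pos (by exact_mod_cast h1) hW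
  have hD01 : rv d0 < rv d1 := div_lt_div_of_pos_right (by exact_mod_cast h2) hW
  have hD11 : rv d1 < 1 := by
    unfold rv; rw [div_lt_one hW]; exact_mod_cast h3
  have hVe : rv (WW - 2 * t) = 1 - rv (2 * t) := rv_WW_sub h5
  have hV0 : 0 ≤ rv (WW - 2 * t) := rv_nonneg _
  have htt0 : 0 ≤ rv (2 * t) := rv_nonneg _
  have hV1 : rv (WW - 2 * t) ≤ 1 := by linarith
  have hSG0 : 0 ≤ rv (sgUN eb) := rv_nonneg _
  have hd00 : d0 ≤ d1 := h2.le
  have hgp := gpoly_le hD00.le hd0 hd1 hD11.le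
  have hqp := qpoly_ge hD00.le hd0 hd1 hD11.le
  have hdiff : 0 ≤ d - rv d0 := by linarith
  have hC := CNN_sound eb
  have hg0 := g0NN_sound d0
  have hK := KNN_sound (d0 := d0) (d1 := d1) (by linarith) hD11.le
  have hgp2 : d ^ 2 * (4 / 3 - d ^ 2 / 3) ≤ rv (g0NN d0) + rv (KNN d0 d1) * (d - rv d0) := by
    have := mul_le_mul_of_nonneg_right hK hdiff
    linarith
  have hk0 : rv (HdN d0) ≤ H (rv d0) := HdN_sound h1 (by omega) h6
  have hk1 : rv (HdN d1) ≤ H (rv d1) := HdN_sound (d := d1) (by omega) h3 h7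
  have hu0 : |rv d0| ≤ 1 := by rw [abs_le]; constructor <;> linarith
  have hu1 : |rv d1| ≤ 1 := by rw [abs_le]; constructor <;> linarith
  have hu2 : |2 * rv d0 - 1| ≤ 1 := by rw [abs_le]; constructor <;> linarith
  have hu3 : |2 * rv d1 - 1| ≤ 1 := by rw [abs_le]; constructor <;> linarith
  have hx0e : rv (WW - d0) = 1 - rv d0 := rv_WW_sub (by omega)
  have hx1e : rv (WW - d1) = 1 - rv d1 := rv_WW_sub (by omega)
  have hx2L : rv (mulD (WW - d0) (WW - d0)) ≤ rv (WW - d0) * rv (WW - d0) := rv_mulD _ _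
  have sE1a := hLN_sound (x := WW - d0) (by omega) (by omega)
  have sE1b := hLN_sound (x := WW - d1) (by omega) (by omega)
  rw [hx0e] at sE1a
  rw [hx1e] at sE1b
  have e2a : 1 - 2 * (1 - rv d0) = 2 * rv d0 - 1 := by ring
  have e2b : 1 - 2 * (1 - rv d1) = 2 * rv d1 - 1 := by ring
  rw [e2a] at sE1a
  rw [e2b] at sE1b
  have hq2 : rv (Q0NN d0) + (rv (A1NN d0 d1) - rv (B1NN d0)) * (d - rv d0) ≤ d ^ 2 * (1 - d) ^ 2 :=
    (QNN_sound (by omega) (by omega) hd0).trans hqp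
  have hx3 : (1 - rv d0) * (1 - rv d0) - 2 * (1 - rv d0) * (d - rv d0) ≤ (1 - d) ^ 2 := by
    nlinarith only [sq_nonneg (d - rv d0)]
  have hvs := mul_nonneg hV0 hSG0
  have hvk := mul_nonneg hV0 hka
  have hTT : rv (2 * t) = 1 - rv (WW - 2 * t) := by rw [hVe]; ring
  have c0 := E0N_sound h8 h4 (le_refl _)
  have c1 := E0N_sound h9 h4 hd00
  have e0 := E1N_sound h10 h4 (le_refl _) hx2L
  have e1 := E1N_sound h11 h4 hd00 hx2L
  rw [hx0e] at e0 e1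
  rw [hTT] at e0 e1
  refine ⟨hD00, hD11, h5, ?_, ?_⟩
  · rw [Sf_zero]
    unfold LLc gt
    exact E0_real hvs hvk hD01 hd0 hd1 hu0 hu1 hC hgp2 hk0 hk1 c0 c1
  · rw [Sf_zero]
    unfold LLc Rp gt
    exact E1_real hV1 hSG0 hka hV0 hD01 hd0 hd1 hu2 hu3 hC hgp2 hq2 hx3 sE1a sE1b e0 e1

end Vale.Agent.Lib.P322y
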