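import Vale.Agent.Lib.P322y.MElim

/-! The dual pairs: monotonicity in the noise, the elementary family and the double root family. -/

set_option linter.unusedVariables false
set_option linter.unusedSectionVars false

namespace Vale.Agent.Lib.P322y

open Vale.Agent.Lib.P311 Vale.Agent.Lib.P322 Vale.Agent.Lib.P322x

/-- Concavity of `H`, in the form of a two point inequality. -/
lemma H_mix {x y a b : ℝ} (hx : |x| ≤ 1) (hy : |y| ≤ 1) (ha : 0 ≤ a) (hb : 0 ≤ b)
    (hab : a + b = 1) : a * H x + b * H y ≤ H (a * x + b * y) := by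
  have hx1 := abs_le.mp hx
  have hy1 := abs_le.mp hy
  have c := Real.concaveOn_negMulLog
  have c1 := c.2 (x := (1 + x) / 2) (y := (1 + y) / 2) (Set.mem_Ici.mpr (by linarith))
    (Set.mem_Ici.mpr (by linarith)) ha hb hab
  have c2 := c.2 (x := (1 - x) / 2) (y := (1 - y) / 2) (Set.mem_Ici.mpr (by linarith))
    (Set.mem_Ici.mpr (by linarith)) ha hb hab
  simp only [smul_eq_mul] at c1 c2
  have hb' : b = 1 - a := by linarith
  have e1 : a * ((1 + x) / 2) + b * ((1 + y) / 2) = (1 + (a * x + b * y)) / 2 := by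
    rw [hb']; ring
  have e2 : a * ((1 - x) / 2) + b * ((1 - y) / 2) = (1 - (a * x + b * y)) / 2 := by
    rw [hb']; ring
  rw [e1] at c1
  rw [e2] at c2
  unfold H
  linarith

lemma abs_mix_le {x y a b : ℝ} (hx : |x| ≤ 1) (hy : |y| ≤ 1) (ha : 0 ≤ a) (hb : 0 ≤ b)
    (hab : a + b = 1) : |a * x + b * y| ≤ 1 := by
  have hx1 := abs_le.mp hx
  have hy1 := abs_le.mp hy
  rw [abs_le]
  constructor <;> nlinarith

/-- `H` decreases away from the origin. -/
lemma H_scale_ge {ρ r : ℝ} (h0 : 0 ≤ ρ) (h1 : ρ ≤ 1) (hr : |r| ≤ 1) : H r ≤ H (ρ * r) := by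
  have hr' : |-r| ≤ 1 := by rwa [abs_neg]
  have h := H_mix (a := (1 + ρ) / 2) (b := (1 - ρ) / 2) hr hr' (by linarith) (by linarith)
    (by ring)
  rw [H_neg] at h
  have e : (1 + ρ) / 2 * r + (1 - ρ) / 2 * -r = ρ * r := by ring
  rw [e] at h
  nlinarith

/-- The one-step entropy increases with the noise. -/
lemma NN_mono {e e' a b : ℝ} (h0 : 0 ≤ e) (hee : e ≤ e') (h1 : e' ≤ 1 / 2) (ha : |a| ≤ 1)
    (hb : |b| ≤ 1) : NN e a b ≤ NN e' a b := by
  rcases eq_or_lt_of_le hee with h | hlt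
  · rw [h]
  have hρ : 0 < 1 - 2 * e := by linarith
  have hA : |(1 - e) * a + e * b| ≤ 1 := abs_mix_le ha hb (by linarith) h0 (by ring)
  have hB : |(1 - e) * b + e * a| ≤ 1 := abs_mix_le hb ha (by linarith) h0 (by ring)
  set w := (1 - 2 * e') / (1 - 2 * e) with hw
  have hw0 : 0 ≤ w := div_nonneg (by linarith) hρ.le
  have hw1 : w ≤ 1 := by
    rw [hw, div_le_one hρ]; linarith
  have hwe : w * (1 - 2 * e) = 1 - 2 * e' := by
    rw [hw]; field_simp
  have m1 := H_mix (a := (1 + w) / 2) (b := (1 - w) / 2) hA hB (by linarith) (by linarith)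
    (by ring)
  have m2 := H_mix (a := (1 - w) / 2) (b := (1 + w) / 2) hA hB (by linarith) (by linarith)
    (by ring)
  have e1 : (1 + w) / 2 * ((1 - e) * a + e * b) + (1 - w) / 2 * ((1 - e) * b + e * a)
      = (1 - e') * a + e' * b := by
    have h2 : e' = (1 - w * (1 - 2 * e)) / 2 := by linarith
    rw [h2]; ring
  have e2 : (1 - w) / 2 * ((1 - e) * a + e * b) + (1 + w) / 2 * ((1 - e) * b + e * a)
      = e' * a + (1 - e') * b := by
    have h2 : e' = (1 - w * (1 - 2 * e)) / 2 := by linarith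
    rw [h2]; ring
  rw [e1] at m1
  rw [e2] at m2
  unfold NN
  have e3 : e * a + (1 - e) * b = (1 - e) * b + e * a := by ring
  rw [e3]
  nlinarith

/-- Monotonicity of the dual pairs. -/
theorem ValidPair.mono {e e' th v th' v' : ℝ} (h : ValidPair e th v) (he0 : 0 ≤ e) (hee : e ≤ e')
    (he1 : e' ≤ 1 / 2) (hth0 : 0 ≤ th') (hth : th' ≤ th) (hv0 : 0 ≤ v') (hv : v' ≤ v) :
    ValidPair e' th' v' := by
  obtain ⟨h1, h2, h3, h4⟩ := h
  refine ⟨hth0, hv0, hv.trans h3, fun a b ha hb => ?_⟩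
  have hHa := H_nonneg ha
  have hHb := H_nonneg hb
  have hS : v' / 2 * (H a + H b) ≤ v / 2 * (H a + H b) :=
    mul_le_mul_of_nonneg_right (by linarith) (by linarith)
  rcases le_total b a with hab | hab
  · have h5 := h4 a b ha hb
    have h6 := NN_mono (a := a) (b := b) he0 hee he1 ha hb
    have h7 : th' * ((a - b) / 2) ≤ th * ((a - b) / 2) :=
      mul_le_mul_of_nonneg_right hth (by linarith)
    linarith
  · have h5 := h4 b a hb ha
    have h6 := NN_mono (a := b) (b := a) he0 hee he1 hb ha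
    have h7 : th' * ((a - b) / 2) ≤ 0 :=
      mul_nonpos_of_nonneg_of_nonpos hth0 (by linarith)
    have h8 : 0 ≤ th * ((b - a) / 2) := mul_nonneg h1 (by linarith)
    have e5 : H b + H a = H a + H b := by ring
    rw [e5] at h5
    have h9 : NN e' a b = NN e' b a := NN_comm _ _ _
    linarith

/-- The gain is smallest on the antisymmetric diagonal. -/
lemma Dlt_ge_diag {e a b : ℝ} (h0 : 0 < e) (h1 : e < 1) (ha : |a| ≤ 1) (hb : |b| ≤ 1) :
    Dlt e ((a - b) / 2) ((b - a) / 2) ≤ Dlt e a b := by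
  have hna : |-a| ≤ 1 := by rwa [abs_neg]
  have hnb : |-b| ≤ 1 := by rwa [abs_neg]
  have hJ := Dlt_mean_le (n := 1) h0 h1
    (a := fun z => if z 0 then a else -b) (b := fun z => if z 0 then b else -a)
    (by intro z; split_ifs <;> assumption)
    (by intro z; split_ifs <;> assumption)
  have hc : ∀ (F : (Fin 1 → Bool) → ℝ) (p q : ℝ), (∀ z : Fin 1 → Bool, z 0 = false → F z = p) →
      (∀ z : Fin 1 → Bool, z 0 = true → F z = q) → mean F = (p + q) / 2 := by
    intro F p q hp hq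
    rw [mean_split]
    have e1 : mean (child F false) = p := by
      have : ∀ x, child F false x = p := by
        intro x; apply hp; simp
      rw [mean_congr this, mean_const]
    have e2 : mean (child F true) = q := by
      have : ∀ x, child F true x = q := by
        intro x; apply hq; simp
      rw [mean_congr this, mean_const]
    rw [e1, e2]
  have m1 : mean (fun z : Fin 1 → Bool => if z 0 then a else -b) = (a - b) / 2 := by
    rw [hc _ (-b) a (fun z hz => by simp [hz]) (fun z hz => by simp [hz])]; ring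
  have m2 : mean (fun z : Fin 1 → Bool => if z 0 then b else -a) = (b - a) / 2 := by
    rw [hc _ (-a) b (fun z hz => by simp [hz]) (fun z hz => by simp [hz])]; ring
  have m3 : mean (fun z : Fin 1 → Bool => Dlt e (if z 0 then a else -b) (if z 0 then b else -a))
      = Dlt e a b := by
    have hsym : Dlt e (-b) (-a) = Dlt e a b := by
      unfold Dlt
      rw [NN_neg, NN_comm, H_neg, H_neg]
      ring
    rw [hc _ (Dlt e (-b) (-a)) (Dlt e a b) (fun z hz => by simp [hz]) (fun z hz => by simp [hz]),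
      hsym]
    ring
  rw [m1, m2, m3] at hJ
  exact hJ

/-- The value of the gain on the antisymmetric diagonal. -/
lemma Dlt_diag (e x : ℝ) : Dlt e x (-x) = H ((1 - 2 * e) * x) - H x := by
  unfold Dlt NN
  have e1 : (1 - e) * x + e * -x = (1 - 2 * e) * x := by ring
  have e2 : e * x + (1 - e) * -x = -((1 - 2 * e) * x) := by ring
  rw [e1, e2, H_neg, H_neg]
  ring

/-- The entropy of the two faces is at least the entropy of the gap. -/
lemma H_add_ge_gap {a b : ℝ} (ha : |a| ≤ 1) (hb : |b| ≤ 1) (hab : b ≤ a) :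
    H (1 - 2 * ((a - b) / 2)) ≤ H a + H b := by
  have ha1 := abs_le.mp ha
  have hb1 := abs_le.mp hb
  set x := (a - b) / 2 with hx
  have hx1 : x ≤ 1 := by rw [hx]; linarith
  have hx0 : 0 ≤ x := by rw [hx]; linarith
  rcases eq_or_lt_of_le hx1 with hx2 | hx2
  · rw [hx2]
    have : (1 - 2 * 1 : ℝ) = -1 := by norm_num
    rw [this, H_neg_one]
    exact add_nonneg (H_nonneg ha) (H_nonneg hb)
  · have hd : 0 < 2 * (1 - x) := by linarith
    set l := (a + 1 - 2 * x) / (2 * (1 - x)) with hl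
    have hl0 : 0 ≤ l := div_nonneg (by rw [hx]; linarith) hd.le
    have hl1 : l ≤ 1 := by
      rw [hl, div_le_one hd]; linarith
    have hle : l * (2 * (1 - x)) = a + 1 - 2 * x := by
      rw [hl]; field_simp
    have g0 : |1 - 2 * x| ≤ 1 := by rw [abs_le]; constructor <;> linarith
    have g1 : |2 * x - 1| ≤ 1 := by rw [abs_le]; constructor <;> linarith
    have o1 : |(1 : ℝ)| ≤ 1 := by norm_num
    have o2 : |(-1 : ℝ)| ≤ 1 := by norm_num
    have m1 := H_mix (a := l) (b := 1 - l) o1 g1 hl0 (by linarith) (by ring)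
    have m2 := H_mix (a := l) (b := 1 - l) g0 o2 hl0 (by linarith) (by ring)
    have e1 : l * 1 + (1 - l) * (2 * x - 1) = a := by
      have : a = l * (2 * (1 - x)) - 1 + 2 * x := by linarith
      rw [this]; ring
    have e2 : l * (1 - 2 * x) + (1 - l) * -1 = b := by
      have hbb : b = a - 2 * x := by rw [hx]; ring
      have : a = l * (2 * (1 - x)) - 1 + 2 * x := by linarith
      rw [hbb, this]; ring
    rw [e1, H_one] at m1
    rw [e2, H_neg_one] at m2
    have e3 : H (2 * x - 1) = H (1 - 2 * x) := by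
      rw [← H_neg]; congr 1; ring
    rw [e3] at m1
    nlinarith

/-- Reduction of a dual pair to a one-dimensional inequality. -/
theorem valid_of_gap {e th t : ℝ} (h0 : 0 < e) (h1 : e < 1) (hth : 0 ≤ th) (ht0 : 0 ≤ t)
    (ht1 : 2 * t ≤ 1)
    (hP : ∀ x : ℝ, 0 ≤ x → x ≤ 1 → th * x ≤ H ((1 - 2 * e) * x) - H x + t * H (1 - 2 * x)) :
    ValidPair e th (1 - 2 * t) := by
  have key : ∀ a b : ℝ, |a| ≤ 1 → |b| ≤ 1 → b ≤ a →
      th * ((a - b) / 2) + (1 - 2 * t) / 2 * (H a + H b) ≤ NN e a b := by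
    intro a b ha hb hab
    have ha1 := abs_le.mp ha
    have hb1 := abs_le.mp hb
    have hx := hP ((a - b) / 2) (by linarith) (by linarith)
    have hD := Dlt_ge_diag h0 h1 ha hb
    have e1 : (b - a) / 2 = -((a - b) / 2) := by ring
    rw [e1, Dlt_diag] at hD
    have hG := H_add_ge_gap ha hb hab
    have hG' := mul_le_mul_of_nonneg_left hG ht0
    unfold Dlt at hD
    nlinarith
  refine ⟨hth, by linarith, by linarith, fun a b ha hb => ?_⟩
  rcases le_total b a with hab | hab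
  · exact key a b ha hb hab
  · have h5 := key b a hb ha hab
    have h7 : 0 ≤ th * ((b - a) / 2) := mul_nonneg hth (by linarith)
    have h8 : th * ((a - b) / 2) ≤ 0 :=
      mul_nonpos_of_nonneg_of_nonpos hth (by linarith)
    rw [NN_comm] at h5
    have e : H b + H a = H a + H b := by ring
    rw [e] at h5
    linarith

/-! The elementary family. -/

lemma H_ge_log_two {u : ℝ} (h : |u| ≤ 1) : Real.log 2 * (1 - u ^ 2) ≤ H u := by
  have key : ∀ w : ℝ, 0 ≤ w → w ≤ 1 → Real.log 2 * (1 - w ^ 2) ≤ H w := by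
    intro w h0 h1
    have hw : |w| ≤ 1 := by rw [abs_of_nonneg h0]; exact h1
    rw [H_eq hw]
    have h2 := Psi_mul_le (ρ := w) (w := 1) h0 h1 (by norm_num)
    rw [mul_one, Psi_one] at h2
    nlinarith
  rcases le_total 0 u with h0 | h0
  · exact key u h0 (abs_le.mp h).2
  · have := key (-u) (by linarith) (by linarith [(abs_le.mp h).1])
    rw [H_neg] at this
    nlinarith

lemma Jt_ge_quad {y x : ℝ} (hx0 : 0 ≤ x) (h1 : y + x ≤ 1) (h2 : y - x ≥ -1) (hy1 : y < 1)
    (hy2 : -1 < y) : x ^ 2 / (2 * (1 - y ^ 2)) ≤ Jt y x := by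
  have hp : 0 < 1 + y := by linarith
  have hn : 0 < 1 - y := by linarith
  have hy : |y| < 1 := abs_lt.mpr ⟨hy2, hy1⟩
  have hd : |y| + |x| ≤ 1 := by
    rw [abs_of_nonneg hx0]
    rcases abs_cases y with h | h <;> rw [h.1] <;> linarith
  rw [Jt_formula hd hy]
  have a1 : |x / (1 + y)| ≤ 1 := by
    rw [abs_of_nonneg (by positivity), div_le_one hp]; linarith
  have a2 : |x / (1 - y)| ≤ 1 := by
    rw [abs_of_nonneg (by positivity), div_le_one hn]; linarith
  have b1 := half_sq_le_Psi' a1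
  have b2 := half_sq_le_Psi' a2
  have c1 := mul_le_mul_of_nonneg_left b1 hp.le
  have c2 := mul_le_mul_of_nonneg_left b2 hn.le
  have e : x ^ 2 / (2 * (1 - y ^ 2))
      = ((1 + y) * ((x / (1 + y)) ^ 2 / 2) + (1 - y) * ((x / (1 - y)) ^ 2 / 2)) / 2 := by
    have hw : 1 - y ^ 2 = (1 + y) * (1 - y) := by ring
    rw [hw]
    field_simp
    ring
  rw [e]
  linarith

lemma V1_alg {σ τ th w x : ℝ} (hτ : 0 ≤ τ) (hτ1 : 4 * τ ≤ σ) (hthτ : th ^ 2 ≤ 4 * τ * (σ - 4 * τ))
    (hw0 : 0 < w) (hw1 : w ≤ 1) : th * x ≤ σ * (x ^ 2 / (2 * w)) + 2 * τ * (w - x ^ 2) := by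
  have hσ : 0 ≤ σ := by linarith
  have hB : 0 ≤ σ - 4 * τ * w := by nlinarith
  have hq : 0 ≤ (σ - 4 * τ * w) * x ^ 2 - 2 * w * th * x + 4 * τ * w ^ 2 := by
    rcases eq_or_lt_of_le hτ with h5 | h5
    · have hth0 : th = 0 := by
        have : th ^ 2 ≤ 0 := by rw [← h5] at hthτ; simpa using hthτ
        exact pow_eq_zero_iff (two_ne_zero) |>.mp (le_antisymm this (sq_nonneg th))
      rw [hth0, ← h5]
      have : 0 ≤ σ * x ^ 2 := by positivity
      simpa using this
    · have h7 : th ^ 2 ≤ 4 * τ * (σ - 4 * τ * w) := by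
        refine hthτ.trans ?_
        have : 4 * τ * (σ - 4 * τ) ≤ 4 * τ * (σ - 4 * τ * w) := by
          apply mul_le_mul_of_nonneg_left _ (by linarith)
          nlinarith
        exact this
      have h6 : 0 ≤ 4 * τ * ((σ - 4 * τ * w) * x ^ 2 - 2 * w * th * x + 4 * τ * w ^ 2) := by
        have h8 : 0 ≤ (4 * τ * (σ - 4 * τ * w) - th ^ 2) * x ^ 2 :=
          mul_nonneg (by linarith) (sq_nonneg x)
        have e : 4 * τ * ((σ - 4 * τ * w) * x ^ 2 - 2 * w * th * x + 4 * τ * w ^ 2)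
            = (4 * τ * w - th * x) ^ 2 + (4 * τ * (σ - 4 * τ * w) - th ^ 2) * x ^ 2 := by ring
        rw [e]
        positivity
      exact nonneg_of_mul_nonneg_right h6 (by linarith)
  have e7 : σ * (x ^ 2 / (2 * w)) + 2 * τ * (w - x ^ 2) - th * x
      = ((σ - 4 * τ * w) * x ^ 2 - 2 * w * th * x + 4 * τ * w ^ 2) / (2 * w) := by
    field_simp
    ring
  have : 0 ≤ σ * (x ^ 2 / (2 * w)) + 2 * τ * (w - x ^ 2) - th * x := by
    rw [e7]; positivity
  linarith

/-- The elementary dual pairs. -/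
theorem V1_valid {e th τ : ℝ} (h0 : 0 < e) (h1 : e ≤ 1 / 2) (hth : 0 ≤ th) (hτ : 0 ≤ τ)
    (hτ1 : 4 * τ ≤ sg e) (hτ2 : 2 * τ ≤ Real.log 2)
    (hthτ : th ^ 2 ≤ 4 * τ * (sg e - 4 * τ)) :
    ValidPair e th (1 - 2 * τ / Real.log 2) := by
  have hlog : 0 < Real.log 2 := Real.log_pos (by norm_num)
  set t := τ / Real.log 2 with ht
  have htl : t * Real.log 2 = τ := by rw [ht]; field_simp
  have ht0 : 0 ≤ t := div_nonneg hτ hlog.le
  have ht1 : 2 * t ≤ 1 := by
    have : 2 * t * Real.log 2 ≤ 1 * Real.log 2 := by nlinarith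
    exact le_of_mul_le_mul_right this hlog
  have e2 : 2 * τ / Real.log 2 = 2 * t := by rw [ht]; ring
  rw [e2]
  have key : ∀ a b : ℝ, |a| ≤ 1 → |b| ≤ 1 → b ≤ a →
      th * ((a - b) / 2) + (1 - 2 * t) / 2 * (H a + H b) ≤ NN e a b := by
    intro a b ha hb hab
    have ha1 := abs_le.mp ha
    have hb1 := abs_le.mp hb
    have hHa := H_nonneg ha
    have hHb := H_nonneg hb
    rcases eq_or_lt_of_le hab with heq | hlt
    · subst heq
      have : NN e b b = H b := by
        unfold NN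
        have e3 : (1 - e) * b + e * b = b := by ring
        have e4 : e * b + (1 - e) * b = b := by ring
        rw [e3, e4]; ring
      rw [this]
      have e5 : th * ((b - b) / 2) = 0 := by ring
      rw [e5]
      nlinarith
    · set x := (a - b) / 2 with hx
      set y := (a + b) / 2 with hy
      have hx0 : 0 < x := by rw [hx]; linarith
      have hxa : y + x = a := by rw [hx, hy]; ring
      have hxb : y - x = b := by rw [hx, hy]; ring
      have hy1 : y < 1 := by linarith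
      have hy2 : -1 < y := by linarith
      set w := 1 - y ^ 2 with hw
      have hw0 : 0 < w := by rw [hw]; nlinarith
      have hw1 : w ≤ 1 := by rw [hw]; nlinarith [sq_nonneg y]
      have hD := Dlt_means (A := a) (B := b) h0.le h1 ha hb
      rw [← hx, ← hy] at hD
      have hJ := Jt_ge_quad hx0.le (by linarith) (by linarith) hy1 hy2
      rw [← hw] at hJ
      have hsg : 0 ≤ sg e := sg_nonneg h0.le (by linarith)
      have hJ' := mul_le_mul_of_nonneg_left hJ hsg
      have hG1 := H_ge_log_two ha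
      have hG2 := H_ge_log_two hb
      have hsum : 2 * Real.log 2 * (w - x ^ 2) ≤ H a + H b := by
        have : a ^ 2 + b ^ 2 = 2 * x ^ 2 + 2 * y ^ 2 := by rw [← hxa, ← hxb]; ring
        have hw' : y ^ 2 = 1 - w := by rw [hw]; ring
        nlinarith
      have hT : 2 * τ * (w - x ^ 2) ≤ t * (H a + H b) := by
        have := mul_le_mul_of_nonneg_left hsum ht0
        have e6 : t * (2 * Real.log 2 * (w - x ^ 2)) = 2 * (t * Real.log 2) * (w - x ^ 2) := by ring
        rw [e6, htl] at this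
        exact this
      have hfin := V1_alg (x := x) hτ hτ1 hthτ hw0 hw1
      unfold Dlt at hD
      have e9 : (1 - 2 * t) / 2 * (H a + H b) = (H a + H b) / 2 - t * (H a + H b) := by ring
      rw [e9]
      linarith
  refine ⟨hth, by linarith, by linarith, fun a b ha hb => ?_⟩
  rcases le_total b a with hab | hab
  · exact key a b ha hb hab
  · have h5 := key b a hb ha hab
    have h7 : 0 ≤ th * ((b - a) / 2) := mul_nonneg hth (by linarith)
    have h8 : th * ((a - b) / 2) ≤ 0 :=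
      mul_nonpos_of_nonneg_of_nonpos hth (by linarith)
    rw [NN_comm] at h5
    have e8 : H b + H a = H a + H b := by ring
    rw [e8] at h5
    linarith

lemma sg_le_one (e : ℝ) : sg e ≤ 1 := by
  unfold sg
  nlinarith [sq_nonneg (2 * e - 1)]

lemma sg_pos {e : ℝ} (h0 : 0 < e) (h1 : e < 1) : 0 < sg e := by
  unfold sg
  have : 0 < 1 - e := by linarith
  positivity

/-- The elementary dual pairs, simple form: `v = 1 - θ² / (σ² log 2)`. -/
theorem V1_simple {e th : ℝ} (h0 : 0 < e) (h1 : e ≤ 1 / 2) (hth : 0 ≤ th) (hth1 : 2 * th ≤ sg e) :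
    ValidPair e th (1 - th ^ 2 / (sg e * Real.log 2)) := by
  have hs : 0 < sg e := sg_pos h0 (by linarith)
  have hs1 := sg_le_one e
  have hlog : 0 < Real.log 2 := Real.log_pos (by norm_num)
  have hlog2 : (1 : ℝ) / 2 ≤ Real.log 2 := by
    have := Real.log_two_gt_d9
    linarith
  set τ := th ^ 2 / (2 * sg e) with hτ
  have hτs : τ * (2 * sg e) = th ^ 2 := by rw [hτ]; field_simp
  have hτ0 : 0 ≤ τ := by rw [hτ]; positivity
  have h2 : th ^ 2 ≤ sg e ^ 2 / 4 := by nlinarith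
  have hτ1 : 4 * τ ≤ sg e := by
    have : 4 * τ * sg e ≤ sg e * sg e := by nlinarith
    exact le_of_mul_le_mul_right this hs
  have hτ4 : 8 * τ ≤ sg e := by
    have : 8 * τ * sg e ≤ sg e * sg e := by nlinarith
    exact le_of_mul_le_mul_right this hs
  have hτ2 : 2 * τ ≤ Real.log 2 := by linarith
  have hthτ : th ^ 2 ≤ 4 * τ * (sg e - 4 * τ) := by
    have : 4 * τ * (sg e - 4 * τ) - th ^ 2 = 2 * τ * (sg e - 8 * τ) := by
      rw [← hτs]; ring
    have h3 : 0 ≤ 2 * τ * (sg e - 8 * τ) := mul_nonneg (by linarith) (by linarith)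
    linarith
  have hv := V1_valid h0 h1 hth hτ0 hτ1 hτ2 hthτ
  have e : 2 * τ / Real.log 2 = th ^ 2 / (sg e * Real.log 2) := by
    rw [hτ]; field_simp
  rwa [e] at hv

/-! The double root family. -/

/-- The numerator of the derivative of `P(x) / x`. -/
noncomputable def Nf (ρ t x : ℝ) : ℝ :=
  Real.log (1 - ρ ^ 2 * x ^ 2) / 2 - Real.log (1 - x ^ 2) / 2 + t * Real.log (1 - x)

/-- The increasing function that controls `Nf`. -/
noncomputable def Qf (ρ x : ℝ) : ℝ := (1 - ρ ^ 2) * x / ((1 + x) * (1 - ρ ^ 2 * x ^ 2))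

/-- The one-dimensional function of the certificate. -/
noncomputable def Pf (ρ t th x : ℝ) : ℝ := H (ρ * x) - H x + t * H (1 - 2 * x) - th * x

lemma sq_mul_lt_one {ρ x : ℝ} (h0ρ : 0 ≤ ρ) (hρ1 : ρ ≤ 1) (hx0 : 0 ≤ x) (hx1 : x < 1) :
    ρ ^ 2 * x ^ 2 < 1 := by
  have h1 : ρ ^ 2 ≤ 1 := by nlinarith
  have h2 : x ^ 2 < 1 := by nlinarith
  have h3 : ρ ^ 2 * x ^ 2 ≤ 1 * x ^ 2 := mul_le_mul_of_nonneg_right h1 (sq_nonneg x)
  linarith

lemma Nf_hasDerivAt {ρ t x : ℝ} (h0ρ : 0 ≤ ρ) (hρ1 : ρ ≤ 1) (hx0 : 0 ≤ x) (hx1 : x < 1) :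
    HasDerivAt (Nf ρ t) ((Qf ρ x - t) / (1 - x)) x := by
  have p1 : 0 < 1 - x := by linarith
  have p2 : 0 < 1 + x := by linarith
  have p3 : 0 < 1 - x ^ 2 := by nlinarith
  have p4 : 0 < 1 - ρ ^ 2 * x ^ 2 := by linarith [sq_mul_lt_one h0ρ hρ1 hx0 hx1]
  have d1 : HasDerivAt (fun y : ℝ => 1 - ρ ^ 2 * y ^ 2) (-(ρ ^ 2 * (2 * x))) x := by
    have := ((hasDerivAt_pow 2 x).const_mul (ρ ^ 2)).const_sub 1
    simpa using this
  have d2 : HasDerivAt (fun y : ℝ => 1 - y ^ 2) (-(2 * x)) x := by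
    have := (hasDerivAt_pow 2 x).const_sub 1
    simpa using this
  have d3 : HasDerivAt (fun y : ℝ => 1 - y) (-1) x := by
    have := (hasDerivAt_id' x).const_sub 1
    simpa using this
  have l1 := (d1.log p4.ne').div_const 2
  have l2 := (d2.log p3.ne').div_const 2
  have l3 := (d3.log p1.ne').const_mul t
  have h := (l1.sub l2).add l3
  have h2 : HasDerivAt (Nf ρ t) _ x := h
  refine h2.congr_deriv ?_
  unfold Qf
  have e : 1 - x ^ 2 = (1 + x) * (1 - x) := by ring
  rw [e]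
  field_simp
  ring

lemma Qf_mono {ρ u x : ℝ} (h0ρ : 0 ≤ ρ) (hρ1 : ρ ≤ 1) (hu0 : 0 ≤ u) (hux : u ≤ x) (hx1 : x < 1) :
    Qf ρ u ≤ Qf ρ x := by
  unfold Qf
  have hu1 : u < 1 := by linarith
  have a1 : 0 < 1 - ρ ^ 2 * x ^ 2 := by linarith [sq_mul_lt_one h0ρ hρ1 (hu0.trans hux) hx1]
  have a2 : 0 < 1 - ρ ^ 2 * u ^ 2 := by linarith [sq_mul_lt_one h0ρ hρ1 hu0 hu1]
  have a3 : 0 ≤ 1 - ρ ^ 2 := by nlinarith
  rw [div_le_div_iff₀ (mul_pos (by linarith) a2) (mul_pos (by linarith) a1)]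
  have b1 : u * (1 + x) ≤ x * (1 + u) := by nlinarith
  have b2 : 1 - ρ ^ 2 * x ^ 2 ≤ 1 - ρ ^ 2 * u ^ 2 := by
    have : u ^ 2 ≤ x ^ 2 := by nlinarith
    nlinarith [sq_nonneg ρ]
  have b3 : u * (1 + x) * (1 - ρ ^ 2 * x ^ 2) ≤ x * (1 + u) * (1 - ρ ^ 2 * u ^ 2) :=
    mul_le_mul b1 b2 a1.le (mul_nonneg (hu0.trans hux) (by linarith))
  have := mul_le_mul_of_nonneg_left b3 a3
  nlinarith

lemma Nf_zero (ρ t : ℝ) : Nf ρ t 0 = 0 := by
  simp [Nf]

/-- The sign of `Nf` from its root. -/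
lemma Nf_sign {ρ t r : ℝ} (h0ρ : 0 ≤ ρ) (hρ1 : ρ ≤ 1) (hr0 : 0 < r) (hr1 : r < 1)
    (hN : Nf ρ t r = 0) :
    (∀ x, 0 ≤ x → x ≤ r → Nf ρ t x ≤ 0) ∧ (∀ x, r ≤ x → x < 1 → 0 ≤ Nf ρ t x) := by
  have hD : ∀ x, 0 ≤ x → x < 1 → HasDerivAt (Nf ρ t) ((Qf ρ x - t) / (1 - x)) x :=
    fun x h1 h2 => Nf_hasDerivAt h0ρ hρ1 h1 h2
  have hC : ∀ a b, 0 ≤ a → b < 1 → ContinuousOn (Nf ρ t) (Set.Icc a b) :=
    fun a b ha hb x hx =>
      (hD x (ha.trans hx.1) (hx.2.trans_lt hb)).continuousAt.continuousWithinAt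
  have hInc : ∀ a b, 0 ≤ a → a ≤ b → b < 1 → t ≤ Qf ρ a → Nf ρ t a ≤ Nf ρ t b := by
    intro a b ha hab hb hq
    have hmono := monotoneOn_of_deriv_nonneg (f := Nf ρ t) (convex_Icc a b) (hC a b ha hb)
      (fun x hx => by
        rw [interior_Icc] at hx
        exact (hD x (ha.trans hx.1.le) (hx.2.trans hb)).differentiableAt.differentiableWithinAt)
      (fun x hx => by
        rw [interior_Icc] at hx
        have hx1 : x < 1 := hx.2.trans hb
        rw [(hD x (ha.trans hx.1.le) hx1).deriv]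
        have hQ := Qf_mono h0ρ hρ1 ha hx.1.le hx1
        exact div_nonneg (by linarith) (by linarith))
    exact hmono (Set.left_mem_Icc.2 hab) (Set.right_mem_Icc.2 hab) hab
  have hDec : ∀ a b, 0 ≤ a → a ≤ b → b < 1 → Qf ρ b ≤ t → Nf ρ t b ≤ Nf ρ t a := by
    intro a b ha hab hb hq
    have hanti := antitoneOn_of_deriv_nonpos (f := Nf ρ t) (convex_Icc a b) (hC a b ha hb)
      (fun x hx => by
        rw [interior_Icc] at hx
        exact (hD x (ha.trans hx.1.le) (hx.2.trans hb)).differentiableAt.differentiableWithinAt)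
      (fun x hx => by
        rw [interior_Icc] at hx
        have hx1 : x < 1 := hx.2.trans hb
        rw [(hD x (ha.trans hx.1.le) hx1).deriv]
        have hQ := Qf_mono h0ρ hρ1 (ha.trans hx.1.le) hx.2.le hb
        exact div_nonpos_of_nonpos_of_nonneg (by linarith) (by linarith))
    exact hanti (Set.left_mem_Icc.2 hab) (Set.right_mem_Icc.2 hab) hab
  have hQr : t ≤ Qf ρ r := by
    by_contra hcon
    push Not at hcon
    have hanti := strictAntiOn_of_deriv_neg (f := Nf ρ t) (convex_Icc 0 r) (hC 0 r le_rfl hr1)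
      (fun x hx => by
        rw [interior_Icc] at hx
        have hx1 : x < 1 := hx.2.trans hr1
        rw [(hD x hx.1.le hx1).deriv]
        have hQ := Qf_mono h0ρ hρ1 hx.1.le hx.2.le hr1
        exact div_neg_of_neg_of_pos (by linarith) (by linarith))
    have := hanti (Set.left_mem_Icc.2 hr0.le) (Set.right_mem_Icc.2 hr0.le) hr0
    rw [Nf_zero, hN] at this
    exact lt_irrefl _ this
  refine ⟨fun x hx0 hxr => ?_, fun x hxr hx1 => ?_⟩
  · rcases le_total (Qf ρ x) t with hq | hq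
    · have := hDec 0 x le_rfl hx0 (hxr.trans_lt hr1) hq
      rwa [Nf_zero] at this
    · have := hInc x r hx0 hxr hr1 hq
      rwa [hN] at this
  · have := hInc r x hr0.le hxr hx1 hQr
    rwa [hN] at this

/-- The derivative of `H`. -/
noncomputable def dH (u : ℝ) : ℝ := (Real.log ((1 - u) / 2) - Real.log ((1 + u) / 2)) / 2

lemma H_hasDerivAt {u : ℝ} (h : |u| < 1) : HasDerivAt H (dH u) u := by
  have h1 := abs_lt.mp h
  have a1 : HasDerivAt (fun u : ℝ => (1 + u) / 2) (1 / 2) u := by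
    simpa using ((hasDerivAt_id' u).const_add 1).div_const 2
  have a2 : HasDerivAt (fun u : ℝ => (1 - u) / 2) (-1 / 2) u := by
    simpa using ((hasDerivAt_id' u).const_sub 1).div_const 2
  have n1 : (1 + u) / 2 ≠ 0 := by
    have : 0 < (1 + u) / 2 := by linarith [h1.1]
    exact this.ne'
  have n2 : (1 - u) / 2 ≠ 0 := by
    have : 0 < (1 - u) / 2 := by linarith [h1.2]
    exact this.ne'
  have b1 := (Real.hasDerivAt_negMulLog n1).comp u a1
  have b2 := (Real.hasDerivAt_negMulLog n2).comp u a2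
  have h := b1.add b2
  have h2 : HasDerivAt H _ u := h
  refine h2.congr_deriv ?_
  unfold dH
  ring

lemma H_continuous : Continuous H := by
  have c := Real.continuous_negMulLog
  unfold H
  fun_prop

/-- Tangent identity for `H`. -/
lemma tangent_H {u : ℝ} (h : |u| < 1) :
    u * dH u - H u = Real.log (1 - u ^ 2) / 2 - Real.log 2 := by
  have h1 := abs_lt.mp h
  have p1 : 0 < (1 + u) / 2 := by linarith [h1.1]
  have p2 : 0 < (1 - u) / 2 := by linarith [h1.2]
  have e : 1 - u ^ 2 = 2 * 2 * ((1 + u) / 2 * ((1 - u) / 2)) := by ring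
  rw [e, Real.log_mul (by norm_num) (by positivity), Real.log_mul (by norm_num) (by norm_num),
    Real.log_mul p1.ne' p2.ne']
  unfold dH H Real.negMulLog
  ring

/-- Tangent identity for the entropy of the gap. -/
lemma tangent_gap {x : ℝ} (h0 : 0 < x) (h1 : x < 1) :
    -2 * x * dH (1 - 2 * x) - H (1 - 2 * x) = Real.log (1 - x) := by
  have e1 : (1 + (1 - 2 * x)) / 2 = 1 - x := by ring
  have e2 : (1 - (1 - 2 * x)) / 2 = x := by ring
  unfold dH H Real.negMulLog
  rw [e1, e2]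
  ring

lemma Pf_hasDerivAt {ρ t th x : ℝ} (h0ρ : 0 ≤ ρ) (hρ1 : ρ ≤ 1) (hx0 : 0 < x) (hx1 : x < 1) :
    HasDerivAt (Pf ρ t th) (dH (ρ * x) * ρ - dH x + t * (dH (1 - 2 * x) * (-2)) - th) x := by
  have hu1 : |ρ * x| < 1 := by
    rw [abs_of_nonneg (mul_nonneg h0ρ hx0.le)]
    nlinarith
  have hu2 : |x| < 1 := by rw [abs_of_pos hx0]; exact hx1
  have hu3 : |1 - 2 * x| < 1 := by rw [abs_lt]; constructor <;> linarith
  have d1 : HasDerivAt (fun y : ℝ => ρ * y) ρ x := by
    simpa using (hasDerivAt_id' x).const_mul ρ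
  have d3 : HasDerivAt (fun y : ℝ => 1 - 2 * y) (-2) x := by
    simpa using ((hasDerivAt_id' x).const_mul 2).const_sub 1
  have d4 : HasDerivAt (fun y : ℝ => th * y) th x := by
    simpa using (hasDerivAt_id' x).const_mul th
  have b1 := (H_hasDerivAt hu1).comp x d1
  have b2 := H_hasDerivAt hu2
  have b3 := ((H_hasDerivAt hu3).comp x d3).const_mul t
  have h := ((b1.sub b2).add b3).sub d4
  exact h

/-- The derivative of `P(x) / x`. -/
lemma W_hasDerivAt {ρ t th x : ℝ} (h0ρ : 0 ≤ ρ) (hρ1 : ρ ≤ 1) (hx0 : 0 < x) (hx1 : x < 1) :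
    HasDerivAt (fun y => Pf ρ t th y / y) (Nf ρ t x / x ^ 2) x := by
  have hu1 : |ρ * x| < 1 := by
    rw [abs_of_nonneg (mul_nonneg h0ρ hx0.le)]
    nlinarith
  have hu2 : |x| < 1 := by rw [abs_of_pos hx0]; exact hx1
  have h := (Pf_hasDerivAt (t := t) (th := th) h0ρ hρ1 hx0 hx1).div (hasDerivAt_id' x) hx0.ne'
  refine h.congr_deriv ?_
  congr 1
  have i1 := tangent_H hu1
  have i2 := tangent_H hu2
  have i3 := tangent_gap hx0 hx1
  unfold Nf Pf
  rw [mul_pow] at i1
  rw [← i3]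
  have i1' : Real.log (1 - ρ ^ 2 * x ^ 2) / 2 = ρ * x * dH (ρ * x) - H (ρ * x) + Real.log 2 := by
    linarith
  have i2' : Real.log (1 - x ^ 2) / 2 = x * dH x - H x + Real.log 2 := by linarith
  rw [i1', i2']
  ring

lemma Pf_zero (ρ t th : ℝ) : Pf ρ t th 0 = 0 := by
  unfold Pf
  have e : (1 - 2 * 0 : ℝ) = 1 := by norm_num
  rw [e, H_one]
  simp

lemma Pf_continuous (ρ t th : ℝ) : Continuous (Pf ρ t th) := by
  have c := H_continuous
  unfold Pf
  fun_prop

/-- The double root function is nonnegative. -/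
theorem Pf_nonneg {ρ t th r : ℝ} (h0ρ : 0 ≤ ρ) (hρ1 : ρ ≤ 1) (hr0 : 0 < r) (hr1 : r < 1)
    (hN : Nf ρ t r = 0) (hP : Pf ρ t th r = 0) {x : ℝ} (hx0 : 0 ≤ x) (hx1 : x ≤ 1) :
    0 ≤ Pf ρ t th x := by
  obtain ⟨s1, s2⟩ := Nf_sign h0ρ hρ1 hr0 hr1 hN
  have hWr : Pf ρ t th r / r = 0 := by rw [hP]; simp
  rcases eq_or_lt_of_le hx0 with h | hx0'
  · rw [← h, Pf_zero]
  have hCont : ∀ D : Set ℝ, (∀ y ∈ D, y ≠ 0) → ContinuousOn (fun y => Pf ρ t th y / y) D := by
    intro D hD
    exact ((Pf_continuous ρ t th).continuousOn).div (continuousOn_id' D) hD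
  have hW : 0 ≤ Pf ρ t th x / x := by
    rcases le_total x r with hxr | hxr
    · have hanti := antitoneOn_of_deriv_nonpos (f := fun y => Pf ρ t th y / y)
        (convex_Icc x r) (hCont _ (fun y hy => (hx0'.trans_le hy.1).ne'))
        (fun y hy => by
          rw [interior_Icc] at hy
          exact (W_hasDerivAt h0ρ hρ1 (hx0'.trans hy.1) (hy.2.trans hr1)).differentiableAt.differentiableWithinAt)
        (fun y hy => by
          rw [interior_Icc] at hy
          have hy0 : 0 < y := hx0'.trans hy.1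
          rw [(W_hasDerivAt h0ρ hρ1 hy0 (hy.2.trans hr1)).deriv]
          exact div_nonpos_of_nonpos_of_nonneg (s1 y hy0.le hy.2.le) (sq_nonneg y))
      have := hanti (Set.left_mem_Icc.2 hxr) (Set.right_mem_Icc.2 hxr) hxr
      simp only at this
      rw [hWr] at this
      exact this
    · have hmono := monotoneOn_of_deriv_nonneg (f := fun y => Pf ρ t th y / y)
        (convex_Icc r x) (hCont _ (fun y hy => (hr0.trans_le hy.1).ne'))
        (fun y hy => by
          rw [interior_Icc] at hy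
          exact (W_hasDerivAt h0ρ hρ1 (hr0.trans hy.1) (hy.2.trans_le hx1)).differentiableAt.differentiableWithinAt)
        (fun y hy => by
          rw [interior_Icc] at hy
          have hy0 : 0 < y := hr0.trans hy.1
          have hy1 : y < 1 := hy.2.trans_le hx1
          rw [(W_hasDerivAt h0ρ hρ1 hy0 hy1).deriv]
          exact div_nonneg (s2 y hy.1.le hy1) (sq_nonneg y))
      have := hmono (Set.left_mem_Icc.2 hxr) (Set.right_mem_Icc.2 hxr) hxr
      simp only at this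
      rw [hWr] at this
      exact this
  have e : Pf ρ t th x = x * (Pf ρ t th x / x) := by field_simp
  rw [e]
  exact mul_nonneg hx0 hW

/-- Side conditions on the exponent of the double root family. -/
lemma tauV2_mem {e s : ℝ} (h0 : 0 < e) (h1 : e < 1 / 2) (hs0 : 0 < s) (hs1 : s < 1 / 2) :
    0 ≤ tauV2 e s ∧ tauV2 e s ≤ 1 := by
  set p := e + (1 - 2 * e) * s with hp
  have hL : 0 < Real.log (1 / (2 * s)) := by
    apply Real.log_pos
    rw [lt_div_iff₀ (by linarith)]
    linarith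
  have hps : p - s = e * (1 - 2 * s) := by rw [hp]; ring
  have hps' : 1 - p - s = (1 - e) * (1 - 2 * s) := by rw [hp]; ring
  have h2s : 0 < 1 - 2 * s := by linarith
  have hpos1 : 0 < p - s := by rw [hps]; exact mul_pos h0 h2s
  have hpos2 : 0 < 1 - p - s := by rw [hps']; exact mul_pos (by linarith) h2s
  have hsp : 0 < s * (1 - s) := mul_pos hs0 (by linarith)
  have hpp : 0 < p * (1 - p) := mul_pos (by linarith) (by linarith)
  have hX1 : 1 ≤ p * (1 - p) / (s * (1 - s)) := by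
    rw [one_le_div hsp]
    nlinarith [mul_pos hpos1 hpos2]
  have hX2 : p * (1 - p) / (s * (1 - s)) ≤ 1 / (2 * s) := by
    rw [div_le_div_iff₀ hsp (by linarith)]
    nlinarith [sq_nonneg (2 * p - 1), mul_pos hs0 h2s]
  unfold tauV2
  rw [← hp]
  constructor
  · exact div_nonneg (Real.log_nonneg hX1) hL.le
  · rw [div_le_one hL]
    exact Real.log_le_log (by positivity) hX2

lemma thetaV2_nonneg {e s : ℝ} (h0 : 0 < e) (h1 : e < 1 / 2) (hs0 : 0 < s) (hs1 : s < 1 / 2) :
    0 ≤ thetaV2 e s := by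
  obtain ⟨ht0, ht1⟩ := tauV2_mem h0 h1 hs0 hs1
  unfold thetaV2
  have hr : |1 - 2 * s| ≤ 1 := by rw [abs_le]; constructor <;> linarith
  have e1 : 1 - 2 * (e + (1 - 2 * e) * s) = (1 - 2 * e) * (1 - 2 * s) := by ring
  rw [e1]
  have h2 := H_scale_ge (ρ := 1 - 2 * e) (by linarith) (by linarith) hr
  have h3 : 0 ≤ H (1 - 4 * s) := H_nonneg (by rw [abs_le]; constructor <;> linarith)
  have h4 : 0 ≤ tauV2 e s / 2 * H (1 - 4 * s) := by positivity
  exact div_nonneg (by linarith) (by linarith)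

/-- The double root family gives dual pairs. -/
theorem V2_valid {e s : ℝ} (h0 : 0 < e) (h1 : e < 1 / 2) (hs0 : 0 < s) (hs1 : s < 1 / 2) :
    ValidPair e (thetaV2 e s) (1 - tauV2 e s) := by
  obtain ⟨ht0, ht1⟩ := tauV2_mem h0 h1 hs0 hs1
  have hth := thetaV2_nonneg h0 h1 hs0 hs1
  set τ := tauV2 e s with hτ
  set r := 1 - 2 * s with hr
  have hr0 : 0 < r := by rw [hr]; linarith
  have hr1 : r < 1 := by rw [hr]; linarith
  set ρ := 1 - 2 * e with hρ
  have hρ0 : 0 ≤ ρ := by rw [hρ]; linarith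
  have hρ1 : ρ ≤ 1 := by rw [hρ]; linarith
  have hL : 0 < Real.log (1 / (2 * s)) := by
    apply Real.log_pos
    rw [lt_div_iff₀ (by linarith)]
    linarith
  set p := e + (1 - 2 * e) * s with hp
  have hp0 : 0 < p := by rw [hp]; have : 0 < (1 - 2 * e) * s := mul_pos (by linarith) hs0; linarith
  have hp1 : p < 1 := by rw [hp]; nlinarith
  have hN : Nf ρ (τ / 2) r = 0 := by
    unfold Nf
    have e1 : 1 - ρ ^ 2 * r ^ 2 = 2 * 2 * (p * (1 - p)) := by
      rw [hp, hρ, hr]; ring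
    have e2 : 1 - r ^ 2 = 2 * 2 * (s * (1 - s)) := by rw [hr]; ring
    have e3 : 1 - r = 2 * s := by rw [hr]; ring
    have hps : 0 < p * (1 - p) := mul_pos hp0 (by linarith)
    have hss : 0 < s * (1 - s) := mul_pos hs0 (by linarith)
    have e4 : τ * Real.log (1 / (2 * s)) = Real.log (p * (1 - p)) - Real.log (s * (1 - s)) := by
      rw [hτ]
      unfold tauV2
      rw [← hp, div_mul_cancel₀ _ hL.ne', Real.log_div hps.ne' hss.ne']
    have e5 : Real.log (2 * s) = -Real.log (1 / (2 * s)) := by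
      rw [one_div, Real.log_inv]; ring
    rw [e1, e2, e3, e5, Real.log_mul (by norm_num) hps.ne', Real.log_mul (by norm_num) hss.ne']
    linear_combination (-1 / 2) * e4
  have hP : Pf ρ (τ / 2) (thetaV2 e s) r = 0 := by
    unfold Pf thetaV2
    have e1 : 1 - 2 * p = ρ * r := by rw [hp, hρ, hr]; ring
    have e2 : 1 - 2 * r = -(1 - 4 * s) := by rw [hr]; ring
    rw [e2, H_neg, ← hp, e1, ← hτ, ← hr]
    field_simp
    ring
  have hv := valid_of_gap (t := τ / 2) h0 (by linarith) hth (by linarith) (by linarith)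
    (fun x hx0 hx1 => by
      have := Pf_nonneg hρ0 hρ1 hr0 hr1 hN hP hx0 hx1
      unfold Pf at this
      linarith)
  have e : 1 - 2 * (τ / 2) = 1 - τ := by ring
  rwa [e] at hv

end Vale.Agent.Lib.P322y
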