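import Vale.Agent.Lib.P322y.NumEnds
import Vale.Agent.Lib.P322y.Valid

/-! The tree certificate for the numeric zone of `(F)`, with natural number arithmetic. -/

set_option linter.unusedVariables false
set_option linter.unusedSectionVars false

namespace Vale.Agent.Lib.P322y

open Vale.Agent.Lib.P322

/-- The certificate statement at a point `(e, d)`. -/
def CertAt (e d : ℝ) : Prop :=
  ∀ m : ℝ, 0 ≤ m → m + d ≤ 1 → 6 * m ^ 2 + d ^ 2 < 4 →
    ∃ th v : ℝ, ValidPair e th v ∧ LL e m ≤ th * d + v / 2 * (LL e (m + d) + LL e (m - d))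

lemma negMulLog_tangent {a b : ℝ} (ha : 0 < a) (hb : 0 < b) :
    Real.negMulLog a ≤ -(a * Real.log b) + (b - a) := by
  have h := Real.log_le_sub_one_of_pos (div_pos hb ha)
  rw [Real.log_div hb.ne' ha.ne'] at h
  have h2 := mul_le_mul_of_nonneg_left h ha.le
  have e : a * (b / a - 1) = b - a := by field_simp
  rw [e] at h2
  unfold Real.negMulLog
  nlinarith

lemma hE_eq (e : ℝ) : hE e = Real.negMulLog e + Real.negMulLog (1 - e) := by
  unfold hE H
  have e1 : (1 + (1 - 2 * e)) / 2 = 1 - e := by ring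
  have e2 : (1 - (1 - 2 * e)) / 2 = e := by ring
  rw [e1, e2]; ring

/-- `ka` is monotone for small `e`. -/
lemma ka_mono {a b : ℝ} (ha : 0 < a) (hab : a ≤ b) (hb : b ≤ 1 / 40) : ka a ≤ ka b := by
  have hb0 : 0 < b := by linarith
  have h1 := negMulLog_tangent ha hb0
  have h2 := negMulLog_tangent (a := 1 - a) (b := 1 - b) (by linarith) (by linarith)
  have hl : 4 * Real.log 2 ≤ Real.log (1 - b) - Real.log b := by
    rw [← Real.log_div (by linarith) hb0.ne']
    have e : (4 : ℝ) * Real.log 2 = Real.log 16 := by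
      have : (16 : ℝ) = 2 ^ 4 := by norm_num
      rw [this, Real.log_pow]; norm_num
    rw [e]
    apply Real.log_le_log (by norm_num)
    rw [le_div_iff₀ hb0]; linarith
  have hl2 := Real.log_pos (show (1 : ℝ) < 2 by norm_num)
  have hba : 0 ≤ b - a := by linarith
  have h3 := mul_le_mul_of_nonneg_left hl hba
  have e4 : sg b - sg a = 4 * (b - a) * (1 - a - b) := by unfold sg; ring
  have h5 : (sg b - sg a) * Real.log 2 ≤ 4 * (b - a) * Real.log 2 := by
    rw [e4]
    have : 4 * (b - a) * (1 - a - b) ≤ 4 * (b - a) * 1 :=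
      mul_le_mul_of_nonneg_left (by linarith) (by linarith)
    have := mul_le_mul_of_nonneg_right this hl2.le
    linarith
  unfold ka
  rw [hE_eq, hE_eq]
  unfold Real.negMulLog at h1 h2 ⊢
  nlinarith

lemma ka_le_kaUN {eb : ℕ} (h0 : 0 < eb) (h1 : eb < WW) : ka (rv eb) ≤ rv (kaUN eb) := by
  have a1 := hUN_sound h0 h1
  have a2 := L2L_sound
  have hb0 : 0 ≤ rv eb := rv_nonneg _
  have hb1 : rv (WW - eb) = 1 - rv eb := rv_WW_sub h1.le
  have hb2 : 0 ≤ 1 - rv eb := by rw [← hb1]; exact rv_nonneg _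
  have hr4 : rv (4 * eb) = 4 * rv eb := by rw [rv_mul_const]; push_cast; ring
  have hsg : 0 ≤ 4 * rv eb * (1 - rv eb) := by positivity
  have a3 : rv (mulD (mulD (4 * eb) (WW - eb)) L2L) ≤ 4 * rv eb * (1 - rv eb) * Real.log 2 :=
    mulD_le (mulD_le (le_of_eq hr4) (le_of_eq hb1)) a2
  have a4 := sub_le_rv_sub (hUN eb) (mulD (mulD (4 * eb) (WW - eb)) L2L)
  unfold ka hE sg kaUN
  linarith

lemma sg_le_sgUN (eb : ℕ) (h1 : eb ≤ WW) : sg (rv eb) ≤ rv (sgUN eb) := by
  have hb0 : 0 ≤ rv eb := rv_nonneg _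
  have hb1 : rv (WW - eb) = 1 - rv eb := rv_WW_sub h1
  have hb2 : 0 ≤ 1 - rv eb := by rw [← hb1]; exact rv_nonneg _
  have hr4 : rv (4 * eb) = 4 * rv eb := by rw [rv_mul_const]; push_cast; ring
  unfold sg sgUN
  exact le_mulU (le_of_eq hr4.symm) (le_of_eq hb1.symm) (by positivity) hb2

lemma rv_le_of_mul {c a : ℕ} (h : c * a ≤ WW) (hc : 0 < c) : rv a ≤ 1 / (c : ℝ) := by
  have hc' : (0 : ℝ) < (c : ℝ) := by exact_mod_cast hc
  have : ((c * a : ℕ) : ℝ) ≤ (WW : ℝ) := by exact_mod_cast h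
  push_cast at this
  unfold rv
  rw [div_le_div_iff₀ WW_pos hc']
  linarith

/-- Everything at one leaf. -/
theorem leafN_sound {ea eb d0 d1 s th t : ℕ}
    (hp : pairN ea s th t = true) (he : endsN eb d0 d1 th t = true) (hab : ea ≤ eb)
    (hb : 40 * eb ≤ WW) {e d : ℝ} (h1 : rv ea ≤ e) (h2 : e ≤ rv eb)
    (h3 : rv d0 ≤ d) (h4 : d ≤ rv d1) : CertAt e d := by
  intro m hm0 hmd hz
  obtain ⟨a1, a2, a3, a4, a5, a6, a7⟩ := pairN_sound hp
  have hebR : rv eb ≤ 1 / 40 := by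
    have := rv_le_of_mul (c := 40) (a := eb) hb (by norm_num)
    norm_num at this ⊢
    linarith
  have heb0 : 0 < eb := by
    rcases Nat.eq_zero_or_pos eb with h | h
    · have : ea = 0 := by omega
      rw [this] at a1
      simp [rv] at a1
    · exact h
  have hebW : eb < WW := by norm_num [WW] at hb ⊢; omega
  have he0 : 0 < e := lt_of_lt_of_le a1 h1
  have he1 : e ≤ 1 / 40 := h2.trans hebR
  have hV := V2_valid a1 (by linarith) a3 a4
  have hka1 : 0 ≤ ka e := ka_nonneg he0.le (by linarith)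
  have hka2 : ka e ≤ ka (rv eb) := ka_mono he0 h2 hebR
  have hka3 : ka (rv eb) ≤ rv (kaUN eb) := ka_le_kaUN heb0 hebW
  have hka4 : 0 ≤ rv (kaUN eb) := by linarith
  obtain ⟨b1, b2, b3, b4, b5⟩ := endsN_sound he hka4 h3 h4
  have hvv : rv (WW - 2 * t) = 1 - 2 * rv t := by
    rw [rv_WW_sub b3, rv_mul_const]; push_cast; ring
  have hv0 : 0 ≤ rv (WW - 2 * t) := rv_nonneg _
  have hv1 : rv (WW - 2 * t) ≤ 1 := by
    rw [hvv]; linarith [rv_nonneg t]
  have hV' : ValidPair e (rv th) (rv (WW - 2 * t)) :=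
    hV.mono a1.le h1 (by linarith) (rv_nonneg _) a6 hv0 (by rw [hvv]; linarith)
  refine ⟨rv th, rv (WW - 2 * t), hV', ?_⟩
  have hsg0 : 0 ≤ sg e := by
    unfold sg
    have : 0 ≤ e * (1 - e) := mul_nonneg he0.le (by linarith)
    nlinarith
  have hsg1 : sg e ≤ sg (rv eb) := by
    unfold sg
    nlinarith
  have hsg2 : sg (rv eb) ≤ rv (sgUN eb) := sg_le_sgUN eb hebW.le
  have hd0 : 0 ≤ d := by linarith
  have hS := Sf_nonneg_of_ends (rv_nonneg (sgUN eb)) hka4 hv0 hv1 hd0 hm0 hmd b4 b5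
  have hanti := S_anti (m := m) (d := d) (th := rv th) hsg0 (hsg1.trans hsg2) hka1
    (hka2.trans hka3) hv0 hv1 hm0 hd0 hmd hz.le
  exact le_of_Sf_nonneg (hS.trans hanti)

/-- The certificate tree. -/
inductive Tr where
  | v1 : Tr
  | lf (s th t : ℕ) : Tr
  | se (em : ℕ) (l r : Tr) : Tr
  | sd (dm : ℕ) (l r : Tr) : Tr

/-- The check of a tree on a rectangle. -/
def chkN : Tr → ℕ → ℕ → ℕ → ℕ → Bool
  | .v1, ea, eb, d0, d1 =>
      Nat.blt 0 ea && Nat.ble ea WW && Nat.ble (10 * mulU d1 (mlnU ea)) (9 * WW)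
  | .lf s th t, ea, eb, d0, d1 =>
      Nat.ble ea eb && Nat.ble (40 * eb) WW && pairN ea s th t && endsN eb d0 d1 th t
  | .se em l r, ea, eb, d0, d1 => chkN l ea em d0 d1 && chkN r em eb d0 d1
  | .sd dm l r, ea, eb, d0, d1 => chkN l ea eb d0 dm && chkN r ea eb dm d1

/-- Soundness of the tree check. -/
theorem chkN_sound (T : Tr) {ea eb d0 d1 : ℕ}
    (h : chkN T ea eb d0 d1 = true) {e d : ℝ} (h1 : rv ea ≤ e) (h2 : e ≤ rv eb)
    (h3 : rv d0 ≤ d) (h4 : d ≤ rv d1) (hd : 0 ≤ d) :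
    d * Real.log (1 / e) ≤ 9 / 10 ∨ CertAt e d := by
  induction T generalizing ea eb d0 d1 with
  | v1 =>
    left
    simp only [chkN, Bool.and_eq_true, Nat.ble_eq, Nat.blt_eq] at h
    obtain ⟨⟨a1, hW⟩, a3⟩ := h
    have hea : 0 < rv ea := div_pos (by exact_mod_cast a1) WW_pos
    have he0 : 0 < e := lt_of_lt_of_le hea h1
    have h5 := mlnU_sound a1 hW
    have e1 : Real.log (1 / rv ea) = -Real.log (rv ea) := by
      rw [one_div, Real.log_inv]
    have h6 : Real.log (1 / e) ≤ Real.log (1 / rv ea) :=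
      Real.log_le_log (by positivity) (one_div_le_one_div_of_le hea h1)
    have hlog : Real.log (1 / e) ≤ rv (mlnU ea) := by linarith
    have hd1 : 0 ≤ rv d1 := rv_nonneg _
    have a3R : rv d1 * rv (mlnU ea) ≤ 9 / 10 := by
      have a4 : rv (10 * mulU d1 (mlnU ea)) ≤ rv (9 * WW) := rv_mono a3
      rw [rv_mul_const, rv_mul_const, rv_WW] at a4
      push_cast at a4
      have := mul_le_rv_mulU d1 (mlnU ea)
      linarith
    by_cases hl : 0 ≤ Real.log (1 / e)
    · calc d * Real.log (1 / e) ≤ rv d1 * Real.log (1 / e) :=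
            mul_le_mul_of_nonneg_right h4 hl
        _ ≤ rv d1 * rv (mlnU ea) := mul_le_mul_of_nonneg_left hlog hd1
        _ ≤ 9 / 10 := a3R
    · push Not at hl
      have : d * Real.log (1 / e) ≤ 0 := mul_nonpos_of_nonneg_of_nonpos hd hl.le
      linarith
  | lf s th t =>
    right
    simp only [chkN, Bool.and_eq_true, Nat.ble_eq] at h
    obtain ⟨⟨⟨a1, a2⟩, a3⟩, a4⟩ := h
    exact leafN_sound a3 a4 a1 a2 h1 h2 h3 h4
  | se em l r ihl ihr =>
    simp only [chkN, Bool.and_eq_true] at h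
    rcases le_total e (rv em) with hc | hc
    · exact ihl h.1 h1 hc h3 h4
    · exact ihr h.2 hc h2 h3 h4
  | sd dm l r ihl ihr =>
    simp only [chkN, Bool.and_eq_true] at h
    rcases le_total d (rv dm) with hc | hc
    · exact ihl h.1 h1 h2 h3 hc
    · exact ihr h.2 h1 h2 hc h4

end Vale.Agent.Lib.P322y
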