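import Vale.Agent.Lib.P322.Check
import Vale.Agent.Lib.P322y.MElim

/-! Fixed point arithmetic on natural numbers with scale `2⁶⁴`, for fast kernel computation, and
fixed point bounds for `-log x`. -/

set_option linter.unusedVariables false
set_option linter.unusedSectionVars false

namespace Vale.Agent.Lib.P322y

open Vale.Agent.Lib.P322

/-- The scale. -/
def WW : ℕ := 18446744073709551616

/-- The real number represented by a natural number. -/
noncomputable def rv (n : ℕ) : ℝ := (n : ℝ) / (WW : ℝ)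

lemma WW_pos : (0 : ℝ) < (WW : ℝ) := by norm_num [WW]

lemma rv_nonneg (n : ℕ) : 0 ≤ rv n := div_nonneg (Nat.cast_nonneg _) WW_pos.le

lemma rv_WW : rv WW = 1 := div_self WW_pos.ne'

lemma rv_add (a b : ℕ) : rv (a + b) = rv a + rv b := by
  unfold rv; push_cast; ring

lemma rv_mono {a b : ℕ} (h : a ≤ b) : rv a ≤ rv b :=
  div_le_div_of_nonneg_right (by exact_mod_cast h) WW_pos.le

lemma rv_sub {a b : ℕ} (h : b ≤ a) : rv (a - b) = rv a - rv b := by
  unfold rv; rw [Nat.cast_sub h]; ring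

lemma sub_le_rv_sub (a b : ℕ) : rv a - rv b ≤ rv (a - b) := by
  rcases le_total b a with h | h
  · rw [rv_sub h]
  · rw [Nat.sub_eq_zero_of_le h]
    have : rv a ≤ rv b := rv_mono h
    have e : rv 0 = 0 := by simp [rv]
    rw [e]; linarith

lemma rv_mul_const (k a : ℕ) : rv (k * a) = (k : ℝ) * rv a := by
  unfold rv; push_cast; ring

/-- Product, rounded down. -/
def mulD (a b : ℕ) : ℕ := a * b / WW

/-- Product, rounded up. -/
def mulU (a b : ℕ) : ℕ := a * b / WW + 1

lemma rv_mulD (a b : ℕ) : rv (mulD a b) ≤ rv a * rv b := by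
  unfold rv mulD
  have h := Nat.cast_div_le (α := ℝ) (m := a * b) (n := WW)
  have hW := WW_pos
  push_cast at h
  calc (((a * b / WW : ℕ) : ℝ)) / (WW : ℝ) ≤ ((a : ℝ) * b / WW) / (WW : ℝ) :=
        div_le_div_of_nonneg_right h hW.le
    _ = (a : ℝ) / WW * ((b : ℝ) / WW) := by field_simp

lemma mul_le_rv_mulU (a b : ℕ) : rv a * rv b ≤ rv (mulU a b) := by
  unfold rv mulU
  have hWn : 0 < WW := by norm_num [WW]
  have h := Nat.lt_succ_iff.mpr (le_refl (a * b / WW))
  have h2 : a * b < (a * b / WW + 1) * WW := by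
    have := Nat.div_add_mod (a * b) WW
    have h3 := Nat.mod_lt (a * b) hWn
    nlinarith
  have h3 : ((a : ℝ) * b) ≤ (((a * b / WW + 1 : ℕ)) : ℝ) * WW := by exact_mod_cast h2.le
  have hW := WW_pos
  have e : (a : ℝ) / WW * ((b : ℝ) / WW) = (a * b : ℝ) / WW / WW := by field_simp
  rw [e]
  apply div_le_div_of_nonneg_right _ hW.le
  rw [div_le_iff₀ hW]
  exact h3

/-- Quotient, rounded down. -/
def divD (a b : ℕ) : ℕ := a * WW / b

lemma rv_divD (a : ℕ) {b : ℕ} (hb : 0 < b) : rv (divD a b) ≤ rv a / rv b := by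
  unfold rv divD
  have h := Nat.cast_div_le (α := ℝ) (m := a * WW) (n := b)
  have hW := WW_pos
  have hb' : (0 : ℝ) < (b : ℝ) := by exact_mod_cast hb
  push_cast at h
  calc (((a * WW / b : ℕ) : ℝ)) / (WW : ℝ) ≤ ((a : ℝ) * WW / b) / (WW : ℝ) :=
        div_le_div_of_nonneg_right h hW.le
    _ = (a : ℝ) / WW / ((b : ℝ) / WW) := by field_simp

/-- `log 2` from below. -/
def L2L : ℕ := 12786308640407511063

/-- `log 2` from above. -/
def L2U : ℕ := 12786308649630883101

lemma L2L_sound : rv L2L ≤ Real.log 2 := by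
  have := Real.log_two_gt_d9
  unfold rv L2L WW
  norm_num
  linarith

lemma L2U_sound : Real.log 2 ≤ rv L2U := by
  have := Real.log_two_lt_d9
  unfold rv L2U WW
  norm_num
  linarith

/-- Partial sum of the series of `atanh`, from below. -/
def psLo (z : ℕ) : ℕ :=
  let y := mulD z z
  mulD z (mulD y (mulD y (mulD y (mulD y 2049638230412172401 + 2635249153387078802)
    + 3689348814741910323) + 6148914691236517205) + WW)

/-- Partial sum of the series of `atanh` with the tail for `z ≤ 1/5`, from above. -/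
def psHi (z : ℕ) : ℕ :=
  let y := mulU z z
  mulU z (mulU y (mulU y (mulU y (mulU y (mulU y 1746850764555828752 + 2049638230412172402)
    + 2635249153387078803) + 3689348814741910324) + 6148914691236517206) + WW)

lemma psLo_sound {z : ℕ} (hz : rv z < 1) : rv (psLo z) ≤ psi (rv z) := by
  set x := rv z with hx
  have hx0 : 0 ≤ x := rv_nonneg z
  have h := psi_ge_partial hx0 hz
  refine le_trans ?_ h
  have hy := rv_mulD z z
  set y := mulD z z with hyd
  have hy0 : 0 ≤ rv y := rv_nonneg y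
  have c9 : rv 2049638230412172401 ≤ 1 / 9 := by unfold rv WW; norm_num
  have c7 : rv 2635249153387078802 ≤ 1 / 7 := by unfold rv WW; norm_num
  have c5 : rv 3689348814741910323 ≤ 1 / 5 := by unfold rv WW; norm_num
  have c3 : rv 6148914691236517205 ≤ 1 / 3 := by unfold rv WW; norm_num
  have a4 := rv_mulD y 2049638230412172401
  have a4' : rv (mulD y 2049638230412172401) ≤ x * x * (1 / 9) := by
    refine a4.trans ?_
    exact mul_le_mul hy c9 (rv_nonneg _) (by positivity)
  have b4 : rv (mulD y 2049638230412172401 + 2635249153387078802) ≤ x * x * (1 / 9) + 1 / 7 := by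
    rw [rv_add]; linarith
  set t4 := mulD y 2049638230412172401 + 2635249153387078802
  have a3 : rv (mulD y t4) ≤ x * x * (x * x * (1 / 9) + 1 / 7) :=
    (rv_mulD y t4).trans (mul_le_mul hy b4 (rv_nonneg _) (by positivity))
  have b3 : rv (mulD y t4 + 3689348814741910323) ≤ x * x * (x * x * (1 / 9) + 1 / 7) + 1 / 5 := by
    rw [rv_add]; linarith
  set t3 := mulD y t4 + 3689348814741910323
  have a2 : rv (mulD y t3) ≤ x * x * (x * x * (x * x * (1 / 9) + 1 / 7) + 1 / 5) :=
    (rv_mulD y t3).trans (mul_le_mul hy b3 (rv_nonneg _) (by positivity))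
  have b2 : rv (mulD y t3 + 6148914691236517205)
      ≤ x * x * (x * x * (x * x * (1 / 9) + 1 / 7) + 1 / 5) + 1 / 3 := by
    rw [rv_add]; linarith
  set t2 := mulD y t3 + 6148914691236517205
  have a1 : rv (mulD y t2) ≤ x * x * (x * x * (x * x * (x * x * (1 / 9) + 1 / 7) + 1 / 5) + 1 / 3) :=
    (rv_mulD y t2).trans (mul_le_mul hy b2 (rv_nonneg _) (by positivity))
  have b1 : rv (mulD y t2 + WW)
      ≤ x * x * (x * x * (x * x * (x * x * (1 / 9) + 1 / 7) + 1 / 5) + 1 / 3) + 1 := by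
    rw [rv_add, rv_WW]; linarith
  set t1 := mulD y t2 + WW
  have a0 : rv (mulD z t1)
      ≤ x * (x * x * (x * x * (x * x * (x * x * (1 / 9) + 1 / 7) + 1 / 5) + 1 / 3) + 1) :=
    (rv_mulD z t1).trans (mul_le_mul le_rfl b1 (rv_nonneg _) hx0)
  have e : psLo z = mulD z t1 := rfl
  rw [e]
  refine a0.trans (le_of_eq ?_)
  ring

lemma psHi_sound {z : ℕ} (hz : rv z ≤ 1 / 5) : psi (rv z) ≤ rv (psHi z) := by
  set x := rv z with hx
  have hx0 : 0 ≤ x := rv_nonneg z
  have h := psi_le_partial hx0 hz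
  refine h.trans ?_
  have hy := mul_le_rv_mulU z z
  set y := mulU z z with hyd
  have hxx : 0 ≤ x * x := by positivity
  have c11 : (1 : ℝ) / 11 * (25 / 24) ≤ rv 1746850764555828752 := by unfold rv WW; norm_num
  have c9 : (1 : ℝ) / 9 ≤ rv 2049638230412172402 := by unfold rv WW; norm_num
  have c7 : (1 : ℝ) / 7 ≤ rv 2635249153387078803 := by unfold rv WW; norm_num
  have c5 : (1 : ℝ) / 5 ≤ rv 3689348814741910324 := by unfold rv WW; norm_num
  have c3 : (1 : ℝ) / 3 ≤ rv 6148914691236517206 := by unfold rv WW; norm_num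
  have a5 : x * x * (1 / 11 * (25 / 24)) ≤ rv (mulU y 1746850764555828752) :=
    (mul_le_mul hy c11 (by positivity) (rv_nonneg _)).trans (mul_le_rv_mulU _ _)
  have b5 : x * x * (1 / 11 * (25 / 24)) + 1 / 9
      ≤ rv (mulU y 1746850764555828752 + 2049638230412172402) := by
    rw [rv_add]; linarith
  set t5 := mulU y 1746850764555828752 + 2049638230412172402
  have a4 : x * x * (x * x * (1 / 11 * (25 / 24)) + 1 / 9) ≤ rv (mulU y t5) :=
    (mul_le_mul hy b5 (by positivity) (rv_nonneg _)).trans (mul_le_rv_mulU _ _)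
  have b4 : x * x * (x * x * (1 / 11 * (25 / 24)) + 1 / 9) + 1 / 7
      ≤ rv (mulU y t5 + 2635249153387078803) := by
    rw [rv_add]; linarith
  set t4 := mulU y t5 + 2635249153387078803
  have a3 : x * x * (x * x * (x * x * (1 / 11 * (25 / 24)) + 1 / 9) + 1 / 7) ≤ rv (mulU y t4) :=
    (mul_le_mul hy b4 (by positivity) (rv_nonneg _)).trans (mul_le_rv_mulU _ _)
  have b3 : x * x * (x * x * (x * x * (1 / 11 * (25 / 24)) + 1 / 9) + 1 / 7) + 1 / 5
      ≤ rv (mulU y t4 + 3689348814741910324) := by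
    rw [rv_add]; linarith
  set t3 := mulU y t4 + 3689348814741910324
  have a2 : x * x * (x * x * (x * x * (x * x * (1 / 11 * (25 / 24)) + 1 / 9) + 1 / 7) + 1 / 5)
      ≤ rv (mulU y t3) :=
    (mul_le_mul hy b3 (by positivity) (rv_nonneg _)).trans (mul_le_rv_mulU _ _)
  have b2 : x * x * (x * x * (x * x * (x * x * (1 / 11 * (25 / 24)) + 1 / 9) + 1 / 7) + 1 / 5)
      + 1 / 3 ≤ rv (mulU y t3 + 6148914691236517206) := by
    rw [rv_add]; linarith
  set t2 := mulU y t3 + 6148914691236517206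
  have a1 : x * x * (x * x * (x * x * (x * x * (x * x * (1 / 11 * (25 / 24)) + 1 / 9) + 1 / 7)
      + 1 / 5) + 1 / 3) ≤ rv (mulU y t2) :=
    (mul_le_mul hy b2 (by positivity) (rv_nonneg _)).trans (mul_le_rv_mulU _ _)
  have b1 : x * x * (x * x * (x * x * (x * x * (x * x * (1 / 11 * (25 / 24)) + 1 / 9) + 1 / 7)
      + 1 / 5) + 1 / 3) + 1 ≤ rv (mulU y t2 + WW) := by
    rw [rv_add, rv_WW]; linarith
  set t1 := mulU y t2 + WW
  have a0 : x * (x * x * (x * x * (x * x * (x * x * (x * x * (1 / 11 * (25 / 24)) + 1 / 9) + 1 / 7)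
      + 1 / 5) + 1 / 3) + 1) ≤ rv (mulU z t1) :=
    (mul_le_mul le_rfl b1 (by positivity) (rv_nonneg _)).trans (mul_le_rv_mulU _ _)
  have e : psHi z = mulU z t1 := rfl
  rw [e]
  refine le_trans (le_of_eq ?_) a0
  ring

/-- The exponent for the normalisation of `x`. -/
def ekk (x : ℕ) : ℕ := 64 - Nat.log2 x

/-- Upper bound for `-log`. -/
def mlnU (x : ℕ) : ℕ :=
  let k := ekk x
  let m := x * 2 ^ k
  if 16 * m < 23 * WW then
    k * L2U - 2 * psLo ((m - WW) * WW / (m + WW))
  else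
    (k - 1) * L2U + 2 * psHi ((2 * WW - m) * WW / (2 * WW + m) + 1)

/-- Lower bound for `-log`. -/
def mlnL (x : ℕ) : ℕ :=
  let k := ekk x
  let m := x * 2 ^ k
  if 16 * m < 23 * WW then
    k * L2L - 2 * psHi ((m - WW) * WW / (m + WW) + 1)
  else
    (k - 1) * L2L + 2 * psLo ((2 * WW - m) * WW / (2 * WW + m))

lemma norm_bounds {x : ℕ} (h0 : 0 < x) (h1 : x ≤ WW) :
    WW ≤ x * 2 ^ ekk x ∧ x * 2 ^ ekk x < 2 * WW ∧ (x < WW → 1 ≤ ekk x) := by
  have hne : x ≠ 0 := h0.ne'
  have l1 : 2 ^ Nat.log2 x ≤ x := Nat.log2_self_le hne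
  have l2 : x < 2 ^ (Nat.log2 x + 1) := Nat.lt_log2_self
  have hW : WW = 2 ^ 64 := by norm_num [WW]
  have l3 : Nat.log2 x ≤ 64 := by
    by_contra hc
    push Not at hc
    have : 2 ^ 65 ≤ 2 ^ Nat.log2 x := Nat.pow_le_pow_right (by norm_num) hc
    have : (2:ℕ) ^ 65 ≤ x := le_trans this l1
    rw [hW] at h1
    norm_num at this h1
    omega
  have e : 2 ^ Nat.log2 x * 2 ^ ekk x = WW := by
    unfold ekk
    rw [← pow_add, hW]
    congr 1
    omega
  constructor
  · rw [← e]
    exact Nat.mul_le_mul_right _ l1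
  constructor
  · have : x * 2 ^ ekk x < 2 ^ (Nat.log2 x + 1) * 2 ^ ekk x :=
      Nat.mul_lt_mul_of_pos_right l2 (by positivity)
    have e2 : 2 ^ (Nat.log2 x + 1) * 2 ^ ekk x = 2 * WW := by
      rw [pow_succ, ← e]; ring
    rwa [e2] at this
  · intro hlt
    unfold ekk
    have : Nat.log2 x < 64 := by
      by_contra hc
      push Not at hc
      have : (2:ℕ) ^ 64 ≤ 2 ^ Nat.log2 x := Nat.pow_le_pow_right (by norm_num) hc
      have : (2:ℕ) ^ 64 ≤ x := le_trans this l1
      rw [hW] at hlt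
      omega
    omega

/-- The decomposition of `-log (rv x)`. -/
lemma mlog_decomp {x : ℕ} (h0 : 0 < x) :
    -Real.log (rv x) = (ekk x : ℝ) * Real.log 2 - Real.log (rv (x * 2 ^ ekk x)) := by
  have hx : (0 : ℝ) < (x : ℝ) := by exact_mod_cast h0
  have hW := WW_pos
  unfold rv
  push_cast
  rw [mul_div_right_comm, Real.log_mul (by positivity) (by positivity), Real.log_pow]
  ring

/-- `log (m / W) = 2 psi z` in the case `W ≤ m`. -/
lemma log_rv_eq_up {m : ℕ} (h1 : WW ≤ m) :
    Real.log (rv m) = 2 * psi (((m : ℝ) - WW) / ((m : ℝ) + WW)) := by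
  have hW := WW_pos
  have hm : (0 : ℝ) < (m : ℝ) := by
    have : (WW : ℝ) ≤ (m : ℝ) := by exact_mod_cast h1
    linarith
  have hq : 0 < rv m := div_pos hm hW
  rw [log_eq_two_psi hq]
  congr 2
  unfold rv
  field_simp

/-- `-log (m / (2 W)) = 2 psi z` in the case `m ≤ 2 W`. -/
lemma log_rv_eq_down {m : ℕ} (h0 : 0 < m) :
    Real.log (rv m) = Real.log 2 - 2 * psi ((2 * (WW : ℝ) - m) / (2 * (WW : ℝ) + m)) := by
  have hW := WW_pos
  have hm : (0 : ℝ) < (m : ℝ) := by exact_mod_cast h0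
  have hq : 0 < (m : ℝ) / (2 * WW) := by positivity
  have e : rv m = 2 * ((m : ℝ) / (2 * WW)) := by
    unfold rv; field_simp
  rw [e, Real.log_mul (by norm_num) hq.ne', log_eq_two_psi hq]
  have e2 : ((m : ℝ) / (2 * WW) - 1) / ((m : ℝ) / (2 * WW) + 1)
      = -((2 * (WW : ℝ) - m) / (2 * (WW : ℝ) + m)) := by
    field_simp
    ring
  rw [e2, psi_neg]
  ring

lemma psi_mono {a b : ℝ} (h0 : 0 ≤ a) (hab : a ≤ b) (hb : b < 1) : psi a ≤ psi b := by
  unfold psi
  have h1 : Real.log (1 + a) ≤ Real.log (1 + b) := Real.log_le_log (by linarith) (by linarith)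
  have h2 : Real.log (1 - b) ≤ Real.log (1 - a) := Real.log_le_log (by linarith) (by linarith)
  linarith

lemma rv_div_le {a b : ℕ} (hb : 0 < b) : rv (a * WW / b) ≤ (a : ℝ) / (b : ℝ) := by
  have h := Nat.cast_div_le (α := ℝ) (m := a * WW) (n := b)
  have hW := WW_pos
  unfold rv
  push_cast at h
  rw [div_le_iff₀ hW]
  calc ((a * WW / b : ℕ) : ℝ) ≤ (a : ℝ) * WW / b := h
    _ = (a : ℝ) / b * WW := by ring

lemma le_rv_div_add {a b : ℕ} (hb : 0 < b) : (a : ℝ) / (b : ℝ) ≤ rv (a * WW / b + 1) := by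
  have hW := WW_pos
  have hb' : (0 : ℝ) < (b : ℝ) := by exact_mod_cast hb
  have h2 : a * WW < (a * WW / b + 1) * b := by
    have := Nat.div_add_mod (a * WW) b
    have h3 := Nat.mod_lt (a * WW) hb
    nlinarith
  have h3 : (a : ℝ) * WW ≤ ((a * WW / b + 1 : ℕ) : ℝ) * b := by exact_mod_cast h2.le
  unfold rv
  rw [div_le_div_iff₀ hb' hW]
  exact h3

theorem mlnU_sound {x : ℕ} (h0 : 0 < x) (h1 : x ≤ WW) : -Real.log (rv x) ≤ rv (mlnU x) := by
  obtain ⟨n1, n2, n3⟩ := norm_bounds h0 h1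
  rw [mlog_decomp h0]
  unfold mlnU
  simp only []
  set k := ekk x with hk
  set m := x * 2 ^ k with hm
  have hmW : (WW : ℝ) ≤ (m : ℝ) := by exact_mod_cast n1
  have hW := WW_pos
  have hl2 := L2U_sound
  split_ifs with hc
  · have hm' : ((m - WW : ℕ) : ℝ) = (m : ℝ) - WW := by rw [Nat.cast_sub n1]
    have hd : 0 < m + WW := by norm_num [WW]
    have hz := rv_div_le (a := m - WW) hd
    set z := (m - WW) * WW / (m + WW) with hzd
    rw [hm'] at hz
    push_cast at hz
    have hz1 : ((m : ℝ) - WW) / ((m : ℝ) + WW) < 1 := by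
      rw [div_lt_one (by positivity)]; linarith
    have hz0 : 0 ≤ rv z := rv_nonneg z
    have hp := psLo_sound (z := z) (lt_of_le_of_lt hz hz1)
    have hp2 := psi_mono hz0 hz hz1
    rw [log_rv_eq_up n1]
    have h5 := sub_le_rv_sub (k * L2U) (2 * psLo z)
    rw [rv_mul_const, rv_mul_const] at h5
    have hk0 : (0 : ℝ) ≤ (k : ℝ) := Nat.cast_nonneg k
    have h6 := mul_le_mul_of_nonneg_left hl2 hk0
    push_cast at h5
    linarith
  · push Not at hc
    have hk1 : 1 ≤ k := by
      by_contra hc2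
      have hk0 : k = 0 := by omega
      have : m = x := by rw [hm, hk0]; simp
      norm_num [WW] at hc h1
      omega
    have hk' : ((k - 1 : ℕ) : ℝ) = (k : ℝ) - 1 := by rw [Nat.cast_sub hk1]; simp
    have hm0 : 0 < m := by
      have : 0 < WW := by norm_num [WW]
      omega
    have hle : m ≤ 2 * WW := n2.le
    have hmc : (23 : ℝ) * WW ≤ 16 * (m : ℝ) := by exact_mod_cast hc
    have hm2 : (m : ℝ) ≤ 2 * WW := by exact_mod_cast hle
    have hm' : ((2 * WW - m : ℕ) : ℝ) = 2 * (WW : ℝ) - m := by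
      rw [Nat.cast_sub hle]; push_cast; ring
    have hd : 0 < 2 * WW + m := by omega
    have hz := le_rv_div_add (a := 2 * WW - m) hd
    set z := (2 * WW - m) * WW / (2 * WW + m) + 1 with hzd
    rw [hm'] at hz
    push_cast at hz
    have hz0 : 0 ≤ (2 * (WW : ℝ) - m) / (2 * (WW : ℝ) + m) := by
      apply div_nonneg <;> linarith
    have hz2 := rv_div_le (a := 2 * WW - m) hd
    rw [hm'] at hz2
    push_cast at hz2
    have hzs : rv z ≤ 1 / 5 := by
      have : rv z = rv ((2 * WW - m) * WW / (2 * WW + m)) + rv 1 := by rw [hzd, rv_add]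
      rw [this]
      have h1s : rv 1 ≤ 1 / 100 := by unfold rv WW; norm_num
      have h7 : (2 * (WW : ℝ) - m) / (2 * (WW : ℝ) + m) ≤ 1 / 6 := by
        rw [div_le_iff₀ (by positivity)]; linarith
      linarith
    have hp := psHi_sound hzs
    have hp2 := psi_mono hz0 hz (by linarith)
    rw [log_rv_eq_down hm0, rv_add, rv_mul_const, rv_mul_const, hk']
    have hk0 : (0 : ℝ) ≤ (k : ℝ) - 1 := by
      have : (1 : ℝ) ≤ (k : ℝ) := by exact_mod_cast hk1
      linarith
    have h6 := mul_le_mul_of_nonneg_left hl2 hk0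
    push_cast
    linarith

theorem mlnL_sound {x : ℕ} (h0 : 0 < x) (h1 : x ≤ WW) : rv (mlnL x) ≤ -Real.log (rv x) := by
  obtain ⟨n1, n2, n3⟩ := norm_bounds h0 h1
  have hnn : 0 ≤ -Real.log (rv x) := by
    have : Real.log (rv x) ≤ 0 := by
      apply Real.log_nonpos (rv_nonneg x)
      have := rv_mono h1
      rwa [rv_WW] at this
    linarith
  have hdec := mlog_decomp h0
  unfold mlnL
  simp only []
  set k := ekk x with hk
  set m := x * 2 ^ k with hm
  have hmW : (WW : ℝ) ≤ (m : ℝ) := by exact_mod_cast n1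
  have hW := WW_pos
  have hl2 := L2L_sound
  split_ifs with hc
  · have hm' : ((m - WW : ℕ) : ℝ) = (m : ℝ) - WW := by rw [Nat.cast_sub n1]
    have hd : 0 < m + WW := by norm_num [WW]
    have hz := le_rv_div_add (a := m - WW) hd
    have hz2 := rv_div_le (a := m - WW) hd
    set z := (m - WW) * WW / (m + WW) + 1 with hzd
    rw [hm'] at hz hz2
    push_cast at hz hz2
    have hz0 : 0 ≤ ((m : ℝ) - WW) / ((m : ℝ) + WW) := by
      apply div_nonneg <;> linarith
    have hmc : 16 * (m : ℝ) < 23 * WW := by exact_mod_cast hc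
    have hzs : rv z ≤ 1 / 5 := by
      have : rv z = rv ((m - WW) * WW / (m + WW)) + rv 1 := by rw [hzd, rv_add]
      rw [this]
      have h1s : rv 1 ≤ 1 / 100 := by unfold rv WW; norm_num
      have h7 : ((m : ℝ) - WW) / ((m : ℝ) + WW) ≤ 19 / 100 := by
        rw [div_le_iff₀ (by positivity)]; linarith
      linarith
    have hp := psHi_sound hzs
    have hp2 := psi_mono hz0 hz (by linarith)
    rcases le_total (2 * psHi z) (k * L2L) with hs | hs
    · rw [rv_sub hs, rv_mul_const, rv_mul_const, hdec, log_rv_eq_up n1]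
      have hk0 : (0 : ℝ) ≤ (k : ℝ) := Nat.cast_nonneg k
      have h6 := mul_le_mul_of_nonneg_left hl2 hk0
      push_cast
      linarith
    · rw [Nat.sub_eq_zero_of_le hs]
      have e : rv 0 = 0 := by simp [rv]
      rw [e]; exact hnn
  · push Not at hc
    have hk1 : 1 ≤ k := by
      by_contra hc2
      have hk0 : k = 0 := by omega
      have : m = x := by rw [hm, hk0]; simp
      norm_num [WW] at hc h1
      omega
    have hk' : ((k - 1 : ℕ) : ℝ) = (k : ℝ) - 1 := by rw [Nat.cast_sub hk1]; simp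
    have hm0 : 0 < m := by
      have : 0 < WW := by norm_num [WW]
      omega
    have hle : m ≤ 2 * WW := n2.le
    have hmc : (23 : ℝ) * WW ≤ 16 * (m : ℝ) := by exact_mod_cast hc
    have hm2 : (m : ℝ) ≤ 2 * WW := by exact_mod_cast hle
    have hm' : ((2 * WW - m : ℕ) : ℝ) = 2 * (WW : ℝ) - m := by
      rw [Nat.cast_sub hle]; push_cast; ring
    have hd : 0 < 2 * WW + m := by omega
    have hz := rv_div_le (a := 2 * WW - m) hd
    set z := (2 * WW - m) * WW / (2 * WW + m) with hzd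
    rw [hm'] at hz
    push_cast at hz
    have hz1 : (2 * (WW : ℝ) - m) / (2 * (WW : ℝ) + m) < 1 := by
      rw [div_lt_one (by positivity)]; linarith
    have hz0 : 0 ≤ rv z := rv_nonneg z
    have hp := psLo_sound (z := z) (lt_of_le_of_lt hz hz1)
    have hp2 := psi_mono hz0 hz hz1
    rw [hdec, log_rv_eq_down hm0, rv_add, rv_mul_const, rv_mul_const, hk']
    have hk0 : (0 : ℝ) ≤ (k : ℝ) - 1 := by
      have : (1 : ℝ) ≤ (k : ℝ) := by exact_mod_cast hk1
      linarith
    have h6 := mul_le_mul_of_nonneg_left hl2 hk0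
    push_cast
    linarith

end Vale.Agent.Lib.P322y
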