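import Vale.Agent.Lib.P322y.Tail
import Vale.Agent.Lib.P322y.Valid
import Vale.Agent.Lib.P322y.ZoneV1

/-! The inequality `(F)` on the zone `1/10000 ≤ e ≤ 9/400`, `1 ≤ d log (1/e)`, `d ≤ 3/5`, with the
single parameter `s = 3 e`.  The endpoints in `m` are eliminated by `cert_of_ends`, the variable `d`
by concavity (chords), and `log (1/e)` by convexity of a quadratic polynomial. -/

set_option linter.unusedVariables false
set_option linter.unusedSectionVars false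

namespace Vale.Agent.Lib.P322y

open Real Vale.Agent.Lib.P322

namespace Low

/-! Numerical constants -/

lemma log3_lo : (78 / 71 : ℝ) ≤ log 3 := by
  have h := Tail.le_log_of_pow (x := 3) (by norm_num) (p := 78) (q := 71) (by norm_num)
    (by norm_num)
  have e : ((78 : ℕ) : ℝ) / (71 : ℕ) = 78 / 71 := by norm_num
  rwa [e] at h

lemma log3_hi : log 3 ≤ (167 / 152 : ℝ) := by
  have h := Tail.log_le_of_pow (x := 3) (by norm_num) (p := 167) (q := 152) (by norm_num)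
    (by norm_num)
  have e : ((167 : ℕ) : ℝ) / (152 : ℕ) = 167 / 152 := by norm_num
  rwa [e] at h

lemma log6_eq : log 6 = log 2 + log 3 := by
  rw [← log_mul (by norm_num) (by norm_num)]; norm_num

lemma log6_hi : log 6 ≤ 1.7919 := by
  rw [log6_eq]; have := Tail.log_two_hi; have := log3_hi; norm_num at *; linarith

lemma log6_lo : 1.79 ≤ log 6 := by
  rw [log6_eq]; have := Tail.log_two_lo; have := log3_lo; norm_num at *; linarith

lemma log4_eq : log 4 = 2 * log 2 := by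
  rw [show (4 : ℝ) = 2 ^ 2 by norm_num, log_pow]; norm_num

lemma log32_lo : 0.4054 ≤ log 6 - log 4 := by
  rw [log6_eq, log4_eq]; have := Tail.log_two_hi; have := log3_lo; norm_num at *; linarith

lemma log43_hi : log (4 / 3) ≤ 0.2878 := by
  rw [log_div (by norm_num) (by norm_num), log4_eq]
  have := Tail.log_two_hi; have := log3_lo; norm_num at *; linarith

/-! Series bounds for the logarithm -/

lemma neg_log_ge {x : ℝ} (h0 : 0 ≤ x) (h1 : x < 1) : x + x ^ 2 / 2 ≤ -log (1 - x) := by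
  have h := Real.hasSum_pow_div_log_of_abs_lt_one (x := x) (by rw [abs_of_nonneg h0]; exact h1)
  have h2 := sum_le_hasSum (Finset.range 2) (fun i _ => by positivity) h
  norm_num [Finset.sum_range_succ] at h2
  linarith

lemma neg_log_le {x : ℝ} (h0 : 0 ≤ x) (h1 : x ≤ 1 / 3) : -log (1 - x) ≤ x + x ^ 2 / 2 + 3 / 2 * x ^ 3 := by
  have hx : |x| < 1 := by rw [abs_of_nonneg h0]; linarith
  have h := Real.abs_log_sub_add_sum_range_le hx 2
  rw [abs_of_nonneg h0] at h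
  have h2 := (abs_le.mp h).1
  simp only [Finset.sum_range_succ, Finset.sum_range_zero] at h2
  norm_num at h2
  have h3 : x ^ 3 / (1 - x) ≤ 3 / 2 * x ^ 3 := by
    rw [div_le_iff₀ (by linarith)]
    have : 0 ≤ x ^ 3 := by positivity
    nlinarith
  linarith

/-! The pair `s = 3 e` -/

section Pair

variable {e : ℝ}

lemma tau_mul_le (he0 : 0 < e) (he1 : e ≤ 9 / 400) :
    tauV2 e (3 * e) * (log (1 / e) - log 6) ≤ log (4 / 3) - e * (5 / 2 - 6 * e) := by
  have h := Tail.tauV2_mul (e := e) (s := 3 * e) he0 (by linarith) (by positivity) (by linarith)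
  have e1 : log (1 / (2 * (3 * e))) = log (1 / e) - log 6 := by
    have : 1 / (2 * (3 * e)) = (1 / e) / 6 := by field_simp; ring
    rw [this, log_div (by positivity) (by norm_num)]
  rw [e1] at h
  rw [h]
  have hp : e + (1 - 2 * e) * (3 * e) = 3 * e * (4 / 3 * (1 - 3 / 2 * e)) := by ring
  set p : ℝ := e + (1 - 2 * e) * (3 * e) with hpdef
  have hs0 : 0 < 3 * e := by positivity
  have hq0 : 0 < 1 - 3 / 2 * e := by linarith
  have hp0 : 0 < p := by rw [hp]; positivity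
  have hp1 : 0 < 1 - p := by
    have : e ^ 2 ≥ 0 := by positivity
    rw [hpdef]; nlinarith
  have hs1 : 0 < 1 - 3 * e := by linarith
  have e2 : log p - log (3 * e) = log (4 / 3) + log (1 - 3 / 2 * e) := by
    rw [hp, log_mul hs0.ne' (by positivity), log_mul (by norm_num) hq0.ne']
    ring
  have e3 : log (1 - 3 / 2 * e) ≤ -(3 / 2 * e) := by
    have := Real.log_le_sub_one_of_pos hq0
    linarith
  have e4 : log (1 - p) - log (1 - 3 * e) ≤ -(e * (1 - 6 * e)) := by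
    rw [← log_div hp1.ne' hs1.ne']
    have h1 := Real.log_le_sub_one_of_pos (show 0 < (1 - p) / (1 - 3 * e) by positivity)
    have h2 : (1 - p) / (1 - 3 * e) ≤ 1 - e * (1 - 6 * e) := by
      rw [div_le_iff₀ hs1, hpdef]
      have : 0 ≤ 3 * e ^ 2 * (1 - 6 * e) := by
        have : 0 ≤ 1 - 6 * e := by linarith
        positivity
      nlinarith
    linarith
  nlinarith

lemma theta_ge (he0 : 0 < e) (he1 : e ≤ 9 / 400) :
    e * (log (1 / e) - log 4 + (1 - 5 * e - 67 * e ^ 2) + 3 * tauV2 e (3 * e) * (1 + 3 * e))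
      ≤ thetaV2 e (3 * e) := by
  have hs0 : 0 < 3 * e := by positivity
  have hs1 : 3 * e < 1 / 2 := by linarith
  have he12 : e < 1 / 2 := by linarith
  have ht := (tauV2_mem he0 he12 hs0 hs1).1
  rw [Tail.thetaV2_eq he0 he12 hs0 hs1]
  have hp : e + (1 - 2 * e) * (3 * e) = e * (4 * (1 - 3 / 2 * e)) := by ring
  set p : ℝ := e + (1 - 2 * e) * (3 * e) with hpdef
  have hq0 : 0 < 1 - 3 / 2 * e := by linarith
  have hp0 : 0 < p := by rw [hp]; positivity
  have hp1 : p ≤ 1 / 10 + 1 / 100 := by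
    have : e ^ 2 ≥ 0 := by positivity
    rw [hpdef]; nlinarith
  have hlogp : -log p ≥ log (1 / e) - log 4 + 3 / 2 * e := by
    rw [hp, log_mul he0.ne' (by positivity), log_mul (by norm_num) hq0.ne', one_div, log_inv]
    have := Real.log_le_sub_one_of_pos hq0
    linarith
  have h1 := mul_le_mul_of_nonneg_left hlogp he0.le
  have h2 := neg_log_ge hp0.le (show p < 1 by linarith)
  have he2 : 0 ≤ 1 - e := by linarith
  have h3 := mul_le_mul_of_nonneg_left h2 he2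
  have h4 := neg_log_le hs0.le (show 3 * e ≤ 1 / 3 by linarith)
  have h5 := neg_log_ge (x := 2 * (3 * e)) (by positivity) (by linarith)
  have h6 := mul_le_mul_of_nonneg_left h5 (show 0 ≤ tauV2 e (3 * e) / 2 by positivity)
  have hpoly : e * (1 - 5 * e - 67 * e ^ 2)
      ≤ e * (3 / 2 * e) + (1 - e) * (p + p ^ 2 / 2) - (3 * e + (3 * e) ^ 2 / 2 + 3 / 2 * (3 * e) ^ 3) := by
    rw [hpdef]
    have e5 : e * (3 / 2 * e) + (1 - e) * ((e + (1 - 2 * e) * (3 * e)) + (e + (1 - 2 * e) * (3 * e)) ^ 2 / 2)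
        - (3 * e + (3 * e) ^ 2 / 2 + 3 / 2 * (3 * e) ^ 3) - e * (1 - 5 * e - 67 * e ^ 2)
        = e * e ^ 2 * (1 / 2 + 42 * e - 18 * e ^ 2) := by ring
    have e6 : 0 ≤ e * e ^ 2 * (1 / 2 + 42 * e - 18 * e ^ 2) := by
      have : 0 ≤ 1 / 2 + 42 * e - 18 * e ^ 2 := by nlinarith
      positivity
    linarith
  have e7 : tauV2 e (3 * e) / 2 * (2 * (3 * e) + (2 * (3 * e)) ^ 2 / 2)
      = e * (3 * tauV2 e (3 * e) * (1 + 3 * e)) := by ring
  rw [e7] at h6
  have e8 : e * (log (1 / e) - log 4 + (1 - 5 * e - 67 * e ^ 2) + 3 * tauV2 e (3 * e) * (1 + 3 * e))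
      = e * (log (1 / e) - log 4) + e * (1 - 5 * e - 67 * e ^ 2)
        + e * (3 * tauV2 e (3 * e) * (1 + 3 * e)) := by ring
  rw [e8]
  have e9 : 2 * (3 * e) = 2 * (3 * e) := rfl
  have e10 : 1 - 2 * (3 * e) = 1 - 2 * (3 * e) := rfl
  nlinarith

end Pair

/-! Polynomials -/

/-- `gt d + 2 (1-d)² d² - 1`. -/
noncomputable def p1 (d : ℝ) : ℝ := 2 / 3 * d ^ 2 - 4 * d ^ 3 + 7 / 3 * d ^ 4

/-- `gt d + 2 (1-d)² d² - (1-d)²`. -/
noncomputable def p2 (d : ℝ) : ℝ := 2 * d - d ^ 2 / 3 - 4 * d ^ 3 + 7 / 3 * d ^ 4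

lemma p2_ge {d : ℝ} (h0 : 0 ≤ d) (h1 : d ≤ 3 / 5) : 4 / 5 * d ≤ p2 d := by
  unfold p2
  have h2 : 0 ≤ 6 / 5 - d / 3 - 4 * d ^ 2 + 7 / 3 * d ^ 3 := by
    have h3 : 0 ≤ d ^ 3 := by positivity
    nlinarith
  have := mul_nonneg h0 h2
  nlinarith

lemma p2_ge' {d : ℝ} (h0 : 0 ≤ d) (h1 : d ≤ 19 / 100) : 179 / 100 * d ≤ p2 d := by
  unfold p2
  have h2 : 0 ≤ 21 / 100 - d / 3 - 4 * d ^ 2 + 7 / 3 * d ^ 3 := by
    have h3 : 0 ≤ d ^ 3 := by positivity
    nlinarith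
  have := mul_nonneg h0 h2
  nlinarith

lemma one_add_p1 {d : ℝ} (h0 : 0 ≤ d) (h1 : d ≤ 3 / 5) : 0 ≤ 1 / 2 + p1 d := by
  unfold p1
  have h3 : d ^ 3 ≤ 3 / 5 * d ^ 2 := by nlinarith [sq_nonneg d]
  nlinarith [sq_nonneg (d ^ 2 - 1 / 3)]

lemma d_add_p1 {d : ℝ} (h0 : 0 ≤ d) (h1 : d ≤ 3 / 5) : 0 ≤ d + p1 d := by
  unfold p1
  have h2 : 0 ≤ 1 + 2 / 3 * d - 4 * d ^ 2 + 7 / 3 * d ^ 3 := by
    have h3 : 0 ≤ d ^ 3 := by positivity
    nlinarith
  have := mul_nonneg h0 h2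
  nlinarith

lemma d_add_gt {d : ℝ} (h0 : 0 ≤ d) (h1 : d ≤ 3 / 5) : 0 ≤ d + gt d - 1 := by
  unfold gt
  have h3 : 0 ≤ d ^ 4 := by positivity
  nlinarith

lemma gt_le_one {d : ℝ} (h1 : d ^ 2 ≤ 4) : gt d ≤ 1 := by
  unfold gt
  nlinarith [sq_nonneg d]

lemma poly_n {d : ℝ} (h0 : 0 ≤ d) (h1 : d ≤ 3 / 5) :
    1 / 4 - d ^ 2 / 2 ≤ 69 / 100 * (1 / 2 + p1 d) := by
  unfold p1
  have h3 : d ^ 3 ≤ 3 / 5 * d ^ 2 := by nlinarith [sq_nonneg d]
  nlinarith [sq_nonneg (d ^ 2 - 27 / 125)]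

/-- The sign of the coefficient `C`. -/
lemma C_le {d u T : ℝ} (hd0 : 27 / 250 ≤ d) (hd1 : d ≤ 3 / 5) (hu0 : 0 ≤ u) (hu : u ≤ 15 / 2)
    (hT : 22 / 100 ≤ T) : u * p1 d ≤ T * p2 d := by
  have hd00 : 0 ≤ d := by linarith
  have hp2 := p2_ge hd00 hd1
  rcases le_total d (19 / 100) with h | h
  · have hp2' := p2_ge' hd00 h
    have h1 : p1 d ≤ 27 / 100 * d ^ 2 := by
      unfold p1
      have e : 27 / 100 * d ^ 2 - (2 / 3 * d ^ 2 - 4 * d ^ 3 + 7 / 3 * d ^ 4)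
          = d ^ 2 * (27 / 100 - 2 / 3 + 4 * d - 7 / 3 * d ^ 2) := by ring
      have h2 : 0 ≤ 27 / 100 - 2 / 3 + 4 * d - 7 / 3 * d ^ 2 := by nlinarith
      have := mul_nonneg (sq_nonneg d) h2
      linarith
    have h2 : p1 d ≤ 27 / 100 * (19 / 100 * d) := by
      have : d ^ 2 ≤ 19 / 100 * d := by nlinarith
      linarith
    have h3 : u * p1 d ≤ u * (27 / 100 * (19 / 100 * d)) := mul_le_mul_of_nonneg_left h2 hu0
    have h4 : u * (27 / 100 * (19 / 100 * d)) ≤ 15 / 2 * (27 / 100 * (19 / 100 * d)) :=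
      mul_le_mul_of_nonneg_right hu (by positivity)
    have h5 : 22 / 100 * p2 d ≤ T * p2 d :=
      mul_le_mul_of_nonneg_right hT (by linarith [mul_nonneg (by norm_num : (0 : ℝ) ≤ 4 / 5) hd00])
    nlinarith
  · have h1 : p1 d ≤ 0 := by
      unfold p1
      have e : 2 / 3 * d ^ 2 - 4 * d ^ 3 + 7 / 3 * d ^ 4
          = d ^ 2 * (2 / 3 - 4 * d + 7 / 3 * d ^ 2) := by ring
      have h2 : 2 / 3 - 4 * d + 7 / 3 * d ^ 2 ≤ 0 := by nlinarith
      rw [e]
      exact mul_nonpos_of_nonneg_of_nonpos (sq_nonneg d) h2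
    have h3 := mul_nonpos_of_nonneg_of_nonpos hu0 h1
    have h4 : 0 ≤ T * p2 d := mul_nonneg (by linarith) (by linarith [mul_nonneg (by norm_num : (0 : ℝ) ≤ 4 / 5) hd00])
    linarith

/-! Chord of the binary entropy -/

lemma hb_abs {d : ℝ} (h0 : 0 ≤ d) (h1 : d ≤ 1) : |2 * d - 1| ≤ 1 := by
  rw [abs_le]; constructor <;> linarith

lemma hb_chord {d da db : ℝ} (hda : 0 ≤ da) (h1 : da ≤ d) (h2 : d ≤ db) (hdb : db ≤ 1) (h3 : da < db) :
    (db - d) * H (2 * da - 1) + (d - da) * H (2 * db - 1) ≤ (db - da) * H (2 * d - 1) := by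
  have hw : 0 < db - da := by linarith
  have ha : 0 ≤ (db - d) / (db - da) := div_nonneg (by linarith) hw.le
  have hb : 0 ≤ (d - da) / (db - da) := div_nonneg (by linarith) hw.le
  have hab : (db - d) / (db - da) + (d - da) / (db - da) = 1 := by
    field_simp
    ring
  have h := H_mix (hb_abs hda (by linarith)) (hb_abs (by linarith) hdb) ha hb hab
  have e : (db - d) / (db - da) * (2 * da - 1) + (d - da) / (db - da) * (2 * db - 1) = 2 * d - 1 := by
    field_simp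
    ring
  rw [e] at h
  have h2 := mul_le_mul_of_nonneg_left h hw.le
  have e2 : (db - da) * ((db - d) / (db - da) * H (2 * da - 1) + (d - da) / (db - da) * H (2 * db - 1))
      = (db - d) * H (2 * da - 1) + (d - da) * H (2 * db - 1) := by
    field_simp
  rw [e2] at h2
  exact h2

lemma hb_zero : H (2 * 0 - 1) = 0 := by
  have : (2 : ℝ) * 0 - 1 = -1 := by norm_num
  rw [this, H_neg, H_one]

/-- A lower bound of `H (2 d - 1)` from lower bounds of the logarithms. -/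
lemma hb_lo {d A B : ℝ} (h0 : 0 < d) (h1 : d < 1) (hA : A ≤ log (1 / d)) (hB : B ≤ log (1 / (1 - d))) :
    d * A + (1 - d) * B ≤ H (2 * d - 1) := by
  unfold H negMulLog
  have e1 : (1 + (2 * d - 1)) / 2 = d := by ring
  have e2 : (1 - (2 * d - 1)) / 2 = 1 - d := by ring
  rw [e1, e2]
  rw [one_div, log_inv] at hA hB
  have h3 := mul_le_mul_of_nonneg_left hA h0.le
  have h4 := mul_le_mul_of_nonneg_left hB (show 0 ≤ 1 - d by linarith)
  nlinarith

/-! The lower bound at `m = 0` -/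

/-- Polynomial lower bound of `H d - log 2 * gt d`. -/
noncomputable def Hpoly (d : ℝ) : ℝ :=
  0.6931471 * (4 * d ^ 2 - d ^ 4) / 3 - d ^ 2 / 2 - 0.19315 * d ^ 4

noncomputable def Q0 (T L t0 t9 a u d : ℝ) : ℝ :=
  u * (u + t0) * d + T * L * d + (u - T) * a * Hpoly d + (u + t9) * ((u - T) * gt d - u)

noncomputable def Q0s (T t0 t9 a u d : ℝ) : ℝ :=
  2 * u * (d + gt d - 1) + t0 * d + a * Hpoly d + t9 * (gt d - 1) - T * gt d

lemma Q0_shift (T L t0 t9 a u ua d : ℝ) :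
    Q0 T L t0 t9 a u d = Q0 T L t0 t9 a ua d
      + (u - ua) * (Q0s T t0 t9 a ua d + (u - ua) * (d + gt d - 1)) := by
  unfold Q0 Q0s; ring

/-- Second divided difference of a quartic. -/
noncomputable def S2 (d da db : ℝ) : ℝ := d ^ 2 + da ^ 2 + db ^ 2 + d * da + d * db + da * db

lemma Q0_chord (T L t0 t9 a u d da db : ℝ) :
    (db - da) * Q0 T L t0 t9 a u d = (db - d) * Q0 T L t0 t9 a u da + (d - da) * Q0 T L t0 t9 a u db
      - (d - da) * (db - d) * (db - da) * ((u - T) * (a * ((0.6931471 * 4 / 3 - 1 / 2)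
        + (-(0.6931471 / 3) - 0.19315) * S2 d da db)
        + (u + t9) * (-(4 / 3) + S2 d da db / 3))) := by
  unfold Q0 Hpoly gt S2; ring

lemma S2_bounds {d da db : ℝ} (h0 : 0 ≤ da) (h1 : da ≤ d) (h2 : d ≤ db) :
    0 ≤ S2 d da db ∧ S2 d da db ≤ 6 * db ^ 2 := by
  unfold S2
  have hd : 0 ≤ d := by linarith
  have hb : 0 ≤ db := by linarith
  constructor
  · positivity
  · have ha : da ≤ db := h1.trans h2
    have t1 : d ^ 2 ≤ db ^ 2 := pow_le_pow_left₀ hd h2 2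
    have t2 : da ^ 2 ≤ db ^ 2 := pow_le_pow_left₀ h0 ha 2
    have t3 : d * da ≤ db * db := mul_le_mul h2 ha h0 hb
    have t4 : d * db ≤ db * db := mul_le_mul_of_nonneg_right h2 hb
    have t5 : da * db ≤ db * db := mul_le_mul_of_nonneg_right ha hb
    nlinarith

theorem Q0_nonneg {T L t0 t9 a u ua d da db : ℝ} (hda : 0 ≤ da) (hdab : da < db) (hd1 : da ≤ d)
    (hd2 : d ≤ db) (hdb : db ≤ 3 / 5) (hu : ua ≤ u) (hT : T ≤ ua) (ha : 0 ≤ a) (ht9 : 0 ≤ ua + t9)
    (h1 : 0 ≤ Q0 T L t0 t9 a ua da) (h2 : 0 ≤ Q0s T t0 t9 a ua da)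
    (h3 : 0 ≤ Q0 T L t0 t9 a ua db) (h4 : 0 ≤ Q0s T t0 t9 a ua db)
    (hc : a * (0.6931471 * 4 / 3 - 1 / 2) + (ua + t9) * (-(4 / 3) + 2 * db ^ 2) ≤ 0) :
    0 ≤ Q0 T L t0 t9 a u d := by
  have hu1 : 0 ≤ u - ua := by linarith
  have ha1 : 0 ≤ Q0 T L t0 t9 a u da := by
    rw [Q0_shift T L t0 t9 a u ua da]
    have := d_add_gt hda (show da ≤ 3 / 5 by linarith)
    have : 0 ≤ Q0s T t0 t9 a ua da + (u - ua) * (da + gt da - 1) := by positivity
    positivity
  have hb1 : 0 ≤ Q0 T L t0 t9 a u db := by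
    rw [Q0_shift T L t0 t9 a u ua db]
    have := d_add_gt (show 0 ≤ db by linarith) hdb
    have : 0 ≤ Q0s T t0 t9 a ua db + (u - ua) * (db + gt db - 1) := by positivity
    positivity
  have hw : 0 < db - da := by linarith
  obtain ⟨hS0, hS1⟩ := S2_bounds hda hd1 hd2
  have hdb2 : db ^ 2 ≤ 9 / 25 := by nlinarith
  have hbr : a * ((0.6931471 * 4 / 3 - 1 / 2) + (-(0.6931471 / 3) - 0.19315) * S2 d da db)
        + (u + t9) * (-(4 / 3) + S2 d da db / 3) ≤ 0 := by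
    have e1 : a * ((-(0.6931471 / 3) - 0.19315) * S2 d da db) ≤ 0 := by
      have : (-(0.6931471 / 3) - 0.19315 : ℝ) * S2 d da db ≤ 0 :=
        mul_nonpos_of_nonpos_of_nonneg (by norm_num) hS0
      exact mul_nonpos_of_nonneg_of_nonpos ha this
    have e2 : (u + t9) * (-(4 / 3) + S2 d da db / 3) ≤ (u + t9) * (-(4 / 3) + 2 * db ^ 2) :=
      mul_le_mul_of_nonneg_left (by linarith) (by linarith)
    have e3 : (u + t9) * (-(4 / 3) + 2 * db ^ 2) ≤ (ua + t9) * (-(4 / 3) + 2 * db ^ 2) :=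
      mul_le_mul_of_nonpos_right (by linarith) (by linarith)
    have e4 : a * ((0.6931471 * 4 / 3 - 1 / 2) + (-(0.6931471 / 3) - 0.19315) * S2 d da db)
        = a * (0.6931471 * 4 / 3 - 1 / 2) + a * ((-(0.6931471 / 3) - 0.19315) * S2 d da db) := by ring
    linarith
  have hmul : 0 ≤ (db - da) * Q0 T L t0 t9 a u d := by
    rw [Q0_chord]
    have p1' : 0 ≤ (db - d) * Q0 T L t0 t9 a u da := mul_nonneg (by linarith) ha1
    have p2' : 0 ≤ (d - da) * Q0 T L t0 t9 a u db := mul_nonneg (by linarith) hb1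
    have p3' : (u - T) * (a * ((0.6931471 * 4 / 3 - 1 / 2) + (-(0.6931471 / 3) - 0.19315) * S2 d da db)
        + (u + t9) * (-(4 / 3) + S2 d da db / 3)) ≤ 0 :=
      mul_nonpos_of_nonneg_of_nonpos (by linarith) hbr
    have p4' : 0 ≤ (d - da) * (db - d) * (db - da) :=
      mul_nonneg (mul_nonneg (by linarith) (by linarith)) hw.le
    have := mul_nonpos_of_nonneg_of_nonpos p4' p3'
    linarith
  exact nonneg_of_mul_nonneg_right hmul hw

/-! The lower bound at the far end -/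

noncomputable def Q1 (T L t0 t9 a u d Hv : ℝ) : ℝ :=
  u * (u + t0) * d + T * L * d + (u + t9) * (u * p1 d - T * p2 d)
    + a * ((u - T) * Hv / 2 + u * (1 - d) ^ 2 / 2
      - 0.6931472 * ((u - T) * (1 + p1 d) + T * (1 - d) ^ 2))

noncomputable def Q1s (T t0 t9 a u d Hv : ℝ) : ℝ :=
  2 * u * (d + p1 d) + t0 * d + a * (Hv / 2 + (1 - d) ^ 2 / 2 - 0.6931472 * (1 + p1 d))
    + t9 * p1 d - T * p2 d

lemma Q1_shift (T L t0 t9 a u ua d Hv : ℝ) :
    Q1 T L t0 t9 a u d Hv = Q1 T L t0 t9 a ua d Hv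
      + (u - ua) * (Q1s T t0 t9 a ua d Hv + (u - ua) * (d + p1 d)) := by
  unfold Q1 Q1s; ring

/-- The second divided difference of `p1`. -/
noncomputable def Af (d da db : ℝ) : ℝ := 2 / 3 - 4 * (da + db + d) + 7 / 3 * S2 d da db

lemma Q1_chord (T L t0 t9 a u d da db Hv Ha Hb : ℝ) :
    (db - da) * Q1 T L t0 t9 a u d Hv - (db - d) * Q1 T L t0 t9 a u da Ha
        - (d - da) * Q1 T L t0 t9 a u db Hb
      + (d - da) * (db - d) * (db - da) * ((u + t9) * (u * Af d da db - T * (Af d da db - 1))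
        + a * (u / 2 - 0.6931472 * (u - T) * Af d da db - 0.6931472 * T))
      = a * (u - T) / 2 * ((db - da) * Hv - (db - d) * Ha - (d - da) * Hb) := by
  unfold Q1 p1 p2 Af S2; ring

lemma Af_le {d da db Amax : ℝ} (h1 : da ≤ d) (h2 : d ≤ db) (hw : da < db)
    (ha : Af da da db ≤ Amax) (hb : Af db da db ≤ Amax) : Af d da db ≤ Amax := by
  have hw' : 0 < db - da := by linarith
  have e : (db - da) * Af d da db = (db - d) * Af da da db + (d - da) * Af db da db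
      - (d - da) * (db - d) * (db - da) * (7 / 3) := by
    unfold Af S2; ring
  have h3 : 0 ≤ (d - da) * (db - d) * (db - da) * (7 / 3) :=
    mul_nonneg (mul_nonneg (mul_nonneg (by linarith) (by linarith)) hw'.le) (by norm_num)
  have h4 := mul_le_mul_of_nonneg_left ha (show 0 ≤ db - d by linarith)
  have h5 := mul_le_mul_of_nonneg_left hb (show 0 ≤ d - da by linarith)
  have h6 : (db - da) * Af d da db ≤ (db - da) * Amax := by
    rw [e]
    nlinarith
  exact le_of_mul_le_mul_left h6 hw'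

noncomputable def D1 (T t9 a Amax u : ℝ) : ℝ :=
  Amax * (u - T) * (u + t9 - a * 0.6931472) + (u + t9) * T + a * u / 2

noncomputable def D1s (T t9 a Amax u : ℝ) : ℝ :=
  Amax * (2 * u - T + t9 - a * 0.6931472) + T + a / 2

lemma D1_shift (T t9 a Amax u ua : ℝ) :
    D1 T t9 a Amax u = D1 T t9 a Amax ua + (u - ua) * (D1s T t9 a Amax ua + Amax * (u - ua)) := by
  unfold D1 D1s; ring

theorem Q1_nonneg {T L t0 t9 a u ua d da db Ha Hb Hv Amax : ℝ} (hda : 0 ≤ da) (hdab : da < db)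
    (hd1 : da ≤ d) (hd2 : d ≤ db) (hdb : db ≤ 3 / 5) (hu : ua ≤ u) (hT : T ≤ ua) (hT0 : 0 ≤ T)
    (ha : 0 ≤ a) (ht9 : 0 ≤ ua + t9 - a * 0.6931472)
    (h1 : 0 ≤ Q1 T L t0 t9 a ua da Ha) (h2 : 0 ≤ Q1s T t0 t9 a ua da Ha)
    (h3 : 0 ≤ Q1 T L t0 t9 a ua db Hb) (h4 : 0 ≤ Q1s T t0 t9 a ua db Hb)
    (hA0 : Amax ≤ 0) (hA1 : Af da da db ≤ Amax) (hA2 : Af db da db ≤ Amax)
    (hD1 : D1 T t9 a Amax ua ≤ 0) (hD2 : D1s T t9 a Amax ua ≤ 0)
    (hH : (db - d) * Ha + (d - da) * Hb ≤ (db - da) * Hv) :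
    0 ≤ Q1 T L t0 t9 a u d Hv := by
  have hu1 : 0 ≤ u - ua := by linarith
  have ha1 : 0 ≤ Q1 T L t0 t9 a u da Ha := by
    rw [Q1_shift T L t0 t9 a u ua da Ha]
    have := d_add_p1 hda (show da ≤ 3 / 5 by linarith)
    have : 0 ≤ Q1s T t0 t9 a ua da Ha + (u - ua) * (da + p1 da) := by positivity
    positivity
  have hb1 : 0 ≤ Q1 T L t0 t9 a u db Hb := by
    rw [Q1_shift T L t0 t9 a u ua db Hb]
    have := d_add_p1 (show 0 ≤ db by linarith) hdb
    have : 0 ≤ Q1s T t0 t9 a ua db Hb + (u - ua) * (db + p1 db) := by positivity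
    positivity
  have hw : 0 < db - da := by linarith
  have hA := Af_le hd1 hd2 hdab hA1 hA2
  have hDu : D1 T t9 a Amax u ≤ 0 := by
    rw [D1_shift T t9 a Amax u ua]
    have h5 : D1s T t9 a Amax ua + Amax * (u - ua) ≤ 0 := by
      have := mul_nonpos_of_nonpos_of_nonneg hA0 hu1
      linarith
    have := mul_nonpos_of_nonneg_of_nonpos hu1 h5
    linarith
  have hbr : (u + t9) * (u * Af d da db - T * (Af d da db - 1))
        + a * (u / 2 - 0.6931472 * (u - T) * Af d da db - 0.6931472 * T) ≤ 0 := by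
    have e1 : (u + t9) * (u * Af d da db - T * (Af d da db - 1))
        + a * (u / 2 - 0.6931472 * (u - T) * Af d da db - 0.6931472 * T)
        = Af d da db * ((u - T) * (u + t9 - a * 0.6931472)) + (u + t9) * T + a * u / 2
          - a * 0.6931472 * T := by ring
    have h6 : 0 ≤ (u - T) * (u + t9 - a * 0.6931472) :=
      mul_nonneg (by linarith) (by linarith)
    have h7 := mul_le_mul_of_nonneg_right hA h6
    have h8 : 0 ≤ a * 0.6931472 * T := by positivity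
    have e2 : D1 T t9 a Amax u = Amax * ((u - T) * (u + t9 - a * 0.6931472)) + (u + t9) * T + a * u / 2 := by
      unfold D1; ring
    rw [e1]
    linarith
  have hmul : 0 ≤ (db - da) * Q1 T L t0 t9 a u d Hv := by
    have e := Q1_chord T L t0 t9 a u d da db Hv Ha Hb
    have p1' : 0 ≤ (db - d) * Q1 T L t0 t9 a u da Ha := mul_nonneg (by linarith) ha1
    have p2' : 0 ≤ (d - da) * Q1 T L t0 t9 a u db Hb := mul_nonneg (by linarith) hb1
    have p4' : 0 ≤ (d - da) * (db - d) * (db - da) :=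
      mul_nonneg (mul_nonneg (by linarith) (by linarith)) hw.le
    have p3' := mul_nonpos_of_nonneg_of_nonpos p4' hbr
    have p5' : 0 ≤ a * (u - T) / 2 * ((db - da) * Hv - (db - d) * Ha - (d - da) * Hb) := by
      apply mul_nonneg
      · have : 0 ≤ u - T := by linarith
        positivity
      · linarith
    linarith
  exact nonneg_of_mul_nonneg_right hmul hw

/-! Normalization -/

lemma Sf_scale (e a k th v m d : ℝ) :
    Sf (e * a) (e * k) (e * th) v m d = e * Sf a k th v m d := by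
  unfold Sf LLc; ring

lemma Rp_scale (e a k v d : ℝ) : Rp (e * a) (e * k) v d = e * Rp a k v d := by
  unfold Rp; ring

lemma E0n {a k Θ τ d X L T u : ℝ} (hu : 0 < u) (hτu : τ * u ≤ T) (hΘ : X + τ * L ≤ Θ) (hd : 0 ≤ d)
    (hW : L * d ≤ a * H d + k * gt d)
    (hF : 0 ≤ u * X * d + T * L * d + (u - T) * (a * H d + k * gt d) - u * (a * log 2 + k)) :
    0 ≤ Sf a k Θ (1 - τ) 0 d := by
  rw [Sf_zero]
  unfold LLc
  generalize a * H d + k * gt d = W at hW hF ⊢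
  generalize hhp : a * log 2 + k = hp at hF ⊢
  have h1 : 0 ≤ u * ((Θ - X - τ * L) * d) :=
    mul_nonneg hu.le (mul_nonneg (by linarith) hd)
  have h2 : 0 ≤ (T - τ * u) * (W - L * d) := mul_nonneg (by linarith) (by linarith)
  have key : 0 ≤ u * (Θ * d + (1 - τ) * W - hp) := by
    have e : u * (Θ * d + (1 - τ) * W - hp)
        = (u * X * d + T * L * d + (u - T) * W - u * hp) + u * ((Θ - X - τ * L) * d)
          + (T - τ * u) * (W - L * d) := by ring
    rw [e]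
    linarith
  exact nonneg_of_mul_nonneg_right key hu

lemma E1n {a k Θ τ d X L T u : ℝ} (hu : 0 < u) (hτu : τ * u ≤ T) (hΘ : X + τ * L ≤ Θ) (hd : 0 ≤ d)
    (hR : L * d ≤ k * p2 d + a * H (2 * d - 1) / 2)
    (hF : 0 ≤ u * X * d + T * L * d + (u - T) * (k * (1 + p1 d) + a * H (2 * d - 1) / 2)
      + T * k * (1 - d) ^ 2 - u * (a * log 2 + k) + u * a * (1 - d) ^ 2 / 2) :
    0 ≤ Sf a k Θ (1 - τ) 0 d - Rp a k (1 - τ) d := by
  rw [Sf_zero]
  unfold LLc Rp
  generalize H (2 * d - 1) = Hb at hR hF ⊢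
  generalize H d = Hd
  generalize hhp : a * log 2 + k = hp at hF ⊢
  have h1 : 0 ≤ u * ((Θ - X - τ * L) * d) :=
    mul_nonneg hu.le (mul_nonneg (by linarith) hd)
  have h2 : 0 ≤ (T - τ * u) * (k * p2 d + a * Hb / 2 - L * d) :=
    mul_nonneg (by linarith) (by linarith)
  have key : 0 ≤ u * (Θ * d + (1 - τ) * (a * Hd + k * gt d) - hp
      - (a * (1 - τ) * (Hd - Hb / 2) - a * (1 - d) ^ 2 / 2
        - k * (1 - d) ^ 2 * (1 - (1 - τ) + 2 * (1 - τ) * d ^ 2))) := by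
    have e : u * (Θ * d + (1 - τ) * (a * Hd + k * gt d) - hp
        - (a * (1 - τ) * (Hd - Hb / 2) - a * (1 - d) ^ 2 / 2
          - k * (1 - d) ^ 2 * (1 - (1 - τ) + 2 * (1 - τ) * d ^ 2)))
        = (u * X * d + T * L * d + (u - T) * (k * (1 + p1 d) + a * Hb / 2)
            + T * k * (1 - d) ^ 2 - u * hp + u * a * (1 - d) ^ 2 / 2)
          + u * ((Θ - X - τ * L) * d) + (T - τ * u) * (k * p2 d + a * Hb / 2 - L * d) := by
      unfold gt p1 p2; ring
    rw [e]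
    linarith
  exact nonneg_of_mul_nonneg_right key hu

/-! Reduction to the polynomials -/

lemma H_sub_ge {d : ℝ} (h0 : 0 ≤ d) (h1 : d ≤ 3 / 5) :
    Hpoly d ≤ H d - log 2 * gt d ∧ 0 ≤ H d - log 2 * gt d := by
  have hd : |d| ≤ 1 := by rw [abs_of_nonneg h0]; linarith
  have hlo := Tail.log_two_lo
  have hhi := Tail.log_two_hi
  have hg : 0 ≤ d ^ 2 := sq_nonneg d
  have hd2 : d ^ 2 ≤ 1 := by nlinarith
  have hd4 : 0 ≤ d ^ 4 := by positivity
  constructor
  · rw [H_eq hd]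
    have hP := Psi_le_quartic hd
    unfold Hpoly gt
    have t1 : 0 ≤ 4 * d ^ 2 - d ^ 4 := by
      have : d ^ 4 = d ^ 2 * d ^ 2 := by ring
      nlinarith
    have t2 : 0.6931471 * ((4 * d ^ 2 - d ^ 4) / 3) ≤ log 2 * ((4 * d ^ 2 - d ^ 4) / 3) :=
      mul_le_mul_of_nonneg_right hlo.le (by positivity)
    have t3 : (log 2 - 1 / 2) * d ^ 4 ≤ 0.19315 * d ^ 4 :=
      mul_le_mul_of_nonneg_right (by norm_num at hhi ⊢; linarith) hd4
    have e : log 2 - log 2 * (1 - 4 / 3 * d ^ 2 + 1 / 3 * d ^ 4)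
        = log 2 * ((4 * d ^ 2 - d ^ 4) / 3) := by ring
    have e2 : (0.6931471 : ℝ) * (4 * d ^ 2 - d ^ 4) / 3 = 0.6931471 * ((4 * d ^ 2 - d ^ 4) / 3) := by
      ring
    rw [e2]
    linarith
  · have hP := H_ge_parabola hd
    have t : gt d ≤ 1 - d ^ 2 := by
      unfold gt
      have : d ^ 4 = d ^ 2 * d ^ 2 := by ring
      nlinarith
    have t2 := mul_le_mul_of_nonneg_left t (show 0 ≤ log 2 by linarith)
    linarith

lemma F0_ge {a k X T L t0 t9 alo u d : ℝ} (hu : 0 ≤ u) (hT : T ≤ u) (hT0 : 0 ≤ T) (hd0 : 0 ≤ d)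
    (hd1 : d ≤ 3 / 5) (hX : u + t0 ≤ X) (ha : alo ≤ a) (ha0 : 0 ≤ alo)
    (hhp : a * log 2 + k ≤ u + t9) :
    Q0 T L t0 t9 alo u d
      ≤ u * X * d + T * L * d + (u - T) * (a * H d + k * gt d) - u * (a * log 2 + k) := by
  obtain ⟨h1, h2⟩ := H_sub_ge hd0 hd1
  have hg : gt d ≤ 1 := gt_le_one (by nlinarith)
  have e : u * X * d + T * L * d + (u - T) * (a * H d + k * gt d) - u * (a * log 2 + k)
      - Q0 T L t0 t9 alo u d
      = u * ((X - u - t0) * d) + (u - T) * (a * (H d - log 2 * gt d) - alo * Hpoly d)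
        + (a * log 2 + k - u - t9) * ((u - T) * gt d - u) := by
    unfold Q0; ring
  have t1 : 0 ≤ u * ((X - u - t0) * d) := mul_nonneg hu (mul_nonneg (by linarith) hd0)
  have t2 : 0 ≤ a * (H d - log 2 * gt d) - alo * Hpoly d := by
    have s1 := mul_le_mul_of_nonneg_right ha h2
    have s2 := mul_le_mul_of_nonneg_left h1 ha0
    linarith
  have t3 : 0 ≤ (u - T) * (a * (H d - log 2 * gt d) - alo * Hpoly d) :=
    mul_nonneg (by linarith) t2
  have t4 : (u - T) * gt d - u ≤ 0 := by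
    have := mul_le_mul_of_nonneg_left hg (show 0 ≤ u - T by linarith)
    linarith
  have t5 : 0 ≤ (a * log 2 + k - u - t9) * ((u - T) * gt d - u) :=
    mul_nonneg_of_nonpos_of_nonpos (by linarith) t4
  linarith

lemma N_le {u T d : ℝ} (hT : T ≤ u) (hT0 : 0 ≤ T) (hd0 : 0 ≤ d) (hd1 : d ≤ 3 / 5) :
    (u - T) * (H (2 * d - 1) / 2 - log 2 * (1 + p1 d)) - T * log 2 * (1 - d) ^ 2
      + u * (1 - d) ^ 2 / 2 ≤ 0 := by
  have hlo := Tail.log_two_lo
  have hpar := H_le_parabola (hb_abs hd0 (by linarith : d ≤ 1))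
  have h1 := one_add_p1 hd0 hd1
  have h2 := poly_n hd0 hd1
  have h3 : 69 / 100 * (1 / 2 + p1 d) ≤ log 2 * (1 / 2 + p1 d) :=
    mul_le_mul_of_nonneg_right (by norm_num at hlo ⊢; linarith) h1
  have hn : H (2 * d - 1) / 2 + (1 - d) ^ 2 / 2 - log 2 * (1 + p1 d) ≤ 0 := by
    nlinarith
  have e : (u - T) * (H (2 * d - 1) / 2 - log 2 * (1 + p1 d)) - T * log 2 * (1 - d) ^ 2
      + u * (1 - d) ^ 2 / 2
      = (u - T) * (H (2 * d - 1) / 2 + (1 - d) ^ 2 / 2 - log 2 * (1 + p1 d))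
        + T * (1 - d) ^ 2 * (1 / 2 - log 2) := by ring
  rw [e]
  have t1 := mul_nonpos_of_nonneg_of_nonpos (show 0 ≤ u - T by linarith) hn
  have t2 : T * (1 - d) ^ 2 * (1 / 2 - log 2) ≤ 0 :=
    mul_nonpos_of_nonneg_of_nonpos (by positivity) (by norm_num at hlo ⊢; linarith)
  linarith

lemma F1_ge {a k X T L t0 t9 ahi u d : ℝ} (hu : 0 ≤ u) (hT : T ≤ u) (hT0 : 22 / 100 ≤ T)
    (hu1 : u ≤ 15 / 2) (hd0 : 27 / 250 ≤ d) (hd1 : d ≤ 3 / 5) (hX : u + t0 ≤ X) (ha : a ≤ ahi)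
    (ha0 : 0 ≤ a) (hhp : a * log 2 + k ≤ u + t9) :
    Q1 T L t0 t9 ahi u d (H (2 * d - 1))
      ≤ u * X * d + T * L * d + (u - T) * (k * (1 + p1 d) + a * H (2 * d - 1) / 2)
        + T * k * (1 - d) ^ 2 - u * (a * log 2 + k) + u * a * (1 - d) ^ 2 / 2 := by
  have hd00 : 0 ≤ d := by linarith
  have hT00 : 0 ≤ T := by linarith
  have hC := C_le hd0 hd1 hu hu1 hT0
  have hN := N_le (u := u) hT hT00 hd00 hd1
  have hhi := Tail.log_two_hi
  have h1 := one_add_p1 hd00 hd1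
  have e : u * X * d + T * L * d + (u - T) * (k * (1 + p1 d) + a * H (2 * d - 1) / 2)
        + T * k * (1 - d) ^ 2 - u * (a * log 2 + k) + u * a * (1 - d) ^ 2 / 2
        - Q1 T L t0 t9 ahi u d (H (2 * d - 1))
      = u * ((X - u - t0) * d) + (a * log 2 + k - u - t9) * (u * p1 d - T * p2 d)
        + (a - ahi) * ((u - T) * (H (2 * d - 1) / 2 - log 2 * (1 + p1 d))
            - T * log 2 * (1 - d) ^ 2 + u * (1 - d) ^ 2 / 2)
        + ahi * ((0.6931472 - log 2) * ((u - T) * (1 + p1 d) + T * (1 - d) ^ 2)) := by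
    unfold Q1 p1 p2; ring
  have t1 : 0 ≤ u * ((X - u - t0) * d) := mul_nonneg hu (mul_nonneg (by linarith) hd00)
  have t2 : 0 ≤ (a * log 2 + k - u - t9) * (u * p1 d - T * p2 d) :=
    mul_nonneg_of_nonpos_of_nonpos (by linarith) (by linarith)
  have t3 := mul_nonneg_of_nonpos_of_nonpos (show a - ahi ≤ 0 by linarith) hN
  have t4 : 0 ≤ ahi * ((0.6931472 - log 2) * ((u - T) * (1 + p1 d) + T * (1 - d) ^ 2)) := by
    apply mul_nonneg (by linarith)
    apply mul_nonneg (by norm_num at hhi ⊢; linarith)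
    have : 0 ≤ (u - T) * (1 + p1 d) := mul_nonneg (by linarith) (by linarith)
    positivity
  linarith

lemma W0_ge {a k L d : ℝ} (ha : 39 / 10 ≤ a) (hk : 19 / 10 ≤ k) (hL : L ≤ 33 / 10) (hd0 : 0 ≤ d)
    (hd1 : d ≤ 3 / 5) : L * d ≤ a * H d + k * gt d := by
  have hd : |d| ≤ 1 := by rw [abs_of_nonneg hd0]; linarith
  have hlo := Tail.log_two_lo
  have h1 := H_ge_parabola hd
  have hd2 : d ^ 2 ≤ 9 / 25 := by nlinarith
  have h2 : 4416 / 10000 ≤ H d := by
    have : 6931 / 10000 * (1 - d ^ 2) ≤ log 2 * (1 - d ^ 2) :=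
      mul_le_mul_of_nonneg_right (by norm_num at hlo ⊢; linarith) (by linarith)
    nlinarith
  have h3 : 52 / 100 ≤ gt d := by
    unfold gt
    have : 0 ≤ d ^ 4 := by positivity
    nlinarith
  have h4 : 39 / 10 * (4416 / 10000) ≤ a * H d := mul_le_mul ha h2 (by norm_num) (by linarith)
  have h5 : 19 / 10 * (52 / 100) ≤ k * gt d := mul_le_mul hk h3 (by norm_num) (by linarith)
  have h6 : L * d ≤ 33 / 10 * d := mul_le_mul_of_nonneg_right hL hd0
  nlinarith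

/-- `H (1/5) ≥ 0.66`. -/
lemma H_fifth : (66 / 100 : ℝ) ≤ H (2 * (3 / 5) - 1) := by
  have hA : (1 / 2 : ℝ) ≤ log (1 / (3 / 5)) := by
    have h := Tail.le_log_of_pow (x := 1 / (3 / 5)) (by norm_num) (p := 1) (q := 2) (by norm_num)
      (by norm_num)
    norm_num at h ⊢
    linarith
  have hB : (9 / 10 : ℝ) ≤ log (1 / (1 - 3 / 5)) := by
    have h := Tail.le_log_of_pow (x := 1 / (1 - 3 / 5)) (by norm_num) (p := 9) (q := 10) (by norm_num)
      (by norm_num)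
    norm_num at h ⊢
    linarith
  have h := hb_lo (d := 3 / 5) (by norm_num) (by norm_num) hA hB
  norm_num at h ⊢
  linarith

lemma R1_ge {a k L d : ℝ} (ha : 39 / 10 ≤ a) (hk : 19 / 10 ≤ k) (hL : L ≤ 33 / 10) (hd0 : 0 ≤ d)
    (hd1 : d ≤ 3 / 5) : L * d ≤ k * p2 d + a * H (2 * d - 1) / 2 := by
  have hc := hb_chord (d := d) (da := 0) (db := 3 / 5) le_rfl hd0 hd1 (by norm_num) (by norm_num)
  rw [hb_zero] at hc
  have hH0 := H_fifth
  have hH1 : 11 / 10 * d ≤ H (2 * d - 1) := by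
    have : d * (66 / 100) ≤ (d - 0) * H (2 * (3 / 5) - 1) := by
      rw [sub_zero]; exact mul_le_mul_of_nonneg_left hH0 hd0
    nlinarith
  have h2 := p2_ge hd0 hd1
  have h3 : 19 / 10 * (4 / 5 * d) ≤ k * p2 d :=
    mul_le_mul hk h2 (by positivity) (by linarith)
  have h4 : 39 / 10 * (11 / 10 * d) ≤ a * H (2 * d - 1) :=
    mul_le_mul ha hH1 (by positivity) (by linarith)
  have h6 : L * d ≤ 33 / 10 * d := mul_le_mul_of_nonneg_right hL hd0
  nlinarith

/-! The cells -/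

noncomputable def Tc (ea eb : ℝ) : ℝ := 0.2878 - ea * (5 / 2 - 6 * eb)

noncomputable def t0c (eb : ℝ) : ℝ := 0.4054 + 1 - 5 * eb - 67 * eb ^ 2

noncomputable def Lc (ea : ℝ) : ℝ := 3 * (1 + 3 * ea)

noncomputable def t9c : ℝ := 2.7919

/-- The numerical conditions on a cell. -/
structure CellOK (ea eb la da Ha Amax : ℝ) : Prop where
  hea : 1 / 10000 ≤ ea
  hab : ea ≤ eb
  heb : eb ≤ 9 / 400
  hda : 27 / 250 ≤ da
  hdb : da < 3 / 5
  hT0 : 22 / 100 ≤ Tc ea eb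
  hT1 : Tc ea eb ≤ la - 1.7919
  n1 : 0 ≤ Q0 (Tc ea eb) (Lc ea) (t0c eb) t9c (4 * (1 - eb)) (la - 1.7919) da
  n2 : 0 ≤ Q0s (Tc ea eb) (t0c eb) t9c (4 * (1 - eb)) (la - 1.7919) da
  n3 : 0 ≤ Q0 (Tc ea eb) (Lc ea) (t0c eb) t9c (4 * (1 - eb)) (la - 1.7919) (3 / 5)
  n4 : 0 ≤ Q0s (Tc ea eb) (t0c eb) t9c (4 * (1 - eb)) (la - 1.7919) (3 / 5)
  n5 : 0 ≤ Q1 (Tc ea eb) (Lc ea) (t0c eb) t9c (4 * (1 - ea)) (la - 1.7919) da Ha
  n6 : 0 ≤ Q1s (Tc ea eb) (t0c eb) t9c (4 * (1 - ea)) (la - 1.7919) da Ha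
  n7 : 0 ≤ Q1 (Tc ea eb) (Lc ea) (t0c eb) t9c (4 * (1 - ea)) (la - 1.7919) (3 / 5) (66 / 100)
  n8 : 0 ≤ Q1s (Tc ea eb) (t0c eb) t9c (4 * (1 - ea)) (la - 1.7919) (3 / 5) (66 / 100)
  c0 : 4 * (1 - eb) * (0.6931471 * 4 / 3 - 1 / 2)
      + (la - 1.7919 + t9c) * (-(4 / 3) + 2 * (3 / 5 : ℝ) ^ 2) ≤ 0
  t9k : 0 ≤ la - 1.7919 + t9c - 4 * (1 - ea) * 0.6931472
  hA0 : Amax ≤ 0
  hA1 : Af da da (3 / 5) ≤ Amax
  hA2 : Af (3 / 5) da (3 / 5) ≤ Amax
  hD1 : D1 (Tc ea eb) t9c (4 * (1 - ea)) Amax (la - 1.7919) ≤ 0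
  hD2 : D1s (Tc ea eb) t9c (4 * (1 - ea)) Amax (la - 1.7919) ≤ 0

lemma log_large {e : ℝ} (he1 : 1 / 10000 ≤ e) : log (1 / e) ≤ 83 / 9 := by
  have he0 : 0 < e := by linarith
  have h1 : 1 / e ≤ 10000 := by
    rw [div_le_iff₀ he0]; linarith
  have h2 := log_le_log (by positivity) h1
  have h3 := Tail.log_le_of_pow (x := 10000) (by norm_num) (p := 83) (q := 9) (by norm_num)
    (by norm_num)
  norm_num at h3
  linarith

lemma log_small {e : ℝ} (he0 : 0 < e) (he2 : e ≤ 9 / 400) : 3.794 ≤ log (1 / e) := by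
  have h1 : (400 / 9 : ℝ) ≤ 1 / e := by
    rw [le_div_iff₀ he0]; nlinarith
  have h2 := log_le_log (by norm_num) h1
  have h3 := log_bracket.1
  linarith

/-- The polynomial part of a cell, for abstract normalized constants. -/
lemma cell_E {ea eb la da Ha Amax a k Θ τ u d : ℝ} (hc : CellOK ea eb la da Ha Amax)
    (hHa : Ha ≤ H (2 * da - 1)) (hd1 : da ≤ d) (hd2 : d ≤ 3 / 5) (hua : la - 1.7919 ≤ u)
    (hu15 : u ≤ 15 / 2) (hτu : τ * u ≤ Tc ea eb)
    (hX : u + t0c eb + τ * Lc ea ≤ Θ) (ha1 : 4 * (1 - eb) ≤ a) (ha2 : a ≤ 4 * (1 - ea))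
    (ha39 : 39 / 10 ≤ a) (hk19 : 19 / 10 ≤ k) (hhp2 : a * log 2 + k ≤ u + t9c) :
    0 ≤ Sf a k Θ (1 - τ) 0 d ∧ 0 ≤ Sf a k Θ (1 - τ) 0 d - Rp a k (1 - τ) d := by
  have hea := hc.hea
  have heb := hc.heb
  have hab := hc.hab
  have hda0 : 0 ≤ da := by linarith [hc.hda]
  have hd0 : 0 ≤ d := by linarith
  have hdd : 27 / 250 ≤ d := by linarith [hc.hda]
  have hT1 := hc.hT1
  have hT0 := hc.hT0
  have hT00 : 0 ≤ Tc ea eb := by linarith
  have huT : Tc ea eb ≤ u := by linarith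
  have hu0 : 0 < u := by linarith
  have hL33 : Lc ea ≤ 33 / 10 := by
    unfold Lc; linarith
  constructor
  · apply E0n (X := u + t0c eb) (L := Lc ea) (T := Tc ea eb) (u := u) hu0 hτu hX hd0
      (W0_ge ha39 hk19 hL33 hd0 hd2)
    have hQ := Q0_nonneg (T := Tc ea eb) (L := Lc ea) (t0 := t0c eb) (t9 := t9c)
      (a := 4 * (1 - eb)) (u := u) (ua := la - 1.7919) (d := d) (da := da) (db := 3 / 5)
      hda0 hc.hdb hd1 hd2 le_rfl hua hc.hT1 (by linarith)
      (by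
        have h1 := hc.t9k
        have h2 : 0 ≤ 4 * (1 - ea) * (0.6931472 : ℝ) := by
          apply mul_nonneg _ (by norm_num)
          linarith
        linarith)
      hc.n1 hc.n2 hc.n3 hc.n4 hc.c0
    have hF := F0_ge (a := a) (k := k) (X := u + t0c eb) (T := Tc ea eb) (L := Lc ea) (t0 := t0c eb)
      (t9 := t9c) (alo := 4 * (1 - eb)) (u := u) (d := d) hu0.le huT hT00 hd0 hd2 le_rfl ha1
      (by linarith) hhp2
    linarith
  · apply E1n (X := u + t0c eb) (L := Lc ea) (T := Tc ea eb) (u := u) hu0 hτu hX hd0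
      (R1_ge ha39 hk19 hL33 hd0 hd2)
    have hQ := Q1_nonneg (T := Tc ea eb) (L := Lc ea) (t0 := t0c eb) (t9 := t9c)
      (a := 4 * (1 - ea)) (u := u) (ua := la - 1.7919) (d := d) (da := da) (db := 3 / 5)
      (Ha := Ha) (Hb := 66 / 100) (Hv := H (2 * d - 1)) (Amax := Amax)
      hda0 hc.hdb hd1 hd2 le_rfl hua hc.hT1 hT00 (by linarith) hc.t9k
      hc.n5 hc.n6 hc.n7 hc.n8 hc.hA0 hc.hA1 hc.hA2 hc.hD1 hc.hD2
      (by
        have hchord := hb_chord (d := d) (da := da) (db := 3 / 5) hda0 hd1 hd2 (by norm_num) hc.hdb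
        have s1 := mul_le_mul_of_nonneg_left hHa (show 0 ≤ 3 / 5 - d by linarith)
        have s2 := mul_le_mul_of_nonneg_left H_fifth (show 0 ≤ d - da by linarith)
        linarith)
    have hF := F1_ge (a := a) (k := k) (X := u + t0c eb) (T := Tc ea eb) (L := Lc ea) (t0 := t0c eb)
      (t9 := t9c) (ahi := 4 * (1 - ea)) (u := u) (d := d) hu0.le huT hT0 hu15 hdd hd2 le_rfl ha2
      (by linarith) hhp2
    linarith

/-- Facts on the exponent and the slope of the pair `s = 3 e`, normalized by `e`. -/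
lemma pair_norm {ea eb e : ℝ} (hea : 1 / 10000 ≤ ea) (heb : eb ≤ 9 / 400) (he1 : ea ≤ e)
    (he2 : e ≤ eb) :
    tauV2 e (3 * e) * (log (1 / e) - log 6) ≤ Tc ea eb ∧
    (log (1 / e) - log 6) + t0c eb + tauV2 e (3 * e) * Lc ea ≤ thetaV2 e (3 * e) / e := by
  have he0 : 0 < e := by linarith
  have he9 : e ≤ 9 / 400 := by linarith
  have hs0 : 0 < 3 * e := by positivity
  have hs1 : 3 * e < 1 / 2 := by linarith
  have hτ0 := (tauV2_mem he0 (by linarith) hs0 hs1).1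
  constructor
  · have h1 := tau_mul_le he0 he9
    have h2 := log43_hi
    have h3 : ea * (5 / 2 - 6 * eb) ≤ e * (5 / 2 - 6 * e) :=
      mul_le_mul he1 (by linarith) (by linarith) (by linarith)
    unfold Tc
    linarith
  · have h1 := theta_ge he0 he9
    generalize tauV2 e (3 * e) = τ at h1 hτ0 ⊢
    have h2 : log (1 / e) - log 4 + (1 - 5 * e - 67 * e ^ 2) + 3 * τ * (1 + 3 * e)
        ≤ thetaV2 e (3 * e) / e := by
      rw [le_div_iff₀ he0]
      linarith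
    have h3 := log32_lo
    have h4 : e ^ 2 ≤ eb ^ 2 := pow_le_pow_left₀ he0.le he2 2
    have h5 : τ * ea ≤ τ * e := mul_le_mul_of_nonneg_left he1 hτ0
    unfold t0c Lc
    nlinarith

/-- Facts on the entropy, normalized by `e`. -/
lemma hE_norm {e : ℝ} (he0 : 0 < e) (he9 : e ≤ 9 / 400) :
    hE e / e ≤ log (1 / e) + 1 ∧ log (1 / e) + 1 - e ≤ hE e / e := by
  constructor
  · rw [div_le_iff₀ he0]
    have := Tail.hE_hi he0 (by linarith : e < 1)
    linarith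
  · rw [le_div_iff₀ he0]
    have := Tail.hE_lo he0 (by linarith : e < 1)
    linarith

theorem cell_main {ea eb la da Ha Amax : ℝ} (hc : CellOK ea eb la da Ha Amax)
    (hla : la ≤ log (1 / eb)) (hHa : Ha ≤ H (2 * da - 1)) {e d m : ℝ} (he1 : ea ≤ e) (he2 : e ≤ eb)
    (hd1 : da ≤ d) (hd2 : d ≤ 3 / 5) (hm0 : 0 ≤ m) (hmd : m + d ≤ 1) :
    LL e m ≤ thetaV2 e (3 * e) * d + (1 - tauV2 e (3 * e)) / 2 * (LL e (m + d) + LL e (m - d)) := by
  have hea := hc.hea
  have heb := hc.heb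
  have he0 : 0 < e := by linarith
  have he9 : e ≤ 9 / 400 := by linarith
  have heb0 : 0 < eb := by linarith
  have hd0 : 0 ≤ d := by linarith [hc.hda]
  have hs0 : 0 < 3 * e := by positivity
  have hs1 : 3 * e < 1 / 2 := by linarith
  obtain ⟨hτ0, hτ1⟩ := tauV2_mem he0 (by linarith) hs0 hs1
  obtain ⟨hp1, hp2⟩ := pair_norm hea heb he1 he2
  obtain ⟨hh1, hh2⟩ := hE_norm he0 he9
  have hℓ1 : log (1 / e) ≤ 83 / 9 := log_large (by linarith)
  have hℓ2 : 3.794 ≤ log (1 / e) := log_small he0 he9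
  have h6lo := log6_lo
  have h6hi := log6_hi
  have hℓ3 : la ≤ log (1 / e) := by
    have h1 : 1 / eb ≤ 1 / e := one_div_le_one_div_of_le he0 he2
    have h2 := log_le_log (by positivity) h1
    linarith
  have hlo := Tail.log_two_lo
  have hhi := Tail.log_two_hi
  have hsg : sg e = e * (4 * (1 - e)) := by unfold sg; ring
  have hhE : hE e = e * (hE e / e) := by field_simp
  have hka : ka e = e * (hE e / e - 4 * (1 - e) * log 2) := by
    unfold ka; rw [hsg]; nth_rewrite 1 [hhE]; ring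
  have hth : thetaV2 e (3 * e) = e * (thetaV2 e (3 * e) / e) := by field_simp
  have ha4 : 4 * (1 - e) ≤ 4 := by linarith
  have hE12 := cell_E (a := 4 * (1 - e)) (k := hE e / e - 4 * (1 - e) * log 2)
    (Θ := thetaV2 e (3 * e) / e) (τ := tauV2 e (3 * e)) (u := log (1 / e) - log 6) (d := d)
    hc hHa hd1 hd2 (by linarith) (by linarith) hp1 hp2
    (by linarith) (by linarith) (by linarith)
    (by
      have : 4 * (1 - e) * log 2 ≤ 4 * 0.6931472 :=
        mul_le_mul ha4 hhi.le (by linarith) (by norm_num)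
      linarith)
    (by
      unfold t9c
      linarith)
  obtain ⟨hE0n, hE1n⟩ := hE12
  have hsg0 : 0 ≤ sg e := sg_nonneg he0.le (by linarith)
  have hka0 : 0 ≤ ka e := ka_nonneg he0.le (by linarith)
  apply cert_of_ends hsg0 hka0 (by linarith) (by linarith) hd0 hm0 hmd
  · rw [hsg, hka]
    nth_rewrite 1 [hth]
    rw [Sf_scale]
    exact mul_nonneg he0.le hE0n
  · rw [hsg, hka]
    nth_rewrite 1 [hth]
    rw [Sf_scale, Rp_scale, ← mul_sub]
    exact mul_nonneg he0.le hE1n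

/-! The numerical data of the cells -/

lemma ok1 : CellOK (1 / 70) (9 / 400) (110 / 29) (47 / 200) (543 / 1000) (-43 / 25) := by
  constructor <;> norm_num [Tc, t0c, Lc, t9c, Q0, Q0s, Q1, Q1s, Hpoly, gt, p1, p2, Af, S2, D1, D1s]

lemma la1 : (110 / 29) ≤ log (1 / (9 / 400)) := by
  have h := Tail.le_log_of_pow (x := 1 / (9 / 400)) (by norm_num) (p := 110) (q := 29) (by norm_num) (by norm_num)
  have e : ((110 : ℕ) : ℝ) / (29 : ℕ) = (110 / 29) := by norm_num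
  rwa [e] at h

lemma lb1 : log (1 / (1 / 70)) ≤ (17 / 4) := by
  have h := Tail.log_le_of_pow (x := 1 / (1 / 70)) (by norm_num) (p := 17) (q := 4) (by norm_num) (by norm_num)
  have e : ((17 : ℕ) : ℝ) / (4 : ℕ) = (17 / 4) := by norm_num
  rwa [e] at h

lemma Ha1 : (543 / 1000) ≤ H (2 * (47 / 200) - 1) := by
  have hA : (13 / 9) ≤ log (1 / (47 / 200)) := by
    have h := Tail.le_log_of_pow (x := 1 / (47 / 200)) (by norm_num) (p := 13) (q := 9) (by norm_num) (by norm_num)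
    have e : ((13 : ℕ) : ℝ) / (9 : ℕ) = (13 / 9) := by norm_num
    rwa [e] at h
  have hB : (4 / 15) ≤ log (1 / (1 - (47 / 200))) := by
    have h := Tail.le_log_of_pow (x := 1 / (1 - (47 / 200))) (by norm_num) (p := 4) (q := 15) (by norm_num) (by norm_num)
    have e : ((4 : ℕ) : ℝ) / (15 : ℕ) = (4 / 15) := by norm_num
    rwa [e] at h
  have h := hb_lo (d := (47 / 200)) (by norm_num) (by norm_num) hA hB
  have e : ((543 / 1000) : ℝ) ≤ (47 / 200) * (13 / 9) + (1 - (47 / 200)) * (4 / 15) := by norm_num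
  linarith

lemma ok2 : CellOK (1 / 200) (1 / 70) (106 / 25) (47 / 250) (19 / 40) (-81 / 50) := by
  constructor <;> norm_num [Tc, t0c, Lc, t9c, Q0, Q0s, Q1, Q1s, Hpoly, gt, p1, p2, Af, S2, D1, D1s]

lemma la2 : (106 / 25) ≤ log (1 / (1 / 70)) := by
  have h := Tail.le_log_of_pow (x := 1 / (1 / 70)) (by norm_num) (p := 106) (q := 25) (by norm_num) (by norm_num)
  have e : ((106 : ℕ) : ℝ) / (25 : ℕ) = (106 / 25) := by norm_num
  rwa [e] at h

lemma lb2 : log (1 / (1 / 200)) ≤ (53 / 10) := by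
  have h := Tail.log_le_of_pow (x := 1 / (1 / 200)) (by norm_num) (p := 53) (q := 10) (by norm_num) (by norm_num)
  have e : ((53 : ℕ) : ℝ) / (10 : ℕ) = (53 / 10) := by norm_num
  rwa [e] at h

lemma Ha2 : (19 / 40) ≤ H (2 * (47 / 250) - 1) := by
  have hA : (5 / 3) ≤ log (1 / (47 / 250)) := by
    have h := Tail.le_log_of_pow (x := 1 / (47 / 250)) (by norm_num) (p := 5) (q := 3) (by norm_num) (by norm_num)
    have e : ((5 : ℕ) : ℝ) / (3 : ℕ) = (5 / 3) := by norm_num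
    rwa [e] at h
  have hB : (1 / 5) ≤ log (1 / (1 - (47 / 250))) := by
    have h := Tail.le_log_of_pow (x := 1 / (1 - (47 / 250))) (by norm_num) (p := 1) (q := 5) (by norm_num) (by norm_num)
    have e : ((1 : ℕ) : ℝ) / (5 : ℕ) = (1 / 5) := by norm_num
    rwa [e] at h
  have h := hb_lo (d := (47 / 250)) (by norm_num) (by norm_num) hA hB
  have e : ((19 / 40) : ℝ) ≤ (47 / 250) * (5 / 3) + (1 - (47 / 250)) * (1 / 5) := by norm_num
  linarith

lemma ok3 : CellOK (1 / 800) (1 / 200) (90 / 17) (37 / 250) (413 / 1000) (-3 / 2) := by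
  constructor <;> norm_num [Tc, t0c, Lc, t9c, Q0, Q0s, Q1, Q1s, Hpoly, gt, p1, p2, Af, S2, D1, D1s]

lemma la3 : (90 / 17) ≤ log (1 / (1 / 200)) := by
  have h := Tail.le_log_of_pow (x := 1 / (1 / 200)) (by norm_num) (p := 90) (q := 17) (by norm_num) (by norm_num)
  have e : ((90 : ℕ) : ℝ) / (17 : ℕ) = (90 / 17) := by norm_num
  rwa [e] at h

lemma lb3 : log (1 / (1 / 800)) ≤ (47 / 7) := by
  have h := Tail.log_le_of_pow (x := 1 / (1 / 800)) (by norm_num) (p := 47) (q := 7) (by norm_num) (by norm_num)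
  have e : ((47 : ℕ) : ℝ) / (7 : ℕ) = (47 / 7) := by norm_num
  rwa [e] at h

lemma Ha3 : (413 / 1000) ≤ H (2 * (37 / 250) - 1) := by
  have hA : (21 / 11) ≤ log (1 / (37 / 250)) := by
    have h := Tail.le_log_of_pow (x := 1 / (37 / 250)) (by norm_num) (p := 21) (q := 11) (by norm_num) (by norm_num)
    have e : ((21 : ℕ) : ℝ) / (11 : ℕ) = (21 / 11) := by norm_num
    rwa [e] at h
  have hB : (2 / 13) ≤ log (1 / (1 - (37 / 250))) := by
    have h := Tail.le_log_of_pow (x := 1 / (1 - (37 / 250))) (by norm_num) (p := 2) (q := 13) (by norm_num) (by norm_num)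
    have e : ((2 : ℕ) : ℝ) / (13 : ℕ) = (2 / 13) := by norm_num
    rwa [e] at h
  have h := hb_lo (d := (37 / 250)) (by norm_num) (by norm_num) hA hB
  have e : ((413 / 1000) : ℝ) ≤ (37 / 250) * (21 / 11) + (1 - (37 / 250)) * (2 / 13) := by norm_num
  linarith

lemma ok4 : CellOK (1 / 3000) (1 / 800) (127 / 19) (31 / 250) (367 / 1000) (-143 / 100) := by
  constructor <;> norm_num [Tc, t0c, Lc, t9c, Q0, Q0s, Q1, Q1s, Hpoly, gt, p1, p2, Af, S2, D1, D1s]

lemma la4 : (127 / 19) ≤ log (1 / (1 / 800)) := by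
  have h := Tail.le_log_of_pow (x := 1 / (1 / 800)) (by norm_num) (p := 127) (q := 19) (by norm_num) (by norm_num)
  have e : ((127 : ℕ) : ℝ) / (19 : ℕ) = (127 / 19) := by norm_num
  rwa [e] at h

lemma lb4 : log (1 / (1 / 3000)) ≤ (225 / 28) := by
  have h := Tail.log_le_of_pow (x := 1 / (1 / 3000)) (by norm_num) (p := 225) (q := 28) (by norm_num) (by norm_num)
  have e : ((225 : ℕ) : ℝ) / (28 : ℕ) = (225 / 28) := by norm_num
  rwa [e] at h

lemma Ha4 : (367 / 1000) ≤ H (2 * (31 / 250) - 1) := by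
  have hA : (25 / 12) ≤ log (1 / (31 / 250)) := by
    have h := Tail.le_log_of_pow (x := 1 / (31 / 250)) (by norm_num) (p := 25) (q := 12) (by norm_num) (by norm_num)
    have e : ((25 : ℕ) : ℝ) / (12 : ℕ) = (25 / 12) := by norm_num
    rwa [e] at h
  have hB : (1 / 8) ≤ log (1 / (1 - (31 / 250))) := by
    have h := Tail.le_log_of_pow (x := 1 / (1 - (31 / 250))) (by norm_num) (p := 1) (q := 8) (by norm_num) (by norm_num)
    have e : ((1 : ℕ) : ℝ) / (8 : ℕ) = (1 / 8) := by norm_num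
    rwa [e] at h
  have h := hb_lo (d := (31 / 250)) (by norm_num) (by norm_num) hA hB
  have e : ((367 / 1000) : ℝ) ≤ (31 / 250) * (25 / 12) + (1 - (31 / 250)) * (1 / 8) := by norm_num
  linarith

lemma ok5 : CellOK (1 / 10000) (1 / 3000) (8 / 1) (27 / 250) (339 / 1000) (-137 / 100) := by
  constructor <;> norm_num [Tc, t0c, Lc, t9c, Q0, Q0s, Q1, Q1s, Hpoly, gt, p1, p2, Af, S2, D1, D1s]

lemma la5 : (8 / 1) ≤ log (1 / (1 / 3000)) := by
  have h := Tail.le_log_of_pow (x := 1 / (1 / 3000)) (by norm_num) (p := 8) (q := 1) (by norm_num) (by norm_num)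
  have e : ((8 : ℕ) : ℝ) / (1 : ℕ) = (8 / 1) := by norm_num
  rwa [e] at h

lemma lb5 : log (1 / (1 / 10000)) ≤ (83 / 9) := by
  have h := Tail.log_le_of_pow (x := 1 / (1 / 10000)) (by norm_num) (p := 83) (q := 9) (by norm_num) (by norm_num)
  have e : ((83 : ℕ) : ℝ) / (9 : ℕ) = (83 / 9) := by norm_num
  rwa [e] at h

lemma Ha5 : (339 / 1000) ≤ H (2 * (27 / 250) - 1) := by
  have hA : (20 / 9) ≤ log (1 / (27 / 250)) := by
    have h := Tail.le_log_of_pow (x := 1 / (27 / 250)) (by norm_num) (p := 20) (q := 9) (by norm_num) (by norm_num)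
    have e : ((20 : ℕ) : ℝ) / (9 : ℕ) = (20 / 9) := by norm_num
    rwa [e] at h
  have hB : (1 / 9) ≤ log (1 / (1 - (27 / 250))) := by
    have h := Tail.le_log_of_pow (x := 1 / (1 - (27 / 250))) (by norm_num) (p := 1) (q := 9) (by norm_num) (by norm_num)
    have e : ((1 : ℕ) : ℝ) / (9 : ℕ) = (1 / 9) := by norm_num
    rwa [e] at h
  have h := hb_lo (d := (27 / 250)) (by norm_num) (by norm_num) hA hB
  have e : ((339 / 1000) : ℝ) ≤ (27 / 250) * (20 / 9) + (1 - (27 / 250)) * (1 / 9) := by norm_num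
  linarith

/-- One cell, in the form of the zone. -/
lemma cell_zone {ea eb la da Ha Amax lb : ℝ} (hc : CellOK ea eb la da Ha Amax)
    (hla : la ≤ log (1 / eb)) (hlb : log (1 / ea) ≤ lb) (hHa : Ha ≤ H (2 * da - 1))
    (hdlb : da * lb ≤ 1) {e d m : ℝ} (he1 : ea ≤ e) (he2 : e ≤ eb)
    (hdL : 1 ≤ d * log (1 / e)) (hd2 : d ≤ 3 / 5) (hm0 : 0 ≤ m) (hmd : m + d ≤ 1) :
    LL e m ≤ thetaV2 e (3 * e) * d + (1 - tauV2 e (3 * e)) / 2 * (LL e (m + d) + LL e (m - d)) := by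
  have hea := hc.hea
  have heb := hc.heb
  have he0 : 0 < e := by linarith
  have hea0 : 0 < ea := by linarith
  have hℓ : log (1 / e) ≤ lb := by
    have h1 : 1 / e ≤ 1 / ea := one_div_le_one_div_of_le hea0 he1
    have h2 := log_le_log (by positivity) h1
    linarith
  have hℓ2 : 3.794 ≤ log (1 / e) := log_small he0 (by linarith)
  have hd0 : 0 < d := by
    by_contra hd
    have hd' := not_lt.mp hd
    nlinarith
  have hlb0 : 0 < lb := by linarith
  have hd1 : da ≤ d := by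
    have h1 : d * log (1 / e) ≤ d * lb := mul_le_mul_of_nonneg_left hℓ hd0.le
    have h2 : da * lb ≤ d * lb := by linarith
    exact le_of_mul_le_mul_right h2 hlb0
  exact cell_main hc hla hHa he1 he2 hd1 hd2 hm0 hmd

/-- The inequality on the whole zone, for the pair `s = 3 e`. -/
theorem low_pair {e d m : ℝ} (he1 : 1 / 10000 ≤ e) (he2 : e ≤ 9 / 400)
    (hdL : 1 ≤ d * log (1 / e)) (hd2 : d ≤ 3 / 5) (hm0 : 0 ≤ m) (hmd : m + d ≤ 1) :
    LL e m ≤ thetaV2 e (3 * e) * d + (1 - tauV2 e (3 * e)) / 2 * (LL e (m + d) + LL e (m - d)) := by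
  rcases le_total e (1 / 70) with h1 | h1
  swap
  · exact cell_zone ok1 la1 lb1 Ha1 (lb := (17 / 4)) (by norm_num) h1 he2 hdL hd2 hm0 hmd
  rcases le_total e (1 / 200) with h2 | h2
  swap
  · exact cell_zone ok2 la2 lb2 Ha2 (lb := (53 / 10)) (by norm_num) h2 h1 hdL hd2 hm0 hmd
  rcases le_total e (1 / 800) with h3 | h3
  swap
  · exact cell_zone ok3 la3 lb3 Ha3 (lb := (47 / 7)) (by norm_num) h3 h2 hdL hd2 hm0 hmd
  rcases le_total e (1 / 3000) with h4 | h4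
  swap
  · exact cell_zone ok4 la4 lb4 Ha4 (lb := (225 / 28)) (by norm_num) h4 h3 hdL hd2 hm0 hmd
  exact cell_zone ok5 la5 lb5 Ha5 (lb := (83 / 9)) (by norm_num) he1 h4 hdL hd2 hm0 hmd

end Low

/-- The zone `1/10000 ≤ e ≤ 9/400`, `1 ≤ d log (1/e)`, `d ≤ 3/5` of `(F)`, with the pair `s = 3 e`. -/
theorem zoneLow {e d m : ℝ} (he1 : 1 / 10000 ≤ e) (he2 : e ≤ 9 / 400) (hm0 : 0 ≤ m) (hmd : m + d ≤ 1)
    (hd2 : d ≤ 3 / 5) (hdL : 1 ≤ d * Real.log (1 / e)) :
    ∃ th v : ℝ, ValidPair e th v ∧ LL e m ≤ th * d + v / 2 * (LL e (m + d) + LL e (m - d)) := by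
  have he0 : 0 < e := by linarith
  exact ⟨_, _, V2_valid he0 (by linarith) (by positivity) (by linarith),
    Low.low_pair he1 he2 hdL hd2 hm0 hmd⟩

end Vale.Agent.Lib.P322y
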