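import Vale.Agent.Lib.P322y.Coord

/-! The zone `6 m² + d² ≥ 4`: the one-step entropy gain is jointly convex, and the loss of the
Bellman function there is at most the gain of the means. -/

set_option linter.unusedVariables false
set_option linter.unusedSectionVars false

namespace Vale.Agent.Lib.P322y

open Finset Vale.Agent.Lib.P311 Vale.Agent.Lib.P322 Vale.Agent.Lib.P322x

variable {n : ℕ}

/-- Tangent plane of the relative entropy term, with the boundary allowed. -/
lemma klt_tangent' {u v U V : ℝ} (hu : 0 ≤ u) (hv : 0 ≤ v) (huv : v = 0 → u = 0) (hU : 0 < U)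
    (hV : 0 < V) : u * (Real.log U - Real.log V) + u - v * (U / V) ≤ klt u v := by
  rcases eq_or_lt_of_le hu with h | h
  · subst h
    have : 0 ≤ v * (U / V) := by positivity
    simp [klt]
    linarith
  · have hv' : 0 < v := by
      rcases eq_or_lt_of_le hv with h' | h'
      · exact absurd (huv h'.symm) h.ne'
      · exact h'
    exact klt_tangent h hv' hU hV

lemma mean_nonneg {u : (Fin n → Bool) → ℝ} (h : ∀ x, 0 ≤ u x) : 0 ≤ mean u := by
  unfold mean
  exact div_nonneg (Finset.sum_nonneg fun x _ => h x) (by positivity)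

lemma eq_zero_of_mean_eq_zero {u : (Fin n → Bool) → ℝ} (h : ∀ x, 0 ≤ u x) (h0 : mean u = 0)
    (x : Fin n → Bool) : u x = 0 := by
  unfold mean at h0
  have h2 : (2 : ℝ) ^ n ≠ 0 := by positivity
  have h3 : ∑ x, u x = 0 := by
    rcases div_eq_zero_iff.mp h0 with h4 | h4
    · exact h4
    · exact absurd h4 h2
  exact (Finset.sum_eq_zero_iff_of_nonneg fun x _ => h x).mp h3 x (Finset.mem_univ x)

/-- The log-sum inequality on the cube, with the boundary allowed. -/
lemma klt_mean' {u v : (Fin n → Bool) → ℝ} (hu : ∀ x, 0 ≤ u x) (hv : ∀ x, 0 ≤ v x)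
    (huv : ∀ x, v x = 0 → u x = 0) :
    klt (mean u) (mean v) ≤ mean (fun x => klt (u x) (v x)) := by
  have hU0 := mean_nonneg hu
  rcases eq_or_lt_of_le hU0 with h | hU
  · have h0 : ∀ x, u x = 0 := eq_zero_of_mean_eq_zero hu h.symm
    have : ∀ x, klt (u x) (v x) = 0 := fun x => by simp [klt, h0 x]
    rw [mean_congr this, mean_const, ← h]
    simp [klt]
  · have hV : 0 < mean v := by
      have hV0 := mean_nonneg hv
      rcases eq_or_lt_of_le hV0 with h | h
      · have h0 := eq_zero_of_mean_eq_zero hv h.symm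
        have h1 : ∀ x, u x = 0 := fun x => huv x (h0 x)
        have : mean u = 0 := by
          rw [mean_congr h1, mean_const]
        linarith
      · exact h
    have h : mean (fun x => u x * (Real.log (mean u) - Real.log (mean v)) + u x - v x * (mean u / mean v))
        ≤ mean (fun x => klt (u x) (v x)) :=
      mean_le_mean fun x => klt_tangent' (hu x) (hv x) (huv x) hU hV
    have e : mean (fun x => u x * (Real.log (mean u) - Real.log (mean v)) + u x - v x * (mean u / mean v))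
        = klt (mean u) (mean v) := by
      have : ∀ x, u x * (Real.log (mean u) - Real.log (mean v)) + u x - v x * (mean u / mean v)
          = (Real.log (mean u) - Real.log (mean v)) * u x + (u x + (-(mean u / mean v)) * v x) := by
        intro x; ring
      rw [mean_congr this, mean_add, mean_add, mean_mul_left, mean_mul_left]
      unfold klt
      field_simp
      ring
    linarith

/-- The entropy in terms of `x log x`. -/
lemma H_formula {u : ℝ} (h : |u| ≤ 1) :
    H u = Real.log 2 - ((1 + u) * Real.log (1 + u) + (1 - u) * Real.log (1 - u)) / 2 :=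
  H_eq h

/-- The entropy gain of a two-point mixture as relative entropies. -/
lemma mix_eq {a b w : ℝ} (ha : |a| ≤ 1) (hb : |b| ≤ 1) (hw0 : 0 ≤ w) (hw1 : w ≤ 1) :
    H ((1 - w) * a + w * b) - (1 - w) * H a - w * H b
      = ((1 - w) * (klt (1 + a) (1 + ((1 - w) * a + w * b))
            + klt (1 - a) (1 - ((1 - w) * a + w * b)))
          + w * (klt (1 + b) (1 + ((1 - w) * a + w * b))
            + klt (1 - b) (1 - ((1 - w) * a + w * b)))) / 2 := by
  have ha1 := abs_le.mp ha
  have hb1 := abs_le.mp hb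
  have hc : |(1 - w) * a + w * b| ≤ 1 := by
    rw [abs_le]
    constructor <;> nlinarith
  rw [H_formula hc, H_formula ha, H_formula hb]
  unfold klt
  ring

/-- The one-step gain. -/
noncomputable def Dlt (e a b : ℝ) : ℝ := NN e a b - (H a + H b) / 2

/-- The one-step gain as relative entropies. -/
lemma Dlt_eq {e a b : ℝ} (ha : |a| ≤ 1) (hb : |b| ≤ 1) (h0 : 0 ≤ e) (h1 : e ≤ 1) :
    Dlt e a b = (((1 - e) * (klt (1 + a) (1 + ((1 - e) * a + e * b))
            + klt (1 - a) (1 - ((1 - e) * a + e * b)))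
          + e * (klt (1 + b) (1 + ((1 - e) * a + e * b))
            + klt (1 - b) (1 - ((1 - e) * a + e * b))))
        + ((1 - e) * (klt (1 + b) (1 + ((1 - e) * b + e * a))
            + klt (1 - b) (1 - ((1 - e) * b + e * a)))
          + e * (klt (1 + a) (1 + ((1 - e) * b + e * a))
            + klt (1 - a) (1 - ((1 - e) * b + e * a))))) / 4 := by
  have m1 := mix_eq ha hb h0 h1
  have m2 := mix_eq hb ha h0 h1
  unfold Dlt NN
  have e2 : e * a + (1 - e) * b = (1 - e) * b + e * a := by ring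
  rw [e2]
  linarith

lemma abs_mean_le_b (u : (Fin n → Bool) → ℝ) : |mean u| ≤ mean (fun x => |u x|) := by
  unfold mean
  rw [abs_div, abs_of_pos (by positivity : (0 : ℝ) < 2 ^ n)]
  exact div_le_div_of_nonneg_right (Finset.abs_sum_le_sum_abs _ _) (by positivity)

lemma mix_zero {p q w : ℝ} (hw0 : 0 < w) (hw1 : w < 1) (hp : 0 ≤ p) (hq : 0 ≤ q)
    (h : (1 - w) * p + w * q = 0) : p = 0 ∧ q = 0 := by
  have h1 : 0 ≤ (1 - w) * p := mul_nonneg (by linarith) hp
  have h2 : 0 ≤ w * q := mul_nonneg hw0.le hq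
  have h3 : (1 - w) * p = 0 := by linarith
  have h4 : w * q = 0 := by linarith
  constructor
  · rcases mul_eq_zero.mp h3 with h5 | h5
    · linarith
    · exact h5
  · rcases mul_eq_zero.mp h4 with h5 | h5
    · linarith
    · exact h5

/-- Jensen for the one-step gain. -/
theorem Dlt_mean_le {e : ℝ} (h0 : 0 < e) (h1 : e < 1) {a b : (Fin n → Bool) → ℝ}
    (ha : ∀ x, |a x| ≤ 1) (hb : ∀ x, |b x| ≤ 1) :
    Dlt e (mean a) (mean b) ≤ mean (fun x => Dlt e (a x) (b x)) := by
  have hA : |mean a| ≤ 1 := by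
    have h := mean_le_mean (u := fun x => |a x|) (v := fun _ => (1 : ℝ)) ha
    rw [mean_const] at h
    exact le_trans (abs_mean_le_b a) h
  have hB : |mean b| ≤ 1 := by
    have h := mean_le_mean (u := fun x => |b x|) (v := fun _ => (1 : ℝ)) hb
    rw [mean_const] at h
    exact le_trans (abs_mean_le_b b) h
  have T : ∀ (u v : (Fin n → Bool) → ℝ) (U V : ℝ), (∀ x, 0 ≤ u x) → (∀ x, 0 ≤ v x) →
      (∀ x, v x = 0 → u x = 0) → mean u = U → mean v = V →
      klt U V ≤ mean (fun x => klt (u x) (v x)) := by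
    intro u v U V hu hv huv hU hV
    rw [← hU, ← hV]
    exact klt_mean' hu hv huv
  have apos : ∀ x, 0 ≤ 1 + a x := fun x => by linarith [(abs_le.mp (ha x)).1]
  have amin : ∀ x, 0 ≤ 1 - a x := fun x => by linarith [(abs_le.mp (ha x)).2]
  have bpos : ∀ x, 0 ≤ 1 + b x := fun x => by linarith [(abs_le.mp (hb x)).1]
  have bmin : ∀ x, 0 ≤ 1 - b x := fun x => by linarith [(abs_le.mp (hb x)).2]
  -- the means of the mixtures
  have mc1 : mean (fun x => 1 + ((1 - e) * a x + e * b x)) = 1 + ((1 - e) * mean a + e * mean b) := by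
    rw [mean_one_add, mean_add, mean_mul_left, mean_mul_left]
  have mc2 : mean (fun x => 1 - ((1 - e) * a x + e * b x)) = 1 - ((1 - e) * mean a + e * mean b) := by
    rw [mean_one_sub, mean_add, mean_mul_left, mean_mul_left]
  have mc3 : mean (fun x => 1 + ((1 - e) * b x + e * a x)) = 1 + ((1 - e) * mean b + e * mean a) := by
    rw [mean_one_add, mean_add, mean_mul_left, mean_mul_left]
  have mc4 : mean (fun x => 1 - ((1 - e) * b x + e * a x)) = 1 - ((1 - e) * mean b + e * mean a) := by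
    rw [mean_one_sub, mean_add, mean_mul_left, mean_mul_left]
  have q1 : ∀ x, 0 ≤ 1 + ((1 - e) * a x + e * b x) := fun x => by
    nlinarith [mul_nonneg (by linarith : 0 ≤ 1 - e) (apos x), mul_nonneg h0.le (bpos x)]
  have q2 : ∀ x, 0 ≤ 1 - ((1 - e) * a x + e * b x) := fun x => by
    nlinarith [mul_nonneg (by linarith : 0 ≤ 1 - e) (amin x), mul_nonneg h0.le (bmin x)]
  have q3 : ∀ x, 0 ≤ 1 + ((1 - e) * b x + e * a x) := fun x => by
    nlinarith [mul_nonneg (by linarith : 0 ≤ 1 - e) (bpos x), mul_nonneg h0.le (apos x)]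
  have q4 : ∀ x, 0 ≤ 1 - ((1 - e) * b x + e * a x) := fun x => by
    nlinarith [mul_nonneg (by linarith : 0 ≤ 1 - e) (bmin x), mul_nonneg h0.le (amin x)]
  have z1 : ∀ x, 1 + ((1 - e) * a x + e * b x) = 0 → 1 + a x = 0 ∧ 1 + b x = 0 := fun x h =>
    mix_zero h0 h1 (apos x) (bpos x) (by linarith)
  have z2 : ∀ x, 1 - ((1 - e) * a x + e * b x) = 0 → 1 - a x = 0 ∧ 1 - b x = 0 := fun x h =>
    mix_zero h0 h1 (amin x) (bmin x) (by linarith)
  have z3 : ∀ x, 1 + ((1 - e) * b x + e * a x) = 0 → 1 + b x = 0 ∧ 1 + a x = 0 := fun x h =>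
    mix_zero h0 h1 (bpos x) (apos x) (by linarith)
  have z4 : ∀ x, 1 - ((1 - e) * b x + e * a x) = 0 → 1 - b x = 0 ∧ 1 - a x = 0 := fun x h =>
    mix_zero h0 h1 (bmin x) (amin x) (by linarith)
  have t1 := T _ _ _ _ apos q1 (fun x h => (z1 x h).1) (mean_one_add a) mc1
  have t2 := T _ _ _ _ amin q2 (fun x h => (z2 x h).1) (mean_one_sub a) mc2
  have t3 := T _ _ _ _ bpos q1 (fun x h => (z1 x h).2) (mean_one_add b) mc1
  have t4 := T _ _ _ _ bmin q2 (fun x h => (z2 x h).2) (mean_one_sub b) mc2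
  have t5 := T _ _ _ _ bpos q3 (fun x h => (z3 x h).1) (mean_one_add b) mc3
  have t6 := T _ _ _ _ bmin q4 (fun x h => (z4 x h).1) (mean_one_sub b) mc4
  have t7 := T _ _ _ _ apos q3 (fun x h => (z3 x h).2) (mean_one_add a) mc3
  have t8 := T _ _ _ _ amin q4 (fun x h => (z4 x h).2) (mean_one_sub a) mc4
  rw [Dlt_eq hA hB h0.le h1.le]
  have hpt : ∀ x, Dlt e (a x) (b x)
      = ((1 - e) / 4) * klt (1 + a x) (1 + ((1 - e) * a x + e * b x))
        + (((1 - e) / 4) * klt (1 - a x) (1 - ((1 - e) * a x + e * b x))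
        + ((e / 4) * klt (1 + b x) (1 + ((1 - e) * a x + e * b x))
        + ((e / 4) * klt (1 - b x) (1 - ((1 - e) * a x + e * b x))
        + (((1 - e) / 4) * klt (1 + b x) (1 + ((1 - e) * b x + e * a x))
        + (((1 - e) / 4) * klt (1 - b x) (1 - ((1 - e) * b x + e * a x))
        + ((e / 4) * klt (1 + a x) (1 + ((1 - e) * b x + e * a x))
        + (e / 4) * klt (1 - a x) (1 - ((1 - e) * b x + e * a x)))))))) := by
    intro x
    rw [Dlt_eq (ha x) (hb x) h0.le h1.le]
    ring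
  rw [mean_congr hpt]
  simp only [mean_add, mean_mul_left]
  have c1 : 0 ≤ (1 - e) / 4 := by linarith
  have c2 : 0 ≤ e / 4 := by linarith
  have s1 := mul_le_mul_of_nonneg_left t1 c1
  have s2 := mul_le_mul_of_nonneg_left t2 c1
  have s3 := mul_le_mul_of_nonneg_left t3 c2
  have s4 := mul_le_mul_of_nonneg_left t4 c2
  have s5 := mul_le_mul_of_nonneg_left t5 c1
  have s6 := mul_le_mul_of_nonneg_left t6 c1
  have s7 := mul_le_mul_of_nonneg_left t7 c2
  have s8 := mul_le_mul_of_nonneg_left t8 c2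
  linarith

/-- Scaling of `Psi`. -/
lemma Psi_mul_le {ρ w : ℝ} (h0 : 0 ≤ ρ) (h1 : ρ ≤ 1) (hw : |w| ≤ 1) :
    Psi (ρ * w) ≤ ρ ^ 2 * Psi w := by
  have hw' : |ρ * w| ≤ 1 := by
    rw [abs_mul, abs_of_nonneg h0]
    nlinarith [abs_nonneg w]
  have h2 := hasSum_Psi hw'
  have h3 := (hasSum_Psi hw).mul_left (ρ ^ 2)
  refine hasSum_le (fun k => ?_) h2 h3
  have e1 : (ρ * w) ^ (2 * k + 2) = ρ ^ (2 * k) * (ρ ^ 2 * w ^ (2 * k + 2)) := by ring
  rw [e1]
  have hw2 : 0 ≤ w ^ (2 * k + 2) := by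
    have : w ^ (2 * k + 2) = (w ^ (k + 1)) ^ 2 := by ring
    rw [this]; positivity
  have hk : ρ ^ (2 * k) ≤ 1 := pow_le_one₀ h0 h1
  have hn0 : 0 ≤ ee k * (ρ ^ 2 * w ^ (2 * k + 2)) :=
    mul_nonneg (ee_nonneg k) (mul_nonneg (sq_nonneg ρ) hw2)
  have := mul_le_mul_of_nonneg_right hk hn0
  nlinarith

/-- `J(m, d) = H m - (H (m + d) + H (m - d)) / 2`. -/
noncomputable def Jt (m d : ℝ) : ℝ := H m - (H (m + d) + H (m - d)) / 2

lemma mul_log_div {x p : ℝ} (hx : 0 ≤ x) (hp : 0 < p) :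
    x * Real.log (x / p) = x * (Real.log x - Real.log p) := by
  rcases eq_or_lt_of_le hx with h | h
  · subst h; simp
  · rw [Real.log_div h.ne' hp.ne']

/-- `p Psi (d / p)` in terms of `x log x`. -/
lemma mul_Psi_div {p d : ℝ} (hp : 0 < p) (h1 : 0 ≤ p + d) (h2 : 0 ≤ p - d) :
    p * Psi (d / p) = ((p + d) * Real.log (p + d) + (p - d) * Real.log (p - d)
      - 2 * (p * Real.log p)) / 2 := by
  unfold Psi
  have e1 : 1 + d / p = (p + d) / p := by field_simp
  have e2 : 1 - d / p = (p - d) / p := by field_simp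
  rw [e1, e2]
  have m1 := mul_log_div h1 hp
  have m2 := mul_log_div h2 hp
  have e3 : p * (((p + d) / p * Real.log ((p + d) / p) + (p - d) / p * Real.log ((p - d) / p)) / 2)
      = ((p + d) * Real.log ((p + d) / p) + (p - d) * Real.log ((p - d) / p)) / 2 := by
    field_simp
  rw [e3, m1, m2]
  ring

/-- The identity for `J`. -/
lemma Jt_formula {m d : ℝ} (hd : |m| + |d| ≤ 1) (hm : |m| < 1) :
    Jt m d = ((1 + m) * Psi (d / (1 + m)) + (1 - m) * Psi (d / (1 - m))) / 2 := by
  have hm1 := abs_lt.mp hm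
  have hd1 := abs_le.mp (le_refl |d|)
  have hm2 := abs_le.mp (le_refl |m|)
  have hpos : 0 < 1 + m := by linarith
  have hneg : 0 < 1 - m := by linarith
  have a1 : 0 ≤ (1 + m) + d := by linarith
  have a2 : 0 ≤ (1 + m) - d := by linarith
  have a3 : 0 ≤ (1 - m) + d := by linarith
  have a4 : 0 ≤ (1 - m) - d := by linarith
  rw [mul_Psi_div hpos a1 a2, mul_Psi_div hneg a3 a4]
  unfold Jt
  have h1 : |m + d| ≤ 1 := by rw [abs_le]; constructor <;> linarith
  have h2 : |m - d| ≤ 1 := by rw [abs_le]; constructor <;> linarith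
  rw [H_formula hm.le, H_formula h1, H_formula h2]
  have e1 : 1 + (m + d) = 1 + m + d := by ring
  have e2 : 1 - (m + d) = 1 - m - d := by ring
  have e3 : 1 + (m - d) = 1 + m - d := by ring
  have e4 : 1 - (m - d) = 1 - m + d := by ring
  rw [e1, e2, e3, e4]
  ring

/-- `J` scales at least quadratically. -/
lemma Jt_scale {m d ρ : ℝ} (hd : |m| + |d| ≤ 1) (h0 : 0 ≤ ρ) (h1 : ρ ≤ 1) :
    Jt m (ρ * d) ≤ ρ ^ 2 * Jt m d := by
  by_cases hm : |m| < 1
  · have hd' : |m| + |ρ * d| ≤ 1 := by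
      rw [abs_mul, abs_of_nonneg h0]
      nlinarith [abs_nonneg d]
    rw [Jt_formula hd' hm, Jt_formula hd hm]
    have hm1 := abs_lt.mp hm
    have hm2 := abs_le.mp (le_refl |m|)
    have hd1 := abs_le.mp (le_refl |d|)
    have hpos : 0 < 1 + m := by linarith
    have hneg : 0 < 1 - m := by linarith
    have w1 : |d / (1 + m)| ≤ 1 := by
      rw [abs_div, abs_of_pos hpos, div_le_one hpos]
      linarith
    have w2 : |d / (1 - m)| ≤ 1 := by
      rw [abs_div, abs_of_pos hneg, div_le_one hneg]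
      linarith
    have p1 := Psi_mul_le h0 h1 w1
    have p2 := Psi_mul_le h0 h1 w2
    rw [← mul_div_assoc] at p1 p2
    have q1 := mul_le_mul_of_nonneg_left p1 hpos.le
    have q2 := mul_le_mul_of_nonneg_left p2 hneg.le
    nlinarith
  · have hd0 : d = 0 := by
      have h3 : |m| ≥ 1 := not_lt.mp hm
      have h4 : |d| ≤ 0 := by linarith
      exact abs_eq_zero.mp (le_antisymm h4 (abs_nonneg d))
    subst hd0
    simp [Jt]

/-- The gain of the two means. -/
lemma Dlt_means {e A B : ℝ} (h0 : 0 ≤ e) (h1 : e ≤ 1 / 2) (hA : |A| ≤ 1) (hB : |B| ≤ 1) :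
    sg e * Jt ((A + B) / 2) ((A - B) / 2) ≤ Dlt e A B := by
  have hA1 := abs_le.mp hA
  have hB1 := abs_le.mp hB
  have hd : |(A + B) / 2| + |(A - B) / 2| ≤ 1 := by
    rcases abs_cases ((A + B) / 2) with h | h <;> rcases abs_cases ((A - B) / 2) with h' | h' <;>
      rw [h.1, h'.1] <;> linarith
  have hs := Jt_scale (ρ := 1 - 2 * e) hd (by linarith) (by linarith)
  have e1 : (A + B) / 2 + (1 - 2 * e) * ((A - B) / 2) = (1 - e) * A + e * B := by ring
  have e2 : (A + B) / 2 - (1 - 2 * e) * ((A - B) / 2) = e * A + (1 - e) * B := by ring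
  have e3 : (A + B) / 2 + (A - B) / 2 = A := by ring
  have e4 : (A + B) / 2 - (A - B) / 2 = B := by ring
  unfold Jt at hs ⊢
  rw [e1, e2, e3, e4] at hs
  rw [e3, e4]
  unfold Dlt NN sg
  have e5 : (1 - 2 * e) ^ 2 = 1 - 4 * e * (1 - e) := by ring
  rw [e5] at hs
  nlinarith

lemma ka_nonneg {e : ℝ} (h0 : 0 ≤ e) (h1 : e ≤ 1 / 2) : 0 ≤ ka e := by
  have hρ : |1 - 2 * e| ≤ 1 := by
    rw [abs_le]; constructor <;> linarith
  have h := Psi_mul_le (ρ := 1 - 2 * e) (w := 1) (by linarith) (by linarith) (by norm_num)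
  rw [mul_one, Psi_one] at h
  unfold ka hE sg
  rw [H_eq hρ]
  nlinarith

/-- The loss of `LL e` between the midpoint and the two means. -/
lemma LL_mid (e A B : ℝ) :
    LL e ((A + B) / 2) - (LL e A + LL e B) / 2
      = sg e * Jt ((A + B) / 2) ((A - B) / 2)
        + ka e * (((A - B) / 2) ^ 2 * (4 / 3 - 2 * ((A + B) / 2) ^ 2 - ((A - B) / 2) ^ 2 / 3)) := by
  have e3 : (A + B) / 2 + (A - B) / 2 = A := by ring
  have e4 : (A + B) / 2 - (A - B) / 2 = B := by ring
  unfold LL Jt gt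
  rw [e3, e4]
  ring

/-- The closure step in the zone `6 m² + d² ≥ 4`. -/
theorem closure_zoneT {e : ℝ} (h0 : 0 < e) (h1 : e ≤ 1 / 2) {a b : (Fin n → Bool) → ℝ}
    (ha : ∀ x, |a x| ≤ 1) (hb : ∀ x, |b x| ≤ 1)
    (hLa : LL e (mean a) ≤ mean (fun x => H (a x))) (hLb : LL e (mean b) ≤ mean (fun x => H (b x)))
    (hT : 4 ≤ 6 * ((mean a + mean b) / 2) ^ 2 + ((mean a - mean b) / 2) ^ 2) :
    LL e ((mean a + mean b) / 2) ≤ mean (fun x => NN e (a x) (b x)) := by
  have hA : |mean a| ≤ 1 := by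
    have h := mean_le_mean (u := fun x => |a x|) (v := fun _ => (1 : ℝ)) ha
    rw [mean_const] at h
    exact le_trans (abs_mean_le_b a) h
  have hB : |mean b| ≤ 1 := by
    have h := mean_le_mean (u := fun x => |b x|) (v := fun _ => (1 : ℝ)) hb
    rw [mean_const] at h
    exact le_trans (abs_mean_le_b b) h
  have hJ := Dlt_mean_le h0 (by linarith) ha hb
  have hM := Dlt_means h0.le h1 hA hB
  have hmid := LL_mid e (mean a) (mean b)
  have hka := ka_nonneg h0.le h1
  have hsplit : mean (fun x => NN e (a x) (b x))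
      = mean (fun x => Dlt e (a x) (b x))
        + (mean (fun x => H (a x)) + mean (fun x => H (b x))) / 2 := by
    rw [show ∀ p : ℝ, p / 2 = (1 / 2 : ℝ) * p from fun p => by ring, ← mean_add, ← mean_mul_left,
      ← mean_add]
    apply mean_congr
    intro x
    unfold Dlt
    ring
  have hneg : ka e * (((mean a - mean b) / 2) ^ 2
      * (4 / 3 - 2 * ((mean a + mean b) / 2) ^ 2 - ((mean a - mean b) / 2) ^ 2 / 3)) ≤ 0 := by
    apply mul_nonpos_of_nonneg_of_nonpos hka
    apply mul_nonpos_of_nonneg_of_nonpos (sq_nonneg _)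
    linarith
  rw [hsplit]
  linarith

end Vale.Agent.Lib.P322y
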