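import Vale.Agent.Lib.P322y.ZoneV1

/-! Extension of the zone `V1` of `(F)` to `d * log (1 / e) ≤ 1`, with `sqrt β = (7/10) ℓ d`. -/

namespace Vale.Agent.Lib.P322y

open Real Vale.Agent.Lib.P322

/-- Two terms of the series of `Psi`. -/
lemma Psi_ge_two {t : ℝ} (h : |t| ≤ 1) : t ^ 2 / 2 + t ^ 4 / 12 ≤ Psi t := by
  have hs := hasSum_Psi h
  have := sum_le_hasSum (Finset.range 2) (fun k _ => by
    have h2 : 0 ≤ t ^ (2 * k + 2) := by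
      have : t ^ (2 * k + 2) = (t ^ (k + 1)) ^ 2 := by ring
      rw [this]; positivity
    exact mul_nonneg (ee_nonneg k) h2) hs
  simp only [Finset.sum_range_succ, Finset.sum_range_zero, ee] at this
  norm_num at this
  linarith

lemma H_le_two {u : ℝ} (h : |u| ≤ 1) : H u ≤ log 2 - u ^ 2 / 2 - u ^ 4 / 12 := by
  rw [H_eq h]
  have := Psi_ge_two h
  linarith

/-- A cubic which is decreasing on `[0, dc]`. -/
lemma mono_cubic {a g S d dc : ℝ} (ha : 0 ≤ a) (hg : 0 ≤ g) (hd0 : 0 ≤ d) (hd : d ≤ dc)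
    (hS : 2 * a * dc + 3 * g * dc ^ 2 ≤ S) :
    a * dc ^ 2 + g * dc ^ 3 - dc * S ≤ a * d ^ 2 + g * d ^ 3 - d * S := by
  have hdc0 : 0 ≤ dc := hd0.trans hd
  have e : (a * d ^ 2 + g * d ^ 3 - d * S) - (a * dc ^ 2 + g * dc ^ 3 - dc * S)
      = (dc - d) * (S - a * (d + dc) - g * (d ^ 2 + d * dc + dc ^ 2)) := by ring
  have h1 : a * (d + dc) ≤ 2 * a * dc := by nlinarith
  have h2 : d ^ 2 + d * dc + dc ^ 2 ≤ 3 * dc ^ 2 := by nlinarith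
  have h3 : g * (d ^ 2 + d * dc + dc ^ 2) ≤ g * (3 * dc ^ 2) := mul_le_mul_of_nonneg_left h2 hg
  have h4 : 0 ≤ (dc - d) * (S - a * (d + dc) - g * (d ^ 2 + d * dc + dc ^ 2)) :=
    mul_nonneg (by linarith) (by linarith)
  linarith

/-- One numerical cell. -/
lemma cell_checkc {m d m1 m2 dc : ℝ} (hm10 : 0 ≤ m1) (hm1 : m1 ≤ m) (hm2 : m ≤ m2) (hm21 : m2 < 1)
    (hd0 : 0 < d) (hdc : d ≤ dc)
    (hA : 0 ≤ 1.3762 + 1.6293 * m1 ^ 2 - 0.045 * m2 ^ 4 - 10.6443 * dc ^ 2 - 1 / (2 * (1 - m2 ^ 2))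
      - 0.0966 * dc ^ 2 * (1 / (1 - m2) ^ 3 + 1 / (1 + m1) ^ 3))
    (hB : 0 ≤ 0.1566 + 0.5115 * m1 ^ 2 + 0.0852 * dc ^ 2 + (0.0842 + 0.23 * m1 ^ 2) * dc ^ 3
      - dc * (-0.0142 + 0.3114 * m2 ^ 2 + 0.045 * m2 ^ 4 + 1 / (2 * (1 - m2 ^ 2))
        + 0.0966 * dc ^ 2 * (1 / (1 - m2) ^ 3 + 1 / (1 + m1) ^ 3)))
    (hC : 2 * 0.0852 * dc + 3 * (0.0842 + 0.23 * m1 ^ 2) * dc ^ 2 ≤ (-0.0142 + 0.3114 * m2 ^ 2 + 0.045 * m2 ^ 4 + 1 / (2 * (1 - m2 ^ 2))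
        + 0.0966 * dc ^ 2 * (1 / (1 - m2) ^ 3 + 1 / (1 + m1) ^ 3))) :
    0 ≤ 1.3762 + 1.6293 * m ^ 2 - 0.045 * m ^ 4 - 10.6443 * d ^ 2 - 1 / (2 * (1 - m ^ 2))
      - 0.0966 * d ^ 2 * (1 / (1 - m) ^ 3 + 1 / (1 + m) ^ 3) ∧
    0 ≤ 0.1566 + 0.5115 * m ^ 2 + 0.0852 * d ^ 2 + (0.0842 + 0.23 * m ^ 2) * d ^ 3
      - d * (-0.0142 + 0.3114 * m ^ 2 + 0.045 * m ^ 4 + 1 / (2 * (1 - m ^ 2))
        + 0.0966 * d ^ 2 * (1 / (1 - m) ^ 3 + 1 / (1 + m) ^ 3)) := by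
  have hm0 : 0 ≤ m := hm10.trans hm1
  have hm20 : 0 ≤ m2 := hm0.trans hm2
  have sq1 : m1 ^ 2 ≤ m ^ 2 := pow_le_pow_left₀ hm10 hm1 2
  have sq2 : m ^ 2 ≤ m2 ^ 2 := pow_le_pow_left₀ hm0 hm2 2
  have qu2 : m ^ 4 ≤ m2 ^ 4 := pow_le_pow_left₀ hm0 hm2 4
  have hdsq : d ^ 2 ≤ dc ^ 2 := pow_le_pow_left₀ hd0.le hdc 2
  have hm2sq : 0 < 1 - m2 ^ 2 := by nlinarith
  have hmsq : 0 < 1 - m ^ 2 := by linarith
  have hQ : 1 / (2 * (1 - m ^ 2)) ≤ 1 / (2 * (1 - m2 ^ 2)) :=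
    one_div_le_one_div_of_le (by positivity) (by linarith)
  have hp1 : 0 < 1 - m2 := by linarith
  have hp2 : 0 < 1 - m := by linarith
  have hT1 : 1 / (1 - m) ^ 3 ≤ 1 / (1 - m2) ^ 3 :=
    one_div_le_one_div_of_le (by positivity) (pow_le_pow_left₀ hp1.le (by linarith) 3)
  have hT2 : 1 / (1 + m) ^ 3 ≤ 1 / (1 + m1) ^ 3 :=
    one_div_le_one_div_of_le (by positivity) (pow_le_pow_left₀ (by linarith) (by linarith) 3)
  generalize hT : 1 / (1 - m) ^ 3 + 1 / (1 + m) ^ 3 = T at hA hB hC ⊢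
  generalize hT2' : 1 / (1 - m2) ^ 3 + 1 / (1 + m1) ^ 3 = T2 at hA hB hC ⊢
  have hT0 : 0 ≤ T := by rw [← hT]; positivity
  have hTT : T ≤ T2 := by rw [← hT, ← hT2']; linarith
  have hDT : d ^ 2 * T ≤ dc ^ 2 * T2 := mul_le_mul hdsq hTT hT0 (by positivity)
  generalize hQd : 1 / (2 * (1 - m ^ 2)) = Q at hQ ⊢
  generalize hQ2d : 1 / (2 * (1 - m2 ^ 2)) = Q2 at hQ hA hB hC ⊢
  have hm2' : 0 ≤ m ^ 2 := by positivity
  have hm4' : 0 ≤ m ^ 4 := by positivity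
  have hDT0 : 0 ≤ d ^ 2 * T := by positivity
  have hd3 : 0 ≤ d ^ 3 := by positivity
  constructor
  · linarith
  · have hS : -0.0142 + 0.3114 * m ^ 2 + 0.045 * m ^ 4 + Q + 0.0966 * d ^ 2 * T
        ≤ -0.0142 + 0.3114 * m2 ^ 2 + 0.045 * m2 ^ 4 + Q2 + 0.0966 * dc ^ 2 * T2 := by linarith
    have hmul := mul_le_mul_of_nonneg_left hS hd0.le
    have hg : (0.0842 + 0.23 * m1 ^ 2) * d ^ 3 ≤ (0.0842 + 0.23 * m ^ 2) * d ^ 3 :=
      mul_le_mul_of_nonneg_right (by linarith) hd3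
    have hmono := mono_cubic (a := 0.0852) (g := 0.0842 + 0.23 * m1 ^ 2)
      (S := -0.0142 + 0.3114 * m2 ^ 2 + 0.045 * m2 ^ 4 + Q2 + 0.0966 * dc ^ 2 * T2)
      (by norm_num) (by positivity) hd0.le hdc hC
    linarith

/-- All numerical cells. -/
lemma cells_allc {m d : ℝ} (hm0 : 0 ≤ m) (hm1 : m < 0.8165) (hd0 : 0 < d) (hd1 : d ≤ 0.2636)
    (hmd : m + d ≤ 1) :
    0 ≤ 1.3762 + 1.6293 * m ^ 2 - 0.045 * m ^ 4 - 10.6443 * d ^ 2 - 1 / (2 * (1 - m ^ 2))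
      - 0.0966 * d ^ 2 * (1 / (1 - m) ^ 3 + 1 / (1 + m) ^ 3) ∧
    0 ≤ 0.1566 + 0.5115 * m ^ 2 + 0.0852 * d ^ 2 + (0.0842 + 0.23 * m ^ 2) * d ^ 3
      - d * (-0.0142 + 0.3114 * m ^ 2 + 0.045 * m ^ 4 + 1 / (2 * (1 - m ^ 2))
        + 0.0966 * d ^ 2 * (1 / (1 - m) ^ 3 + 1 / (1 + m) ^ 3)) := by
  rcases le_total m 0.329 with h1 | h1
  · exact cell_checkc (m1 := 0) (m2 := 0.329) (dc := 0.2636) le_rfl hm0 h1 (by norm_num)
      hd0 (by linarith) (by norm_num) (by norm_num) (by norm_num)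
  rcases le_total m 0.519 with h2 | h2
  · exact cell_checkc (m1 := 0.329) (m2 := 0.519) (dc := 0.2636) (by norm_num) h1 h2 (by norm_num)
      hd0 (by linarith) (by norm_num) (by norm_num) (by norm_num)
  rcases le_total m 0.646 with h3 | h3
  · exact cell_checkc (m1 := 0.519) (m2 := 0.646) (dc := 0.2636) (by norm_num) h2 h3 (by norm_num)
      hd0 (by linarith) (by norm_num) (by norm_num) (by norm_num)
  rcases le_total m 0.707 with h4 | h4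
  · exact cell_checkc (m1 := 0.646) (m2 := 0.707) (dc := 0.2636) (by norm_num) h3 h4 (by norm_num)
      hd0 (by linarith) (by norm_num) (by norm_num) (by norm_num)
  rcases le_total m 0.731 with h5 | h5
  · exact cell_checkc (m1 := 0.707) (m2 := 0.731) (dc := 0.2636) (by norm_num) h4 h5 (by norm_num)
      hd0 (by linarith) (by norm_num) (by norm_num) (by norm_num)
  rcases le_total m 0.739 with h6 | h6
  · exact cell_checkc (m1 := 0.731) (m2 := 0.739) (dc := 0.2636) (by norm_num) h5 h6 (by norm_num)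
      hd0 (by linarith) (by norm_num) (by norm_num) (by norm_num)
  rcases le_total m 0.744 with h7 | h7
  · exact cell_checkc (m1 := 0.739) (m2 := 0.744) (dc := 0.261) (by norm_num) h6 h7 (by norm_num)
      hd0 (by linarith) (by norm_num) (by norm_num) (by norm_num)
  rcases le_total m 0.751 with h8 | h8
  · exact cell_checkc (m1 := 0.744) (m2 := 0.751) (dc := 0.256) (by norm_num) h7 h8 (by norm_num)
      hd0 (by linarith) (by norm_num) (by norm_num) (by norm_num)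
  rcases le_total m 0.759 with h9 | h9
  · exact cell_checkc (m1 := 0.751) (m2 := 0.759) (dc := 0.249) (by norm_num) h8 h9 (by norm_num)
      hd0 (by linarith) (by norm_num) (by norm_num) (by norm_num)
  rcases le_total m 0.768 with h10 | h10
  · exact cell_checkc (m1 := 0.759) (m2 := 0.768) (dc := 0.241) (by norm_num) h9 h10 (by norm_num)
      hd0 (by linarith) (by norm_num) (by norm_num) (by norm_num)
  rcases le_total m 0.777 with h11 | h11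
  · exact cell_checkc (m1 := 0.768) (m2 := 0.777) (dc := 0.232) (by norm_num) h10 h11 (by norm_num)
      hd0 (by linarith) (by norm_num) (by norm_num) (by norm_num)
  rcases le_total m 0.786 with h12 | h12
  · exact cell_checkc (m1 := 0.777) (m2 := 0.786) (dc := 0.223) (by norm_num) h11 h12 (by norm_num)
      hd0 (by linarith) (by norm_num) (by norm_num) (by norm_num)
  rcases le_total m 0.794 with h13 | h13
  · exact cell_checkc (m1 := 0.786) (m2 := 0.794) (dc := 0.214) (by norm_num) h12 h13 (by norm_num)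
      hd0 (by linarith) (by norm_num) (by norm_num) (by norm_num)
  rcases le_total m 0.801 with h14 | h14
  · exact cell_checkc (m1 := 0.794) (m2 := 0.801) (dc := 0.206) (by norm_num) h13 h14 (by norm_num)
      hd0 (by linarith) (by norm_num) (by norm_num) (by norm_num)
  rcases le_total m 0.807 with h15 | h15
  · exact cell_checkc (m1 := 0.801) (m2 := 0.807) (dc := 0.199) (by norm_num) h14 h15 (by norm_num)
      hd0 (by linarith) (by norm_num) (by norm_num) (by norm_num)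
  rcases le_total m 0.812 with h16 | h16
  · exact cell_checkc (m1 := 0.807) (m2 := 0.812) (dc := 0.193) (by norm_num) h15 h16 (by norm_num)
      hd0 (by linarith) (by norm_num) (by norm_num) (by norm_num)
  rcases le_total m 0.816 with h17 | h17
  · exact cell_checkc (m1 := 0.812) (m2 := 0.816) (dc := 0.188) (by norm_num) h16 h17 (by norm_num)
      hd0 (by linarith) (by norm_num) (by norm_num) (by norm_num)
  · exact cell_checkc (m1 := 0.816) (m2 := 0.8165) (dc := 0.184) (by norm_num) h17 hm1.le (by norm_num)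
      hd0 (by linarith) (by norm_num) (by norm_num) (by norm_num)

/-- The series bound for the average. -/
noncomputable def Hub (L2 m d : ℝ) : ℝ := L2 - (m ^ 2 + d ^ 2) / 2 - (m ^ 4 + 6 * m ^ 2 * d ^ 2 + d ^ 4) / 12

/-- Left endpoint `ℓ = 3.794`. -/
lemma endpoint_Ac {m d L2 Q T : ℝ} (hL1 : 0.6931 ≤ L2) (hL2 : L2 ≤ 0.6932)
    (hK0 : 0 ≤ (4 - 6 * m ^ 2 - d ^ 2) / 3) (hT0 : 0 ≤ T)
    (hA : 0 ≤ 1.3762 + 1.6293 * m ^ 2 - 0.045 * m ^ 4 - 10.6443 * d ^ 2 - Q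
      - 0.0966 * d ^ 2 * T) :
    0 ≤ (7 / 10 - 100 / 391 * ((4 - 6 * m ^ 2 - d ^ 2) / 3)) * 3.794
      - 59 / 100 * (343 / 1000) * 3.794 ^ 3 * d ^ 2
      - (23 / 50 * (L2 - (m ^ 2 + d ^ 2) / 2 - (m ^ 4 + 6 * m ^ 2 * d ^ 2 + d ^ 4) / 12)
        + 1 / 4 * (1 - 4 / 3 * m ^ 2 + 1 / 3 * m ^ 4 - d ^ 2 * ((4 - 6 * m ^ 2 - d ^ 2) / 3))
        + (Q + (L2 - 1 / 2) * (d ^ 2 / 2) * T) + (100 / 391 - L2) * ((4 - 6 * m ^ 2 - d ^ 2) / 3)) := by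
  have h_a := mul_nonneg (sub_nonneg.mpr hL1) hK0
  have h_b : 0 ≤ (0.6932 - L2) * (d ^ 2 * T) :=
    mul_nonneg (by linarith) (by positivity)
  have h_c : 0 ≤ d ^ 2 * ((4 - 6 * m ^ 2 - d ^ 2) / 3) := mul_nonneg (by positivity) hK0
  have h_d : 0 ≤ d ^ 2 := by positivity
  have h_e : 0 ≤ m ^ 2 := by positivity
  have h_f : 0 ≤ m ^ 4 := by positivity
  have h_g : 0 ≤ m ^ 2 * d ^ 2 := by positivity
  have h_h : 0 ≤ d ^ 4 := by positivity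
  linarith

/-- The bound of the constant term at the right endpoint. -/
lemma endpoint_Rc {m d L2 Q T : ℝ} (hL1 : 0.6931 ≤ L2) (hL2 : L2 ≤ 0.6932)
    (hK0 : 0 ≤ (4 - 6 * m ^ 2 - d ^ 2) / 3) (hT0 : 0 ≤ T) :
    23 / 50 * (L2 - (m ^ 2 + d ^ 2) / 2 - (m ^ 4 + 6 * m ^ 2 * d ^ 2 + d ^ 4) / 12)
        + 1 / 4 * (1 - 4 / 3 * m ^ 2 + 1 / 3 * m ^ 4 - d ^ 2 * ((4 - 6 * m ^ 2 - d ^ 2) / 3))
        + (Q + (L2 - 1 / 2) * (d ^ 2 / 2) * T) + (100 / 391 - L2) * ((4 - 6 * m ^ 2 - d ^ 2) / 3)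
      ≤ -0.0142 + 0.3114 * m ^ 2 + 0.045 * m ^ 4 + Q + 0.0966 * d ^ 2 * T
        - (0.0842 + 0.23 * m ^ 2) * d ^ 2 := by
  have h_a := mul_nonneg (sub_nonneg.mpr hL1) hK0
  have h_b : 0 ≤ (0.6932 - L2) * (d ^ 2 * T) :=
    mul_nonneg (by linarith) (by positivity)
  have h_c : 0 ≤ d ^ 2 * ((4 - 6 * m ^ 2 - d ^ 2) / 3) := mul_nonneg (by positivity) hK0
  have h_d : 0 ≤ d ^ 2 := by positivity
  have h_e : 0 ≤ m ^ 2 := by positivity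
  have h_f : 0 ≤ m ^ 4 := by positivity
  have h_h : 0 ≤ d ^ 4 := by positivity
  linarith

/-- The reduced inequality: concavity in `ℓ`, then the numerical cells. -/
lemma core_ineqc {ℓ m d L2 : ℝ} (hL1 : 0.6931 ≤ L2) (hL2 : L2 ≤ 0.6932) (hℓ0 : 3.794 ≤ ℓ)
    (hℓd : d * ℓ ≤ 1) (hd0 : 0 < d) (hm0 : 0 ≤ m) (hmd : m + d ≤ 1)
    (hz : 6 * m ^ 2 + d ^ 2 < 4) :
    0 ≤ 7 / 10 * ℓ * (1 - 59 / 100 * (7 / 10 * ℓ * d) ^ 2)
      - (23 / 50 * (L2 - (m ^ 2 + d ^ 2) / 2 - (m ^ 4 + 6 * m ^ 2 * d ^ 2 + d ^ 4) / 12)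
        + 1 / 4 * (gt m - d ^ 2 * ((4 - 6 * m ^ 2 - d ^ 2) / 3)))
      - (1 / (2 * (1 - m ^ 2)) + (L2 - 1 / 2) * (d ^ 2 / 2) * (1 / (1 - m) ^ 3 + 1 / (1 + m) ^ 3))
      - (100 / 391 * (ℓ + 1) - L2) * ((4 - 6 * m ^ 2 - d ^ 2) / 3) := by
  have hd1 : d ≤ 0.2636 := by
    have : d * 3.794 ≤ d * ℓ := mul_le_mul_of_nonneg_left hℓ0 hd0.le
    norm_num at this hℓd ⊢
    linarith
  have hm1 : m < 0.8165 := by
    by_contra h
    have h' : 0.8165 ≤ m := not_lt.mp h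
    have : (0.8165 : ℝ) ^ 2 ≤ m ^ 2 := pow_le_pow_left₀ (by norm_num) h' 2
    norm_num at this
    nlinarith [sq_nonneg d]
  obtain ⟨hA, hB⟩ := cells_allc hm0 hm1 hd0 hd1 hmd
  have hm11 : m < 1 := by linarith
  have hp1 : 0 < 1 - m := by linarith
  have hp2 : 0 < 1 + m := by linarith
  generalize hT : 1 / (1 - m) ^ 3 + 1 / (1 + m) ^ 3 = T at hA hB ⊢
  have hT0 : 0 ≤ T := by rw [← hT]; positivity
  generalize hQ : 1 / (2 * (1 - m ^ 2)) = Q at hA hB ⊢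
  have hK0 : 0 ≤ (4 - 6 * m ^ 2 - d ^ 2) / 3 := by linarith
  have hgt : gt m = 1 - 4 / 3 * m ^ 2 + 1 / 3 * m ^ 4 := rfl
  rw [hgt]
  have hA' := endpoint_Ac (Q := Q) (T := T) hL1 hL2 hK0 hT0 hA
  have hR' := endpoint_Rc (d := d) (Q := Q) hL1 hL2 hK0 hT0
  generalize hK : (4 - 6 * m ^ 2 - d ^ 2) / 3 = K at hA' hR' hK0 ⊢
  have hKe : K = (4 - 6 * m ^ 2 - d ^ 2) / 3 := hK.symm
  generalize hR : 23 / 50 * (L2 - (m ^ 2 + d ^ 2) / 2 - (m ^ 4 + 6 * m ^ 2 * d ^ 2 + d ^ 4) / 12)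
        + 1 / 4 * (1 - 4 / 3 * m ^ 2 + 1 / 3 * m ^ 4 - d ^ 2 * K)
        + (Q + (L2 - 1 / 2) * (d ^ 2 / 2) * T) + (100 / 391 - L2) * K = R at hA' hR'
  -- left endpoint
  have h0 : 0 ≤ (7 / 10 - 100 / 391 * K) * (3.794 * d)
      - (59 / 100 * (343 / 1000)) * (3.794 * d) ^ 3 - d * R := by
    have e : (7 / 10 - 100 / 391 * K) * (3.794 * d)
        - (59 / 100 * (343 / 1000)) * (3.794 * d) ^ 3 - d * R
        = d * ((7 / 10 - 100 / 391 * K) * 3.794 - 59 / 100 * (343 / 1000) * 3.794 ^ 3 * d ^ 2 - R) := by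
      ring
    rw [e]
    exact mul_nonneg hd0.le hA'
  -- right endpoint
  have h1 : 0 ≤ (7 / 10 - 100 / 391 * K) * 1 - (59 / 100 * (343 / 1000)) * 1 ^ 3 - d * R := by
    have hmul := mul_le_mul_of_nonneg_left hR' hd0.le
    have hαb : 0.1566 + 0.5115 * m ^ 2 + 0.0852 * d ^ 2
        ≤ (7 / 10 - 100 / 391 * K) * 1 - (59 / 100 * (343 / 1000)) * 1 ^ 3 := by
      rw [hKe]
      have h_d : 0 ≤ d ^ 2 := by positivity
      have h_e : 0 ≤ m ^ 2 := by positivity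
      norm_num
      linarith
    have e3 : d * (-0.0142 + 0.3114 * m ^ 2 + 0.045 * m ^ 4 + Q + 0.0966 * d ^ 2 * T
        - (0.0842 + 0.23 * m ^ 2) * d ^ 2)
        = d * (-0.0142 + 0.3114 * m ^ 2 + 0.045 * m ^ 4 + Q + 0.0966 * d ^ 2 * T)
          - (0.0842 + 0.23 * m ^ 2) * d ^ 3 := by ring
    rw [e3] at hmul
    linarith
  have hmain := cubic_chord (α := 7 / 10 - 100 / 391 * K) (γ := 59 / 100 * (343 / 1000)) (C := d * R)
    (s0 := 3.794 * d) (s1 := 1) (s := d * ℓ) (by norm_num) (by positivity)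
    (by rw [mul_comm d ℓ]; exact mul_le_mul_of_nonneg_right hℓ0 hd0.le) hℓd h0 h1
  have e : (7 / 10 - 100 / 391 * K) * (d * ℓ) - (59 / 100 * (343 / 1000)) * (d * ℓ) ^ 3 - d * R
      = d * (7 / 10 * ℓ * (1 - 59 / 100 * (7 / 10 * ℓ * d) ^ 2)
        - (23 / 50 * (L2 - (m ^ 2 + d ^ 2) / 2 - (m ^ 4 + 6 * m ^ 2 * d ^ 2 + d ^ 4) / 12)
          + 1 / 4 * (1 - 4 / 3 * m ^ 2 + 1 / 3 * m ^ 4 - d ^ 2 * K))
        - (Q + (L2 - 1 / 2) * (d ^ 2 / 2) * T)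
        - (100 / 391 * (ℓ + 1) - L2) * K) := by
    rw [← hR]; ring
  rw [e] at hmain
  exact nonneg_of_mul_nonneg_right hmain hd0

/-- The parameters of the pair. -/
lemma v1_paramsc {ℓ d : ℝ} (hℓ : 0 < ℓ) (hd0 : 0 < d) (hdl : d * ℓ ≤ 1) :
    let u := 7 / 10 * ℓ * d
    let b := u ^ 2
    let τ := u * (1 - 59 / 100 * b)
    0 ≤ b ∧ b ≤ 1 ∧ 0 ≤ τ ∧ τ ^ 2 ≤ b * (1 - b) := by
  intro u b τ
  have hu0 : 0 ≤ u := by positivity
  have hu1 : u ≤ 7 / 10 := by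
    have : u = 7 / 10 * (d * ℓ) := by simp only [u]; ring
    rw [this]; linarith
  have hb0 : 0 ≤ b := by positivity
  have hb1 : b ≤ 0.49 := by
    have : u ^ 2 ≤ (7 / 10) ^ 2 := pow_le_pow_left₀ hu0 hu1 2
    simp only [b]
    norm_num at this ⊢
    linarith
  norm_num at hb1
  have hτ0 : 0 ≤ τ := by
    apply mul_nonneg hu0
    linarith
  refine ⟨hb0, by linarith, hτ0, ?_⟩
  have e1 : τ ^ 2 = b * (1 - 59 / 100 * b) ^ 2 := by simp only [τ, b]; ring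
  rw [e1]
  apply mul_le_mul_of_nonneg_left _ hb0
  nlinarith

lemma v1_Wc {Z σ κ Hb Gb Hu : ℝ} (hZσ : Z * σ ≤ 23 / 50) (hZκ : Z * κ ≤ 1 / 4) (hHb0 : 0 ≤ Hb)
    (hGb0 : 0 ≤ Gb) (hHb1 : Hb ≤ Hu) :
    Z * (σ * Hb + κ * Gb) ≤ 23 / 50 * Hu + 1 / 4 * Gb := by
  have h1 := mul_le_mul_of_nonneg_right hZσ hHb0
  have h2 := mul_le_mul_of_nonneg_right hZκ hGb0
  have e : Z * (σ * Hb + κ * Gb) = Z * σ * Hb + Z * κ * Gb := by ring
  rw [e]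
  linarith

/-- **The zone `V1` of `(F)`, extended to `d * log (1 / e) ≤ 1`.** -/
theorem zoneV1c {e m d : ℝ} (he0 : 0 < e) (he1 : e ≤ 9 / 400) (hm0 : 0 ≤ m) (hd0 : 0 < d)
    (hmd : m + d ≤ 1) (hz : 6 * m ^ 2 + d ^ 2 < 4) (hdl : d * log (1 / e) ≤ 1) :
    ∃ th v : ℝ, ValidPair e th v ∧ LL e m ≤ th * d + v / 2 * (LL e (m + d) + LL e (m - d)) := by
  obtain ⟨hℓ0, hU, hW⟩ := ell_facts he0 he1
  have hhE := hE_le_ell he0 (by linarith : e < 1)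
  generalize log (1 / e) = ℓ at hℓ0 hU hW hhE hdl
  have hlog1 := Real.log_two_gt_d9
  have hlog2 := Real.log_two_lt_d9
  have hL1 : (0.6931 : ℝ) ≤ log 2 := by norm_num at hlog1 ⊢; linarith
  have hL2 : log 2 ≤ (0.6932 : ℝ) := by norm_num at hlog2 ⊢; linarith
  have hL0 : 0 < log 2 := by linarith
  have hm1 : m < 1 := by linarith
  have hσ0 : 0 < sg e := by
    unfold sg
    have : 0 < 1 - e := by linarith
    positivity
  obtain ⟨hκ1, hκ2, hσℓ⟩ := v1_constants he0 he1 hℓ0 hU hW hhE hL1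
  have hℓpos : 0 < ℓ := by linarith
  obtain ⟨hb0, hb1, hτ0, hτ2⟩ := v1_paramsc hℓpos hd0 hdl
  refine ⟨sg e * ((7 / 10 * ℓ * d) * (1 - 59 / 100 * (7 / 10 * ℓ * d) ^ 2)),
    1 - (7 / 10 * ℓ * d) ^ 2 * sg e / (2 * log 2),
    V1pair_valid he0 (by linarith) hb0 hb1 hτ0 hτ2, ?_⟩
  -- expansions
  have hK0 : 0 ≤ (4 - 6 * m ^ 2 - d ^ 2) / 3 := by linarith
  have hGb : (gt (m + d) + gt (m - d)) / 2 = gt m - d ^ 2 * ((4 - 6 * m ^ 2 - d ^ 2) / 3) := by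
    unfold gt; ring
  have hJ : H m = (H (m + d) + H (m - d)) / 2 + JJ m d := by unfold JJ; ring
  have hSum : LL e (m + d) + LL e (m - d)
      = 2 * (sg e * ((H (m + d) + H (m - d)) / 2) + ka e * ((gt (m + d) + gt (m - d)) / 2)) := by
    unfold LL; ring
  have hLm : LL e m = sg e * ((H (m + d) + H (m - d)) / 2 + JJ m d)
      + ka e * ((gt (m + d) + gt (m - d)) / 2 + d ^ 2 * ((4 - 6 * m ^ 2 - d ^ 2) / 3)) := by
    unfold LL
    rw [← hJ, hGb]; ring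
  have a1 : |m + d| ≤ 1 := by rw [abs_le]; constructor <;> linarith
  have a2 : |m - d| ≤ 1 := by rw [abs_le]; constructor <;> linarith
  have hHb0 : 0 ≤ (H (m + d) + H (m - d)) / 2 := by
    have := H_nonneg a1
    have := H_nonneg a2
    linarith
  have hGb0 : 0 ≤ (gt (m + d) + gt (m - d)) / 2 := by
    have := gt_nonneg a1
    have := gt_nonneg a2
    linarith
  have hHb1 : (H (m + d) + H (m - d)) / 2
      ≤ log 2 - (m ^ 2 + d ^ 2) / 2 - (m ^ 4 + 6 * m ^ 2 * d ^ 2 + d ^ 4) / 12 := by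
    have h1 := H_le_two a1
    have h2 := H_le_two a2
    have e1 : ((m + d) ^ 2 + (m - d) ^ 2) / 2 = m ^ 2 + d ^ 2 := by ring
    have e2 : ((m + d) ^ 4 + (m - d) ^ 4) / 2 = m ^ 4 + 6 * m ^ 2 * d ^ 2 + d ^ 4 := by ring
    linarith
  have hJb := JJ_le hm0 hd0.le hmd hm1
  have hcore := core_ineqc hL1 hL2 hℓ0 hdl hd0 hm0 hmd hz
  rw [hLm, hSum]
  -- the constants
  have hZ0 : 0 ≤ 49 / 100 * ℓ ^ 2 / (2 * log 2) := by positivity
  have hZσ : 49 / 100 * ℓ ^ 2 / (2 * log 2) * sg e ≤ 23 / 50 := by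
    have e1 : 49 / 100 * ℓ ^ 2 / (2 * log 2) * sg e = 49 / 100 * (sg e * ℓ ^ 2) / (2 * log 2) := by ring
    rw [e1, div_le_iff₀ (by positivity)]
    norm_num at hσℓ hL1 ⊢
    linarith
  have hZκ : 49 / 100 * ℓ ^ 2 / (2 * log 2) * ka e ≤ 1 / 4 := by
    have e1 : 49 / 100 * ℓ ^ 2 / (2 * log 2) * ka e = 49 / 100 * (ka e * ℓ ^ 2) / (2 * log 2) := by ring
    rw [e1, div_le_iff₀ (by positivity)]
    norm_num at hκ2 hL1 ⊢
    linarith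
  have hW1 : 49 / 100 * ℓ ^ 2 / (2 * log 2) * (sg e * ((H (m + d) + H (m - d)) / 2)
        + ka e * ((gt (m + d) + gt (m - d)) / 2))
      ≤ 23 / 50 * (log 2 - (m ^ 2 + d ^ 2) / 2 - (m ^ 4 + 6 * m ^ 2 * d ^ 2 + d ^ 4) / 12)
        + 1 / 4 * (gt m - d ^ 2 * ((4 - 6 * m ^ 2 - d ^ 2) / 3)) := by
    rw [← hGb]
    exact v1_Wc hZσ hZκ hHb0 hGb0 hHb1
  have c2 : ka e * (d ^ 2 * ((4 - 6 * m ^ 2 - d ^ 2) / 3))
      ≤ sg e * d ^ 2 * ((100 / 391 * (ℓ + 1) - log 2) * ((4 - 6 * m ^ 2 - d ^ 2) / 3)) := by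
    have := mul_le_mul_of_nonneg_right hκ1 (mul_nonneg (sq_nonneg d) hK0)
    linarith [this]
  refine v1_final_algebra (A := 7 / 10 * ℓ * (1 - 59 / 100 * (7 / 10 * ℓ * d) ^ 2)) hσ0.le ?_ ?_ hJb c2
    hW1 hcore
  · ring
  · field_simp
    norm_num

end Vale.Agent.Lib.P322y
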